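import Vale.Agent.P151.Height.Nilpotent

/-!
Graphs with a group of automorphisms with finitely many orbits: a homomorphism of a finite-index
subgroup to `ℤ²` killing stabilisers gives a height map, and a virtually nilpotent quotient with
finite images of stabilisers and finite kernel orbits gives either a height map or a line.
-/

open MeasureTheory Finset
open scoped unitInterval

namespace Vale.Agent.P151.Height

open Vale.Agent.P165

variable {W Γ : Type*} [Group Γ] [MulAction Γ W]

/-- An element of a group of automorphisms as an automorphism. -/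
def smulIso (H : SimpleGraph W) (haut : ∀ (g : Γ) x y, H.Adj x y → H.Adj (g • x) (g • y)) (g : Γ) :
    H ≃g H where
  toEquiv := MulAction.toPerm g
  map_rel_iff' := by
    intro a b
    refine ⟨fun h => ?_, fun h => haut g a b h⟩
    simpa using haut g⁻¹ (g • a) (g • b) h

/-- A homomorphism killing stabilisers gives a map that it translates. -/
lemma exists_potential (K : Subgroup Γ) {A : Type*} [AddCommGroup A]
    (f : K →* Multiplicative A) (hst : ∀ (k : K) (x : W), (k : Γ) • x = x → f k = 1) :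
    ∃ π : W → A, ∀ (k : K) (x : W), π ((k : Γ) • x) = π x + Multiplicative.toAdd (f k) := by
  classical
  let r : W → W := fun x => (Quotient.mk (MulAction.orbitRel K W) x).out
  have hr : ∀ x, ∃ k : K, (k : Γ) • r x = x := fun x => by
    obtain ⟨k, hk⟩ := Quotient.mk_out (s := MulAction.orbitRel K W) x
    refine ⟨k⁻¹, ?_⟩
    show (k⁻¹ : K) • r x = x
    rw [show r x = k • x from hk.symm, inv_smul_smul]
  choose s hs using hr
  have hrk : ∀ (k : K) x, r ((k : Γ) • x) = r x := fun k x => by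
    simp only [r]
    congr 1
    exact Quotient.sound ⟨k, rfl⟩
  refine ⟨fun x => Multiplicative.toAdd (f (s x)), fun k x => ?_⟩
  have e : (((s ((k : Γ) • x))⁻¹ * (k * s x) : K) : Γ) • r x = r x := by
    have h1 := hs ((k : Γ) • x)
    rw [hrk] at h1
    simp only [Subgroup.coe_mul, Subgroup.coe_inv, mul_smul, hs x]
    rw [inv_smul_eq_iff]
    exact h1.symm
  have := hst _ _ e
  rw [map_mul, map_inv, map_mul, inv_mul_eq_one] at this
  show Multiplicative.toAdd (f (s ((k : Γ) • x))) = _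
  rw [this, toAdd_mul, add_comm]

/-- A subgroup of finite index still has finitely many orbits. -/
lemma exists_finite_reps [DecidableEq W] (K : Subgroup Γ) [K.FiniteIndex]
    (hco : ∃ F : Finset W, ∀ x, ∃ g : Γ, g • x ∈ F) :
    ∃ F : Finset W, ∀ x, ∃ k : K, (k : Γ) • x ∈ F := by
  classical
  obtain ⟨F, hF⟩ := hco
  haveI : Finite (Γ ⧸ K) := Subgroup.finite_quotient_of_finiteIndex
  haveI := Fintype.ofFinite (Γ ⧸ K)
  refine ⟨((Finset.univ : Finset (Γ ⧸ K)) ×ˢ F).image fun a => a.1.out⁻¹ • a.2, fun x => ?_⟩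
  obtain ⟨g, hg⟩ := hF x
  obtain ⟨k, hk⟩ := QuotientGroup.mk_out_eq_mul K g
  refine ⟨k⁻¹, Finset.mem_image.2 ⟨(QuotientGroup.mk g, g • x),
    Finset.mem_product.2 ⟨Finset.mem_univ _, hg⟩, ?_⟩⟩
  simp only [hk, mul_inv_rev, mul_smul, inv_smul_smul, Subgroup.coe_inv]

/-- The height map of a finite-index subgroup mapping onto `ℤ²` and killing stabilisers. -/
theorem action_height [DecidableEq W] (H : SimpleGraph W)
    (haut : ∀ (g : Γ) x y, H.Adj x y → H.Adj (g • x) (g • y))
    (hco : ∃ F : Finset W, ∀ x, ∃ g : Γ, g • x ∈ F)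
    (K : Subgroup Γ) [K.FiniteIndex] (f : K →* Multiplicative (ℤ × ℤ))
    (hf : Function.Surjective f) (hst : ∀ (k : K) (x : W), (k : Γ) • x = x → f k = 1) :
    ∃ π : W → ℤ × ℤ,
      (∀ v, ∃ φ : H ≃g H, ∀ x, π (φ x) = π x + v) ∧
      ∃ F : Finset W, ∀ x, ∃ φ : H ≃g H, (∃ v, ∀ y, π (φ y) = π y + v) ∧ φ x ∈ F := by
  obtain ⟨π, hπ⟩ := exists_potential K f hst
  obtain ⟨F, hF⟩ := exists_finite_reps K hco
  refine ⟨π, fun v => ?_, F, fun x => ?_⟩
  · obtain ⟨k, hk⟩ := hf (Multiplicative.ofAdd v)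
    exact ⟨smulIso H haut (k : Γ), fun x => by simp [smulIso, hπ, hk]⟩
  · obtain ⟨k, hk⟩ := hF x
    exact ⟨smulIso H haut (k : Γ), ⟨Multiplicative.toAdd (f k), fun y => by simp [smulIso, hπ]⟩,
      hk⟩

/-- A homomorphism onto an infinite cyclic group. -/
lemma exists_zpow_hom {Q : Type*} [Group Q] (q : Γ →* Q) {t : Q} (ht : ¬ IsOfFinOrder t) :
    ∃ e : (Subgroup.zpowers t).comap q →* Multiplicative ℤ,
      ∀ k : (Subgroup.zpowers t).comap q, q (k : Γ) = t ^ Multiplicative.toAdd (e k) := by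
  have hinj : Function.Injective fun n : ℤ => t ^ n := injective_zpow_iff_not_isOfFinOrder.2 ht
  have h : ∀ k : (Subgroup.zpowers t).comap q, ∃ n : ℤ, t ^ n = q (k : Γ) := fun k => k.2
  choose e he using h
  refine ⟨MonoidHom.mk' (fun k => Multiplicative.ofAdd (e k)) fun a b => ?_, fun k => (he k).symm⟩
  rw [← ofAdd_add]
  congr 1
  refine hinj ?_
  simp only [zpow_add, he, Subgroup.coe_mul, map_mul]

variable [DecidableEq W]

/-- The line case. -/
theorem no_infinite_of_cyclic_action {Q : Type*} [Group Q] (H : SimpleGraph W) [H.LocallyFinite]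
    [Countable W] (haut : ∀ (g : Γ) x y, H.Adj x y → H.Adj (g • x) (g • y))
    (hco : ∃ F : Finset W, ∀ x, ∃ g : Γ, g • x ∈ F)
    (q : Γ →* Q) (hq : Function.Surjective q)
    (hst : ∀ x : W, (q '' {g | g • x = x}).Finite)
    (hker : ∀ x : W, {y | ∃ g : Γ, q g = 1 ∧ g • x = y}.Finite)
    (t : Q) [(Subgroup.zpowers t).FiniteIndex] (p : I) (hp : (p : ℝ) < 1) :
    bondMeasure H p (infExists H) = 0 := by
  classical
  by_cases ht : IsOfFinOrder t
  · haveI : Finite (Subgroup.zpowers t) := ht.finite_zpowers.to_subtype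
    haveI : Finite (Q ⧸ Subgroup.zpowers t) := Subgroup.finite_quotient_of_finiteIndex
    haveI : Finite Q := Finite.of_equiv _ (Subgroup.groupEquivQuotientProdSubgroup
      (s := Subgroup.zpowers t)).symm
    choose s hs using hq
    obtain ⟨F, hF⟩ := hco
    haveI : Finite W := by
      refine Set.finite_univ_iff.1 ((Set.Finite.biUnion F.finite_toSet fun y _ =>
        Set.finite_iUnion fun a : Q => ((hker y).image fun z => s a • z)).subset fun x _ => ?_)
      obtain ⟨g, hg⟩ := hF x
      refine Set.mem_iUnion₂.2 ⟨g • x, hg, Set.mem_iUnion.2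
        ⟨q g⁻¹, (s (q g⁻¹))⁻¹ • x, ⟨(s (q g⁻¹))⁻¹ * g⁻¹, ?_, ?_⟩, smul_inv_smul _ _⟩⟩
      · simp [hs]
      · rw [mul_smul, inv_smul_smul]
    refine measure_mono_null (fun ω ⟨C, hC⟩ => ?_) measure_empty
    exact (hC (Set.toFinite _)).elim
  haveI : ((Subgroup.zpowers t).comap q).FiniteIndex := ⟨by
    rw [Subgroup.index_comap_of_surjective _ hq]; exact Subgroup.FiniteIndex.index_ne_zero⟩
  obtain ⟨e, he⟩ := exists_zpow_hom q ht
  obtain ⟨π, hπ⟩ := exists_potential ((Subgroup.zpowers t).comap q) e fun k x hx => by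
    have hfin : IsOfFinOrder (q (k : Γ)) := by
      refine finite_powers.1 ((hst x).subset ?_)
      rintro _ ⟨n, rfl⟩
      refine ⟨(k : Γ) ^ n, ?_, map_pow _ _ _⟩
      show (k : Γ) ^ n • x = x
      induction n with
      | zero => simp
      | succ n ih => rw [pow_succ, mul_smul, hx, ih]
    rw [he] at hfin
    by_contra h
    obtain ⟨n, hn, hn1⟩ := hfin.exists_pow_eq_one
    rw [← zpow_natCast, ← zpow_mul] at hn1
    refine ht (isOfFinOrder_iff_zpow_eq_one.2 ⟨_, mul_ne_zero (fun h' => h ?_) (by omega), hn1⟩)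
    exact Multiplicative.toAdd.injective h'
  obtain ⟨F, hF⟩ := exists_finite_reps ((Subgroup.zpowers t).comap q) hco
  choose k hk using hF
  obtain ⟨O, hO⟩ : ∃ O : W → Finset W, ∀ x y, y ∈ O x ↔ ∃ g : Γ, q g = 1 ∧ g • x = y :=
    ⟨fun x => (hker x).toFinset, fun x y => Set.Finite.mem_toFinset _⟩
  have hfib : ∀ n : ℤ, ∃ T : Finset W, (∀ x, π x = n → x ∈ T) ∧ T.card ≤ ∑ r ∈ F, (O r).card := by
    intro n
    refine ⟨F.biUnion fun r =>
      if h : ∃ g : (Subgroup.zpowers t).comap q, π r + Multiplicative.toAdd (e g) = n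
        then (O r).image fun y => (h.choose : Γ) • y else ∅, fun x hx => ?_,
      card_biUnion_le.trans (sum_le_sum fun r _ => ?_)⟩
    · have h1 : ∃ g : (Subgroup.zpowers t).comap q,
          π ((k x : Γ) • x) + Multiplicative.toAdd (e g) = n :=
        ⟨(k x)⁻¹, by rw [hπ, map_inv, toAdd_inv, add_neg_cancel_right, hx]⟩
      refine mem_biUnion.2 ⟨_, hk x, ?_⟩
      rw [dif_pos h1]
      refine mem_image.2 ⟨(h1.choose : Γ)⁻¹ • x, (hO _ _).2
        ⟨(h1.choose : Γ)⁻¹ * (k x : Γ)⁻¹, ?_, by rw [mul_smul, inv_smul_smul]⟩, smul_inv_smul _ _⟩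
      have h2 := h1.choose_spec
      have h3 := hπ (k x) x
      rw [map_mul, map_inv, map_inv, he, he, ← zpow_neg, ← zpow_neg, ← zpow_add]
      rw [show -Multiplicative.toAdd (e h1.choose) + -Multiplicative.toAdd (e (k x)) = 0 by omega,
        zpow_zero]
    · split_ifs
      · exact card_image_le
      · simp
  let D : ℕ := F.sup fun r => (H.neighborFinset r).sup fun z => (π z - π r).natAbs
  refine no_infinite_of_line (H := H) π (D := D) (fun a b hab => ?_) hfib p hp
  have h1 : ((π ((k a : Γ) • b) - π ((k a : Γ) • a)).natAbs : ℤ) ≤ D := by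
    exact_mod_cast (Finset.le_sup (f := fun z => (π z - π ((k a : Γ) • a)).natAbs)
      ((H.mem_neighborFinset _ _).2 (haut (k a : Γ) a b hab))).trans
      (Finset.le_sup (f := fun r => (H.neighborFinset r).sup fun z => (π z - π r).natAbs) (hk a))
  rw [hπ, hπ] at h1
  omega

/-- A cofinite action with a virtually nilpotent quotient gives a height map, or there is no
infinite cluster below one. -/
theorem nilpotent_action_alternative {Q : Type*} [Group Q] [Group.FG Q] (H : SimpleGraph W)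
    [H.LocallyFinite] [Countable W]
    (haut : ∀ (g : Γ) x y, H.Adj x y → H.Adj (g • x) (g • y))
    (hco : ∃ F : Finset W, ∀ x, ∃ g : Γ, g • x ∈ F)
    (q : Γ →* Q) (hq : Function.Surjective q)
    (hst : ∀ x : W, (q '' {g | g • x = x}).Finite)
    (hker : ∀ x : W, {y | ∃ g : Γ, q g = 1 ∧ g • x = y}.Finite)
    (N : Subgroup Q) [N.FiniteIndex] [Group.IsNilpotent N] :
    (∃ π : W → ℤ × ℤ, (∀ v, ∃ φ : H ≃g H, ∀ x, π (φ x) = π x + v) ∧
      ∃ F : Finset W, ∀ x, ∃ φ : H ≃g H, (∃ v, ∀ y, π (φ y) = π y + v) ∧ φ x ∈ F) ∨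
      ∀ p : I, (p : ℝ) < 1 → bondMeasure H p (infExists H) = 0 := by
  rcases squareOrLine_of_virtuallyNilpotent N with ⟨K, f, hK, hf⟩ | ⟨t, ht⟩
  · haveI : (K.comap q).FiniteIndex := ⟨by
      rw [Subgroup.index_comap_of_surjective _ hq]; exact hK.index_ne_zero⟩
    refine Or.inl (action_height H haut hco (K.comap q) (f.comp (q.subgroupComap K)) ?_ ?_)
    · refine hf.comp ?_
      rintro ⟨x, hx⟩
      obtain ⟨g, rfl⟩ := hq x
      exact ⟨⟨g, hx⟩, rfl⟩
    · intro k x hx
      have hfin : IsOfFinOrder (q.subgroupComap K k) := by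
        rw [← Submonoid.isOfFinOrder_coe]
        refine finite_powers.1 ((hst x).subset ?_)
        rintro _ ⟨n, rfl⟩
        refine ⟨(k : Γ) ^ n, ?_, map_pow _ _ _⟩
        show (k : Γ) ^ n • x = x
        induction n with
        | zero => simp
        | succ n ih => rw [pow_succ, mul_smul, hx, ih]
      obtain ⟨n, hn, hn1⟩ := (f.isOfFinOrder hfin).exists_pow_eq_one
      have h2 := congrArg Multiplicative.toAdd hn1
      rw [toAdd_pow, toAdd_one, smul_eq_zero] at h2
      refine Multiplicative.toAdd.injective ?_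
      rcases h2 with h2 | h2
      · omega
      · exact h2
  · exact Or.inr fun p hp => no_infinite_of_cyclic_action H haut hco q hq hst hker t p hp

end Vale.Agent.P151.Height
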