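import Vale.Agent.P151.Height.Defs

/-!
Cayley graphs of groups with a finite-index subgroup mapping onto `ℤ²` carry a height map.
-/

namespace Vale.Agent.P151.Height

variable {X : Type*} [Group X]

/-- Right multiplication by the generators. -/
def cayGraph (S : Finset X) : SimpleGraph X := SimpleGraph.fromRel fun g h : X => g⁻¹ * h ∈ S

lemma cayGraph_finite (S : Finset X) (x : X) : ((cayGraph S).neighborSet x).Finite := by
  classical
  refine (((S.image fun s => x * s) ∪ S.image fun s => x * s⁻¹).finite_toSet).subset fun y hy => ?_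
  simp only [cayGraph, SimpleGraph.mem_neighborSet, SimpleGraph.fromRel_adj] at hy
  simp only [Finset.coe_union, Finset.coe_image, Set.mem_union, Set.mem_image, Finset.mem_coe]
  rcases hy.2 with h | h
  · exact Or.inl ⟨_, h, by group⟩
  · exact Or.inr ⟨_, h, by group⟩

lemma cayGraph_connected (S : Finset X) (hS : Subgroup.closure (S : Set X) = ⊤) :
    (cayGraph S).Connected := by
  have hstep : ∀ g : X, ∀ s ∈ S, (cayGraph S).Reachable g (g * s) := fun g s hs => by
    by_cases h : g = g * s
    · rw [← h]
    · exact SimpleGraph.Adj.reachable ⟨h, Or.inl (by simpa using hs)⟩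
  have hall : ∀ x : X, ∀ g, (cayGraph S).Reachable g (g * x) := by
    intro x
    have hx : x ∈ Subgroup.closure (S : Set X) := hS ▸ Subgroup.mem_top x
    induction hx using Subgroup.closure_induction with
    | mem s hs => exact fun g => hstep g s hs
    | one => intro g; simp
    | mul a b _ _ ha hb => exact fun g => mul_assoc g a b ▸ (ha g).trans (hb (g * a))
    | inv a _ ha => exact fun g => by simpa using (ha (g * a⁻¹)).symm
  exact ⟨fun g h => by simpa using hall (g⁻¹ * h) g⟩

/-- Left multiplication as an automorphism. -/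
def leftIso (S : Finset X) (k : X) : cayGraph S ≃g cayGraph S where
  toEquiv := Equiv.mulLeft k
  map_rel_iff' := by
    intro a b
    simp [cayGraph, mul_assoc]

/-- The height map of a finite-index subgroup mapping onto `ℤ²`. -/
theorem cayGraph_height (S : Finset X) (K : Subgroup X) (hK : K.FiniteIndex)
    (f : K →* Multiplicative (ℤ × ℤ)) (hf : Function.Surjective f) :
    ∃ π : X → ℤ × ℤ,
      (∀ v, ∃ φ : cayGraph S ≃g cayGraph S, ∀ x, π (φ x) = π x + v) ∧
      ∃ F : Finset X, ∀ x, ∃ φ : cayGraph S ≃g cayGraph S,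
        (∃ v, ∀ y, π (φ y) = π y + v) ∧ φ x ∈ F := by
  classical
  let Q := Quotient (QuotientGroup.rightRel K)
  haveI : Finite (X ⧸ K) := K.finite_quotient_of_finiteIndex
  haveI : Finite Q := Finite.of_equiv _ (QuotientGroup.quotientRightRelEquivQuotientLeftRel K).symm
  let r : X → X := fun g => (Quotient.mk (QuotientGroup.rightRel K) g).out
  have hr : ∀ g, g * (r g)⁻¹ ∈ K := fun g => by
    have := Quotient.mk_out (s := QuotientGroup.rightRel K) g
    exact QuotientGroup.rightRel_apply.1 this
  have hrk : ∀ k ∈ K, ∀ g, r (k * g) = r g := fun k hk g => by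
    simp only [r]
    congr 1
    refine Quotient.sound (QuotientGroup.rightRel_apply.2 ?_)
    simpa [mul_assoc] using K.inv_mem hk
  let π : X → ℤ × ℤ := fun g => Multiplicative.toAdd (f ⟨_, hr g⟩)
  have hshift : ∀ k : K, ∀ g, π ((k : X) * g) = π g + Multiplicative.toAdd (f k) := fun k g => by
    have e : (⟨_, hr ((k : X) * g)⟩ : K) = k * ⟨_, hr g⟩ := by
      ext; simp [hrk _ k.2 g, mul_assoc]
    simp only [π]
    rw [e, map_mul, toAdd_mul, add_comm]
  refine ⟨π, fun v => ?_, ?_⟩
  · obtain ⟨k, hk⟩ := hf (Multiplicative.ofAdd v)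
    exact ⟨leftIso S k, fun g => by simp [leftIso, hshift, hk]⟩
  · haveI := Fintype.ofFinite Q
    refine ⟨(Finset.univ : Finset Q).image Quotient.out, fun x => ?_⟩
    set k : K := (⟨_, hr x⟩ : K)⁻¹
    refine ⟨leftIso S k, ⟨Multiplicative.toAdd (f k), fun y => by simp [leftIso, hshift]⟩, ?_⟩
    exact Finset.mem_image.2 ⟨Quotient.mk _ x, Finset.mem_univ _, by simp [leftIso, k, r, mul_assoc]⟩

end Vale.Agent.P151.Height
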