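import Vale.Agent.P151.Reduction.Contour
import Vale.Agent.P165.Sharp

/-!
Abstract cells of the coarse lattice: what the coarse step needs from the geometry.
-/

open Finset

namespace Vale.Agent.P151.Height

open Vale.Agent.P165 (cl)
open Vale.Agent.P151.Reduction (Bond Cell tri bondTarget)

variable {W : Type*} [DecidableEq W]

/-- Cells with contacts, seeds, tubes and revealed regions. -/
structure Cells (W : Type*) where
  /-- all edges in play -/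
  U : Finset (Sym2 W)
  /-- contacts of a cell -/
  gx : ℤ → ℤ → Finset W
  /-- the seed centre of a contact -/
  cen : ℤ → W → W
  /-- the seed of a contact with its attaching walk -/
  O : ℤ → W → Finset (Sym2 W)
  /-- tubes -/
  tube : ℤ → ℤ → ℤˣ → Finset (Sym2 W)
  /-- the edges around a cell -/
  ball : ℤ → ℤ → Finset (Sym2 W)
  /-- the edges before a time -/
  half : ℤ → Finset (Sym2 W)

namespace Cells

variable (C : Cells W)

/-- The seed edges of a cell. -/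
def lay (z T : ℤ) : Finset (Sym2 W) := (C.gx z T).biUnion (C.O T)

/-- The part of a tube on which goodness depends. -/
noncomputable def gs (z T : ℤ) (σ : ℤˣ) : Finset (Sym2 W) :=
  open scoped Classical in (C.tube z T σ).filter fun e => ∃ z', e ∈ C.lay z' T

/-- Everything revealed before the hops from time `T` start. -/
noncomputable def rev (T : ℤ) : Finset (Sym2 W) :=
  C.half T ∪ open scoped Classical in C.U.filter fun e => ∃ z', e ∈ C.lay z' T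

/-- The region in which a cell is said to be reached. -/
noncomputable def reg (z T : ℤ) : Finset (Sym2 W) := C.rev T ∪ C.ball z T

/-- The fresh edges of a bond. -/
noncomputable def fresh (z T : ℤ) (σ : ℤˣ) : Finset (Sym2 W) :=
  (C.tube z T σ \ C.gs z T σ) ∪
    (C.gs (z + (σ : ℤ)) (T + 1) 1 ∪ C.gs (z + (σ : ℤ)) (T + 1) (-1))

/-- The geometry of one bond. -/
structure Facts (z T : ℤ) (σ : ℤˣ) : Prop where
  tube_sub : C.tube z T σ ⊆ C.U
  rev_inter : C.tube z T σ ∩ C.rev T = C.gs z T σ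
  gs_rev : ∀ τ, C.gs z T τ ⊆ C.rev T
  lay_gs : C.lay z T ⊆ C.gs z T σ
  lay_gs' : ∀ τ, C.lay (z + (σ : ℤ)) (T + 1) ⊆ C.gs (z + (σ : ℤ)) (T + 1) τ
  gs_sub : ∀ τ, C.gs (z + (σ : ℤ)) (T + 1) τ ⊆ C.U
  ball_tube : C.ball z T ⊆ C.tube z T σ
  tube_reg : C.tube z T σ ⊆ C.reg (z + (σ : ℤ)) (T + 1)
  rev_reg : C.rev T ⊆ C.reg (z + (σ : ℤ)) (T + 1)
  gs_disj : ∀ τ, Disjoint (C.gs (z + (σ : ℤ)) (T + 1) τ) (C.tube z T σ ∪ C.rev T)
  link : ∀ x ∈ C.gx (z + (σ : ℤ)) (T + 1), ∀ (a : W) (ω : Finset (Sym2 W)),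
    C.O (T + 1) x ⊆ ω → x ∈ cl {a} ω → C.cen (T + 1) x ∈ cl {a} ω

/-- Time and position of a quadrant cell. -/
def tOf (a : Cell) : ℤ := a.1 + a.2

/-- See `tOf`. -/
def zOf (a : Cell) : ℤ := a.1 - a.2

/-- The sign of a bond. -/
def sgn (b : Bond) : ℤˣ := if b.2 then 1 else -1

/-- Bonds of one class have disjoint or nested regions. -/
def cls (b : Bond) : ℕ × ℕ × Bool := ((tOf b.1 % 2).toNat, (b.1.1 % 4).toNat, b.2)

/-- A window for the construction up to level `M`, with bounded seeds and separated selections. -/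
structure OK (M Bd sep : ℕ) : Prop where
  lay₀ : ∀ τ, C.lay 0 0 ⊆ C.gs 0 0 τ
  gs₀ : ∀ τ, C.gs 0 0 τ ⊆ C.rev 0
  rev_sub : ∀ T, C.rev T ⊆ C.U
  facts : ∀ b : Bond, b.1 ∈ tri M → C.Facts (zOf b.1) (tOf b.1) (sgn b)
  gs₀_rev : ∀ b : Bond, b.1 ∈ tri M → ∀ τ, C.gs 0 0 τ ⊆ C.rev (tOf b.1)
  sub : ∀ b : Bond, b.1 ∈ tri M →
    C.rev (tOf b.1) ∪ C.fresh (zOf b.1) (tOf b.1) (sgn b) ⊆ C.U
  disj : ∀ b c : Bond, b.1 ∈ tri M → c.1 ∈ tri M → cls b = cls c → b ≠ c →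
    tOf b.1 = tOf c.1 →
    Disjoint (C.fresh (zOf b.1) (tOf b.1) (sgn b)) (C.fresh (zOf c.1) (tOf c.1) (sgn c))
  nest : ∀ b c : Bond, b.1 ∈ tri M → c.1 ∈ tri M → tOf b.1 + 2 ≤ tOf c.1 →
    C.rev (tOf b.1) ∪ C.fresh (zOf b.1) (tOf b.1) (sgn b) ⊆ C.rev (tOf c.1)
  card : ∀ z T : ℤ, 0 ≤ T → ∀ x ∈ C.gx z T, (C.O T x).card ≤ Bd
  select : ∀ z T : ℤ, 0 ≤ T → ∀ Y, Y ⊆ C.gx z T →
    ∃ Y', Y' ⊆ Y ∧ Y.card ≤ Y'.card * sep ∧ (Y' : Set W).PairwiseDisjoint (C.O T)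

end Cells

end Vale.Agent.P151.Height
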