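import Vale.Agent.P151.Height.SteerValid

/-!
Two hops with separated displacements, without any symmetry: the narrowest sheared parallelogram
with good ends gives the first, the long side of the parallelogram through its exit the second.
-/

open Finset Filter
open scoped unitInterval Topology

namespace Vale.Agent.P151.Height

open Vale.Agent.P165 (cl ball bondMeasure)

variable {W : Type*} [DecidableEq W] {H : SimpleGraph W} [H.LocallyFinite] {G : HeightMap H}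

/-- The least width allowed at slope `j`. -/
def bmin (B₀ n : ℕ) (j : ℤ) : ℕ := B₀ * (2 + j.natAbs / n)

lemma bmin_bounds (B₀ : ℕ) {n : ℕ} (hn : 0 < n) (j : ℤ) :
    (B₀ : ℤ) * (|j| + n) ≤ n * bmin B₀ n j ∧
      (n : ℤ) * bmin B₀ n j ≤ 2 * B₀ * (|j| + n) := by
  have h1 := Nat.div_mul_le_self j.natAbs n
  have h2 := Nat.lt_div_mul_add (a := j.natAbs) hn
  rw [← Int.natCast_natAbs j]
  have h3 := Nat.mul_le_mul_left B₀ h1
  have h4 := Nat.mul_le_mul_left B₀ h2.le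
  have h5 : 0 ≤ B₀ * j.natAbs := Nat.zero_le _
  constructor <;> norm_cast <;> rw [bmin] <;> nlinarith

lemma bmin_shift {B₀ n : ℕ} (hn : 100 * B₀ ≤ n) (hn0 : 0 < n) {j₀ j₁ : ℤ} {x : ℕ}
    (h : |j₁| ≤ |j₀| + x) : 100 * bmin B₀ n j₁ ≤ 100 * bmin B₀ n j₀ + 100 * B₀ + x := by
  have hle : j₁.natAbs ≤ j₀.natAbs + x := by
    rw [← Int.natCast_natAbs, ← Int.natCast_natAbs] at h
    exact_mod_cast h
  have h1 : j₁.natAbs / n ≤ j₀.natAbs / n + x / n + 1 := by
    refine Nat.lt_succ_iff.1 ((Nat.div_lt_iff_lt_mul hn0).2 ?_)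
    have := Nat.lt_div_mul_add (a := j₀.natAbs) hn0
    have := Nat.lt_div_mul_add (a := x) hn0
    nlinarith
  have h2 : 100 * B₀ * (x / n) ≤ x :=
    (Nat.mul_le_mul_right _ hn).trans (by rw [Nat.mul_comm]; exact Nat.div_mul_le_self x n)
  have h3 : B₀ * (j₁.natAbs / n) ≤ B₀ * (j₀.natAbs / n + x / n + 1) :=
    Nat.mul_le_mul_left _ h1
  simp only [bmin]
  nlinarith

lemma ball_subset_para (B : Bounds G) {B₀ n M k b : ℕ} {j : ℤ} (h1 : k * B.D₀ ≤ B₀)
    (h2 : B₀ ≤ n) (hb : (B₀ : ℤ) * (|j| + n) ≤ n * b) :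
    ↑(ball H G.o k) ⊆ B.Bl (para n j b) M := by
  intro x hx
  have hx1 := ht_ball B (1, 0) (Finset.mem_coe.1 hx)
  have hV' := ht_ball B (-j, (n : ℤ)) (Finset.mem_coe.1 hx)
  simp [HeightMap.ht, dot, nrm, G.π_o] at hx1 hV'
  have hk : (k : ℤ) * B.D₀ ≤ B₀ := by exact_mod_cast h1
  have hB : (B₀ : ℤ) ≤ n := by exact_mod_cast h2
  refine bl_para_of_le B ?_ (le_trans ?_ hb)
  · simp only [hX]; linarith
  · refine le_trans (le_of_eq_of_le ?_ hV')
      (mul_le_mul_of_nonneg_right hk (add_nonneg (abs_nonneg _) (Int.natCast_nonneg _)))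
    congr 1
    simp [hV]; ring

/-- A good end has a good piece. -/
lemma exists_end_piece (B : Bounds G) {t : ℝ} (h0 : 0 ≤ t) (h1 : t ≤ 1) {M K n R b : ℕ} {j : ℤ}
    {r : ℝ} (hr : 0 ≤ r) (hsmall : 100 * ((B.c₀ : ℤ) + B.D₀) * (|j| + n) ≤ n * b)
    (hnb : 0 < n * b) (hin : ↑(ball H G.o M) ⊆ B.Bl (para n j b) M)
    (h : fail B t M (34 * K) (para n j b) M G.o R (endSet B n M) ≤ r ^ 34) :
    ∃ s : ℤˣ, ∃ i : ℤ, |i| ≤ 8 ∧ fail B t M K (para n j b) M G.o R
      (B.pset ⟨endK n s, (-(8 * j), 8 * (n : ℤ)), (i - 1) * (n * b), (i + 1) * (n * b)⟩ M) ≤ r := by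
  classical
  set s := (univ : Finset ℤˣ) ×ˢ Icc (-8 : ℤ) 8
  have hs : s.card = 34 := by simp [s]
  set X : ℤˣ × ℤ → Set W := fun q =>
    B.pset ⟨endK n q.1, (-(8 * j), 8 * (n : ℤ)), (q.2 - 1) * (n * b), (q.2 + 1) * (n * b)⟩ M
  obtain ⟨q, hq, hqf⟩ := exists_piece B h0 h1 (m := M) (K := K) (S := para n j b) (M := M)
    (c := G.o) (R := R) s (card_pos.1 (by omega)) X hr (by
      rw [hs]
      refine le_trans (fail_mono B h0 h1 fun η hη hh => ?_) h
      obtain ⟨Y, hY, hYC, hK⟩ := hh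
      refine ⟨Y, fun x hx => ?_, hYC, hK⟩
      obtain ⟨u, hu⟩ := hY hx
      have a2 := (mem_near_para B (reach_near B hin hη (hYC hx))).2
      obtain ⟨a2l, a2r⟩ := abs_le.1 a2
      set v := hV G n j x with hv
      set N : ℤ := (n : ℤ) * b with hN
      have hN0 : 0 < N := by rw [hN]; exact_mod_cast hnb
      have g1 : 8 * v / N * N ≤ 8 * v := Int.ediv_mul_le _ hN0.ne'
      have g2 : 8 * v < (8 * v / N + 1) * N := Int.lt_ediv_add_one_mul_self _ hN0
      have g3 : 8 * v / N < 9 := Int.ediv_lt_of_lt_mul hN0 (by linarith)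
      have e8 : G.ht (-(8 * j), 8 * (n : ℤ)) x = 8 * v := by
        simp [hv, HeightMap.ht, dot, hV]; ring
      simp only [Set.mem_iUnion, exists_prop]
      refine ⟨(u, max (8 * v / N) (-8)), mem_product.2 ⟨mem_univ _, mem_Icc.2 ⟨le_max_right _ _,
        max_le (by omega) (by norm_num)⟩⟩, hu, ?_, ?_⟩
      · rw [e8]
        rcases le_total (8 * v / N) (-8) with h' | h'
        · rw [max_eq_right h']; linarith
        · rw [max_eq_left h']; nlinarith
      · rw [e8]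
        rcases le_total (8 * v / N) (-8) with h' | h'
        · rw [max_eq_right h']; nlinarith
        · rw [max_eq_left h']; exact g2.le)
  obtain ⟨-, hi⟩ := mem_product.1 hq
  exact ⟨q.1, q.2, abs_le.2 (mem_Icc.1 hi), hqf⟩

/-- A good pair of long sides has a good side. -/
lemma exists_side_piece (B : Bounds G) {t : ℝ} (h0 : 0 ≤ t) (h1 : t ≤ 1) {M K n R b : ℕ}
    {j : ℤ} {r : ℝ} (hr : 0 ≤ r)
    (h : fail B t M (2 * K) (para n j b) M G.o R (sideSet B n j b M) ≤ r ^ 2) :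
    ∃ s : ℤˣ, fail B t M K (para n j b) M G.o R (B.pset ⟨sideK n j b s, 0, 0, 0⟩ M) ≤ r := by
  have hs : (univ : Finset ℤˣ).card = 2 := by simp
  obtain ⟨q, -, hqf⟩ := exists_piece B h0 h1 (m := M) (K := K) (S := para n j b) (M := M)
    (c := G.o) (R := R) (univ : Finset ℤˣ) univ_nonempty
    (fun s => B.pset ⟨sideK n j b s, 0, 0, 0⟩ M) hr (by
      rw [hs]
      refine le_trans (fail_mono B h0 h1 fun η _ hh => ?_) h
      refine hitsS_mono (fun x hx => ?_) le_rfl subset_rfl hh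
      obtain ⟨u, hu⟩ := hx
      simp only [Set.mem_iUnion, exists_prop]
      exact ⟨u, mem_univ _, hu, by simp [HeightMap.ht, dot], by simp [HeightMap.ht, dot]⟩)
  exact ⟨q, hqf⟩

/-- In a very wide parallelogram all contacts are at the ends. -/
lemma fail_end_wide (B : Bounds G) {t : ℝ} (h0 : 0 ≤ t) (h1 : t ≤ 1) {M K n R b : ℕ}
    (hM : M ≤ R + 1) (hb : (R + 1) * B.D₀ ≤ b) :
    fail B t M K (para n 0 b) M G.o R (endSet B n M) ≤
      fail B t M K (para n 0 b) M G.o R (exit B (para n 0 b) M) := by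
  refine fail_mono B h0 h1 fun η hη hh => ?_
  obtain ⟨Y, hY, hYC, hK⟩ := hh
  refine ⟨Y, fun x hx => ?_, hYC, hK⟩
  have hx' := hY hx
  rw [exit_para] at hx'
  refine hx'.resolve_right fun ⟨s, hs⟩ => ?_
  have hball := ht_ball B (0, (n : ℤ)) (Finset.mem_coe.1 (reach_ball hM hη (hYC hx)))
  simp [HeightMap.ht, dot, nrm, G.π_o] at hball
  have hs' := B.out_gt hs
  rw [ht_sideK] at hs'
  have hb' : ((R : ℤ) + 1) * B.D₀ * n ≤ b * n :=
    mul_le_mul_of_nonneg_right (by exact_mod_cast hb) (by positivity)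
  obtain ⟨l1, l2⟩ := abs_le.1 (le_of_eq_of_le (abs_mul (n : ℤ) (G.π x).2) (by simpa using hball))
  rcases unit_cases s with e | e <;> rw [e] at hs' <;> simp [sideK, hV] at hs' <;> linarith

/-- Two steering hops exist at every percolating parameter. -/
theorem exists_steer [Countable W] (hH : H.Connected) (B : Bounds G) (p : I) (hp0 : 0 < (p : ℝ))
    (hp1 : (p : ℝ) < 1) (hθ : 0 < bondMeasure H p (infExists H)) {εm : ℝ} (hεm : 0 < εm) :
    ∃ m₀, ∀ m, m₀ ≤ m → ∀ εM : ℝ, 0 < εM → ∃ M₀, ∀ M, M₀ ≤ M → ∀ K C : ℕ, ∃ St : Steer,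
      St.M = M ∧ St.Valid B C ∧ ∀ᶠ t in 𝓝 (p : ℝ),
        fail B t m K St.sh0 M G.o St.R (exit B St.sh0 M) ≤ εm ∧
        fail B t M K St.shA M G.o St.R (B.pset St.pA M) ≤ εM ∧
        fail B t M K St.shB M G.o St.R (B.pset St.pB M) ≤ εM := by
  classical
  obtain ⟨m₀, hm₀⟩ := exists_total hH B p hp0 hp1 hθ (half_pos hεm)
  refine ⟨m₀, fun m hm εM hεM => ?_⟩
  set r : ℝ := min (εM / 2) (1 / 2)
  have hr : 0 < r := lt_min (half_pos hεM) (by norm_num)
  have hr1 : r ≤ 1 := (min_le_right _ _).trans (by norm_num)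
  set del := r ^ 34
  have hdel : 0 < del := pow_pos hr _
  have hdel1 : del ≤ 1 := pow_le_one₀ hr.le hr1
  set εt := del * r ^ 2 / 2
  have hεt : 0 < εt := by positivity
  have hεt2 : εt ≤ r ^ 2 / 2 := by
    simp only [εt]
    gcongr
    exact mul_le_of_le_one_left (sq_nonneg r) hdel1
  have hεtdel : εt ≤ del := by
    simp only [εt]
    nlinarith [pow_le_one₀ (n := 2) hr.le hr1]
  obtain ⟨M₀, hM₀⟩ := exists_total hH B p hp0 hp1 hθ hεt
  refine ⟨M₀, fun M hM K C => ?_⟩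
  obtain ⟨n₁, hn₁⟩ := hM₀ M hM (36 * K + 1)
  obtain ⟨n₂, hn₂⟩ := hm₀ m hm K
  set B₀ := 100 * (C + n₁ + n₂ + M + 2) * (B.D₀ + 1) + 100 * (B.c₀ + B.D₀ + 1) with hB₀
  have hkD : ∀ k, k ≤ C + n₁ + n₂ + M + 2 → k * B.D₀ ≤ B₀ := fun k hk => by
    have := Nat.mul_le_mul (le_trans hk (Nat.le_mul_of_pos_left _ (by norm_num : 0 < 100)))
      (Nat.le_succ B.D₀)
    simp only [Nat.succ_eq_add_one] at this
    omega
  have hη : 0 < r ^ 2 / 2 := by positivity
  obtain ⟨N₀, hN₀⟩ := thin_side B hp0 hp1 M (2 * K) (2 * B₀) hη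
  set n := max N₀ (100 * B₀)
  have hn : 100 * B₀ ≤ n := le_max_right _ _
  have hB0 : 0 < B₀ := by omega
  have hn0 : 0 < n := by omega
  set D := (4 * (n + B.c₀ + B.D₀) + 1) * B.ℓ₀
  obtain ⟨R₁, hR₁⟩ := hn₁ D
  obtain ⟨R₂, hR₂⟩ := hn₂ D
  set R := R₁ + R₂ + N₀ + n + C + M
  have hB0n : B₀ ≤ n := le_trans (Nat.le_mul_of_pos_left _ (by norm_num)) hn
  have hbm : ∀ j, (B₀ : ℤ) * (|j| + n) ≤ n * bmin B₀ n j := fun j => (bmin_bounds B₀ hn0 j).1
  have hbb : ∀ j b, bmin B₀ n j ≤ b → (B₀ : ℤ) * (|j| + n) ≤ n * b := fun j b h =>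
    (hbm j).trans (mul_le_mul_of_nonneg_left (by exact_mod_cast h) (Int.natCast_nonneg _))
  have hball : ∀ k, k ≤ C + n₁ + n₂ + M + 2 → ∀ j b, bmin B₀ n j ≤ b →
      ↑(ball H G.o k) ⊆ B.Bl (para n j b) M := fun k hk j b h =>
    ball_subset_para B (hkD k hk) hB0n (hbb j b h)
  have htot : ∀ j b, bmin B₀ n j ≤ b →
      fail B (p : ℝ) M (36 * K + 1) (para n j b) M G.o R (exit B (para n j b) M) ≤ εt := fun j b h =>
    hR₁ M _ (hball n₁ (by omega) j b h) (fun x hx => walk_out_para B n hx) R (by omega)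
  -- the narrowest parallelogram with good ends
  set Good : ℤ → ℕ → Prop := fun j b =>
    bmin B₀ n j ≤ b ∧ fail B (p : ℝ) M (34 * K) (para n j b) M G.o R (endSet B n M) ≤ del
  have hex : ∃ b, ∃ j, Good j b := by
    refine ⟨bmin B₀ n 0 + (R + 1) * B.D₀, 0, Nat.le_add_right _ _, ?_⟩
    refine (fail_end_wide B hp0.le hp1.le (by omega) (Nat.le_add_left _ _)).trans ?_
    refine le_trans ?_ ((htot 0 (bmin B₀ n 0 + (R + 1) * B.D₀) (Nat.le_add_right _ _)).trans hεtdel)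
    exact fail_mono B hp0.le hp1.le fun η _ hh => hitsS_mono subset_rfl (by omega) subset_rfl hh
  obtain ⟨j₀, hj₀, hend₀⟩ := Nat.find_spec hex
  set b₀ := Nat.find hex
  have hmin : ∀ j b, Good j b → b₀ ≤ b := fun j b h => Nat.find_min' hex ⟨j, h⟩
  have hb₀2 : 2 * B₀ ≤ b₀ := le_trans (by rw [bmin, Nat.mul_comm 2]; exact Nat.mul_le_mul_left _ (Nat.le_add_right _ _)) hj₀
  have hsm₀ : 100 * ((B.c₀ : ℤ) + B.D₀) * (|j₀| + n) ≤ n * b₀ := by
    refine le_trans (mul_le_mul_of_nonneg_right ?_ (by positivity)) (hbb j₀ b₀ hj₀)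
    have : 100 * (B.c₀ + B.D₀) ≤ B₀ := by omega
    exact_mod_cast this
  obtain ⟨sA, i, hi, hA⟩ := exists_end_piece B hp0.le hp1.le hr.le hsm₀
    (Nat.mul_pos hn0 (by omega)) (hball M (by omega) j₀ b₀ hj₀) hend₀
  -- the parallelogram through the exit
  set μ : ℤ := i * b₀ / 8
  set j₁ : ℤ := j₀ + (sA : ℤ) * μ
  set b₂ := 2 * b₀ + b₀ / 4
  set P₀ : Pick := ⟨M, n, R, j₀, b₀, b₀, b₂, sA, i, 1⟩
  obtain ⟨hμ, -⟩ := Pick.abs_μ (P := P₀) hi
  change |μ| ≤ (b₀ : ℤ) + 1 at hμ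
  have hj1 : |j₁| ≤ |j₀| + ((b₀ + 1 : ℕ) : ℤ) := by
    have h := abs_add_le j₀ ((sA : ℤ) * μ)
    rw [Pick.abs_unit_mul] at h
    push_cast
    linarith
  have hbm1 : bmin B₀ n j₁ ≤ b₂ := by
    have := bmin_shift (B₀ := B₀) hn hn0 hj1
    omega
  have hsub : B.Bl (para n j₀ b₀) M ⊆ B.Bl (para n j₁ b₂) M := by
    intro x hx
    refine (mem_bl_para B).2 fun s => ⟨((mem_bl_para B).1 hx s).1, fun hs => ?_⟩
    have hs' := B.out_gt hs
    rw [ht_sideK] at hs'
    obtain ⟨a1, a2⟩ := mem_near_para B (B.bl_subset_near _ _ hx)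
    have e : hV G n j₁ x = hV G n j₀ x - (sA : ℤ) * μ * hX G x := by
      simp [hV, hX, j₁]; ring
    have h : |hV G n j₁ x| ≤ |hV G n j₀ x| + |μ| * |hX G x| := by
      rw [e, ← Pick.abs_unit_mul sA μ, ← abs_mul]; exact abs_sub _ _
    have h' : |μ| * |hX G x| ≤ ((b₀ : ℤ) + 1) * (n + ((B.c₀ : ℤ) + B.D₀)) :=
      mul_le_mul hμ a1 (abs_nonneg _) (by positivity)
    have q1 : 100 * ((B.c₀ : ℤ) + B.D₀) ≤ n := by
      have : 100 * (B.c₀ + B.D₀) ≤ n := by omega
      exact_mod_cast this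
    have q2 : (100 : ℤ) ≤ b₀ := by
      have : 100 ≤ b₀ := by omega
      exact_mod_cast this
    have q3 : 4 * (b₂ : ℤ) + 3 ≥ 9 * b₀ := by
      have : 9 * b₀ ≤ 4 * b₂ + 3 := by omega
      exact_mod_cast this
    have hle : |hV G n j₁ x| ≤ (n : ℤ) * b₂ := by
      have q4 := mul_le_mul_of_nonneg_right q1 (show (0 : ℤ) ≤ (b₀ : ℤ) + 1 by positivity)
      have q5 := mul_le_mul_of_nonneg_left q2 (show (0 : ℤ) ≤ (n : ℤ) by positivity)
      have q6 := mul_le_mul_of_nonneg_left q3 (show (0 : ℤ) ≤ (n : ℤ) by positivity)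
      linarith
    have habs : (s : ℤ) * hV G n j₁ x ≤ |hV G n j₁ x| := by
      rw [← Pick.abs_unit_mul s]; exact le_abs_self _
    simp [sideK] at hs'
    linarith
  have hex₁ : ∃ b, Good j₁ b :=
    ⟨b₂, hbm1, (fail_mono_shape B hp0.le hp1.le hsub).trans hend₀⟩
  obtain ⟨hbs, hends⟩ := Nat.find_spec hex₁
  set bs := Nat.find hex₁
  have hbs₂ : bs ≤ b₂ :=
    Nat.find_min' hex₁ ⟨hbm1, (fail_mono_shape B hp0.le hp1.le hsub).trans hend₀⟩
  have hbs₀ : b₀ ≤ bs := hmin _ _ ⟨hbs, hends⟩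
  -- its long sides are good
  obtain ⟨b₁, hb₁m, hb₁lo, hb₁hi, hside⟩ : ∃ b₁, bmin B₀ n j₁ ≤ b₁ ∧ b₀ ≤ b₁ + 1 ∧ b₁ ≤ b₂ ∧
      fail B (p : ℝ) M (2 * K) (para n j₁ b₁) M G.o R (sideSet B n j₁ b₁ M) ≤ r ^ 2 := by
    rcases eq_or_lt_of_le hbs with heq | hlt
    · refine ⟨bs, hbs, by omega, hbs₂, ?_⟩
      set T := eAt H (B.Bl (para n j₁ bs) M) (ball H G.o R)
      have hthin := hN₀ n (le_max_left _ _) M j₁ bs R (by omega) (by omega)
        (hball (M + 1) (by omega) j₁ bs hbs) (by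
          rw [← heq]; push_cast; linarith [(bmin_bounds B₀ hn0 j₁).2])
      have h := htot j₁ bs hbs
      have split : fail B (p : ℝ) M (2 * K) (para n j₁ bs) M G.o R (sideSet B n j₁ bs M) ≤
          fail B (p : ℝ) M (36 * K + 1) (para n j₁ bs) M G.o R (exit B (para n j₁ bs) M) +
          Fin.pr (fun _ => (p : ℝ)) T (fun ω =>
            ¬ HitsS (sideSet B n j₁ bs M) (2 * K) (reach H M G.o ω) ∧
              HitsS (endSet B n M) 1 (reach H M G.o ω)) := by
        simp only [fail, Fin.pr, T, ← Fin.ev_add]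
        refine Fin.ev_mono (fun _ => hp0.le) (fun _ => hp1.le) fun ω _ => ?_
        by_cases hs : HitsS (sideSet B n j₁ bs M) (2 * K) (reach H M G.o ω)
        · rw [Fin.ind_false (not_not.2 hs)]
          exact add_nonneg (Fin.ind_nonneg _) (Fin.ind_nonneg _)
        by_cases he : HitsS (endSet B n M) 1 (reach H M G.o ω)
        · rw [Fin.ind_true hs, Fin.ind_true (show ¬ HitsS (sideSet B n j₁ bs M) (2 * K) (reach H M G.o ω) ∧
            HitsS (endSet B n M) 1 (reach H M G.o ω) from ⟨hs, he⟩)]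
          linarith [Fin.ind_nonneg
            (¬ HitsS (exit B (para n j₁ bs) M) (36 * K + 1) (reach H M G.o ω))]
        · have hn' : ¬ HitsS (exit B (para n j₁ bs) M) (36 * K + 1) (reach H M G.o ω) := by
            intro hh
            rw [exit_para, Set.union_comm] at hh
            rcases hitsS_union (K₁ := 2 * K) (K₂ := 1)
              (hitsS_mono subset_rfl (by omega) subset_rfl hh) with h' | h'
            · exact hs h'
            · exact he h'
          rw [Fin.ind_true hs, Fin.ind_true hn']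
          linarith [Fin.ind_nonneg (¬ HitsS (sideSet B n j₁ bs M) (2 * K) (reach H M G.o ω) ∧
            HitsS (endSet B n M) 1 (reach H M G.o ω))]
      linarith
    · refine ⟨bs - 1, by omega, by omega, by omega, ?_⟩
      have hbad : del < fail B (p : ℝ) M (34 * K) (para n j₁ (bs - 1)) M G.o R (endSet B n M) := by
        by_contra hc
        exact Nat.find_min hex₁ (show bs - 1 < bs by omega) ⟨by omega, not_lt.1 hc⟩
      have hprod := (fail_mul_le B hp0.le hp1.le (m := M) (K₁ := 34 * K) (K₂ := 2 * K)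
        (S := para n j₁ (bs - 1)) (M := M) (c := G.o) (R := R) (X := endSet B n M)
        (Y := sideSet B n j₁ (bs - 1) M)).trans
        ((fail_mono B hp0.le hp1.le fun η _ hh => by
          rw [exit_para] at hh
          exact hitsS_mono subset_rfl (by omega) subset_rfl hh).trans (htot j₁ _ (by omega)))
      have h2 := fail_nonneg B hp0.le hp1.le M (2 * K) (para n j₁ (bs - 1)) M G.o R
        (sideSet B n j₁ (bs - 1) M)
      refine le_of_mul_le_mul_left ?_ hdel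
      have := mul_le_mul_of_nonneg_right hbad.le h2
      simp only [εt] at hprod
      linarith [show 0 ≤ del * r ^ 2 by positivity]
  obtain ⟨sB, hB⟩ := exists_side_piece B hp0.le hp1.le hr.le hside
  set P : Pick := ⟨M, n, R, j₀, b₀, b₁, b₂, sA, i, sB⟩
  have hfit : P.Fits B C B₀ :=
    { hC := le_trans (Nat.mul_le_mul_right _ (Nat.mul_le_mul_left _ (by omega : C + 1 ≤
        C + n₁ + n₂ + M + 2))) (Nat.le_add_right _ _)
      hc := Nat.le_add_left _ _
      hn := hn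
      hR := by simp only [P, R]; omega
      h0 := hbb j₀ b₀ hj₀
      h1 := hbb j₁ b₁ hb₁m
      hi := hi
      h01 := hb₁lo
      h12 := hb₁hi
      h2 := by simp only [P, b₂]; omega }
  refine ⟨P.steer, rfl, Pick.valid hfit, ?_⟩
  have hεr : r < εM := lt_of_le_of_lt (min_le_left _ _) (by linarith)
  have h0f : fail B (p : ℝ) m K (para n j₁ b₂) M G.o R (exit B (para n j₁ b₂) M) < εm :=
    lt_of_le_of_lt (hR₂ M _ (hball n₂ (by omega) j₁ b₂ hbm1)
      (fun x hx => walk_out_para B n hx) R (by omega)) (by linarith)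
  filter_upwards [
    ((continuous_fail B m K (para n j₁ b₂) M G.o R (exit B (para n j₁ b₂) M)).tendsto _).eventually
      (eventually_le_nhds h0f),
    ((continuous_fail B M K (para n j₀ b₀) M G.o R
      (B.pset P.endPiece M)).tendsto _).eventually (eventually_le_nhds (lt_of_le_of_lt hA hεr)),
    ((continuous_fail B M K (para n j₁ b₁) M G.o R
      (B.pset ⟨sideK n j₁ b₁ sB, 0, 0, 0⟩ M)).tendsto _).eventually
      (eventually_le_nhds (lt_of_le_of_lt hB hεr))] with t u v w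
  exact ⟨u, v, w⟩

end Vale.Agent.P151.Height
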