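import Vale.Agent.P151.Height.ChainHop
import Vale.Agent.P151.Height.Steering
import Vale.Agent.P151.Reduction.Chain

/-!
The steered chain of hops through a tube: from every contact of a cell the next cell is reached at
many points with probability close to one.
-/

open Finset Filter
open scoped unitInterval Topology

namespace Vale.Agent.P151.Height

open Vale.Agent.P165 (cl ball hull edgesAt inEdges bondMeasure)
open Vale.Agent.P151.Fin (pr)
open Vale.Agent.P151.Red (gseq)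

variable {W : Type*} [DecidableEq W] {H : SimpleGraph W} [H.LocallyFinite] {G : HeightMap H}

section Chain

variable (B : Bounds G)

/-- How far one hop goes in the graph. -/
def stR (Q : Geo) : ℕ := Q.St.R + 2 * (B.L Q.St.M + Q.St.M) + 2 * (B.L Q.m + Q.m) + 4

omit [DecidableEq W] in
lemma reachR_eq (Q : Geo) : Q.reachR B = 5002 * stR B Q := rfl

/-- The centre of a seed from which at most `j` hops remain. -/
structure State (Q : Geo) (z T : ℤ) (τ : ℤˣ) (ρ j : ℕ) (c : W) : Prop where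
  cen : c ∈ G.Cen
  inB : ∃ i, i + j ≤ 4600 ∧ c ∈ ball H G.o (ρ + i * stR B Q)
  low : T * Q.Lw - 10 * Q.St.N ≤ G.ht Q.St.wF c
  under : G.ht Q.St.wF c + (Q.St.M * B.D₀ : ℕ) * nrm Q.St.wF ≤ lev B Q T
  left : 100 * (lev B Q T - G.ht Q.St.wF c) ≤ 49 * (Q.St.N : ℤ) * j
  zone : |G.ht Q.St.zF c - tgt Q z τ| ≤ 7 * Q.St.N ∨
    (10 * G.ht Q.St.wF c + 121 * (|G.ht Q.St.zF c - tgt Q z τ| - 7 * Q.St.N) ≤
        10 * (T * Q.Lw + 1560 * Q.St.N) ∧
      min (z * Q.Lz) (tgt Q z τ) - 35 * Q.St.N ≤ G.ht Q.St.zF c ∧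
      G.ht Q.St.zF c ≤ max (z * Q.Lz) (tgt Q z τ) + 35 * Q.St.N)

/-- The error of closing near a landing plane. -/
noncomputable def confT (Q : Geo) (t : ℝ) (KM : ℕ) : ℝ :=
  (upD B Q.St.M + 1) * (B.Δ + 1 : ℝ) ^ (upD B Q.St.M + 2) / (t ^ (upD B Q.St.M + 1) * KM)

variable {B} {Q : Geo} {z T : ℤ} {τ : ℤˣ} {ρ : ℕ} {c x : W}

lemma mem_ball_le {y : W} {r s : ℕ} (hy : y ∈ ball H c r) (h : r ≤ s) : y ∈ ball H c s :=
  ball_le h hy

lemma two_stR (hs : Scale B Q) : Q.St.R + 2 + slackC B Q.m Q.St.M ≤ 2 * stR B Q := by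
  have := hs.valid.C_le_R
  unfold stR
  omega

lemma State.fits {j : ℕ} (hs : Scale B Q) (h : State B Q z T τ ρ j c) :
    Fits B Q z T τ (ρ + Q.reachR B) c where
  cen := h.cen
  inBall := fun x hx => by
    have he := reachR_eq B Q
    generalize Q.reachR B = rr at he ⊢
    obtain ⟨i, hi, hc⟩ := h.inB
    have hb := ball_trans hc hx
    refine mem_ball_le hb ?_
    have := two_stR hs
    have : i * stR B Q ≤ 4600 * stR B Q := Nat.mul_le_mul_right _ (by omega)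
    omega
  low := by
    have := h.low
    linarith
  zone := by
    have hN : (0 : ℤ) ≤ Q.St.N := Int.natCast_nonneg _
    by_cases hd : |G.ht Q.St.zF c - tgt Q z τ| ≤ 7 * Q.St.N
    · exact .inr (by linarith)
    · obtain ⟨a, b, d⟩ := h.zone.resolve_left hd
      exact .inl ⟨by linarith, by linarith, by linarith⟩

lemma slack_w (hs : Scale B Q) {a : ℕ} (ha : a ≤ slackC B Q.m Q.St.M) :
    1000 * ((a : ℤ) * nrm Q.St.wF) ≤ Q.St.N :=
  (mul_le_mul_of_nonneg_left (slack_le ha _) (by norm_num)).trans hs.sw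

lemma slack_z (hs : Scale B Q) {a : ℕ} (ha : a ≤ slackC B Q.m Q.St.M) :
    1000 * ((a : ℤ) * nrm Q.St.zF) ≤ Q.St.N :=
  (mul_le_mul_of_nonneg_left (slack_le ha _) (by norm_num)).trans hs.sz

/-- The seed found at a low contact is under the landing plane. -/
lemma under_of {c' : W} (hc' : c' ∈ ball H x (B.L Q.St.M))
    (hx : G.ht Q.St.wF x + bandW B Q.St.M * nrm Q.St.wF ≤ lev B Q T) :
    G.ht Q.St.wF c' + (Q.St.M * B.D₀ : ℕ) * nrm Q.St.wF ≤ lev B Q T := by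
  have h := abs_le.1 (ht_ball B Q.St.wF hc')
  have h2 : ((B.L Q.St.M * B.D₀ + Q.St.M * B.D₀ : ℕ) : ℤ) * nrm Q.St.wF ≤
      bandW B Q.St.M * nrm Q.St.wF := slack_le (by unfold bandW; rw [← Nat.add_mul]; omega) _
  push_cast at h2 ⊢
  linarith

/-- A hop towards the target lands in the next state. -/
lemma State.step {j : ℕ} (hs : Scale B Q) (h : State B Q z T τ ρ (j + 1) c) {S : Shape}
    {P : Set W} (hx : x ∈ contX B Q T c S P)
    (hw : (Q.St.N : ℤ) ≤ 2 * (G.ht Q.St.wF x - G.ht Q.St.wF c) ∧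
      G.ht Q.St.wF x - G.ht Q.St.wF c ≤ 6 * Q.St.N)
    (hz : (tgt Q z τ < G.ht Q.St.zF c → -(6 * (Q.St.N : ℤ)) ≤ G.ht Q.St.zF x - G.ht Q.St.zF c ∧
        2 * (G.ht Q.St.zF x - G.ht Q.St.zF c) ≤ -(Q.St.N : ℤ)) ∧
      (G.ht Q.St.zF c ≤ tgt Q z τ → (Q.St.N : ℤ) ≤ 2 * (G.ht Q.St.zF x - G.ht Q.St.zF c) ∧
        G.ht Q.St.zF x - G.ht Q.St.zF c ≤ 6 * Q.St.N))
    {c' : W} (hcen : c' ∈ G.Cen) (hc' : c' ∈ ball H x (B.L Q.St.M)) :
    State B Q z T τ ρ j c' := by
  classical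
  obtain ⟨hxc, hlow⟩ := mem_filter.1 hx
  have hk : B.L Q.St.M * B.D₀ ≤ slackC B Q.m Q.St.M := by
    unfold slackC
    rw [Nat.add_mul]
    omega
  have hN : (1 : ℤ) ≤ Q.St.N := by exact_mod_cast hs.valid.N_pos
  have e1 := slack_w hs hk
  have e2 := slack_z hs hk
  push_cast at e1 e2
  have hwb := abs_le.1 (ht_ball B Q.St.wF hc')
  have hzb := abs_le.1 (ht_ball B Q.St.zF hc')
  obtain ⟨i, hi, hci⟩ := h.inB
  have hj := h.left
  push_cast at hj
  refine ⟨hcen, ⟨i + 1, by omega, ?_⟩, by linarith [h.low, hw.1],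
    under_of hc' hlow, by linarith [hw.1], ?_⟩
  · refine ball_le ?_ (ball_trans hci (ball_trans (cont_spec hxc).2.1 hc'))
    rw [Nat.add_mul, Nat.one_mul]
    unfold stR
    omega
  rcases lt_or_ge (tgt Q z τ) (G.ht Q.St.zF c) with hd | hd
  · obtain ⟨z1, z2⟩ := hz.1 hd
    by_cases hsm : G.ht Q.St.zF c' - tgt Q z τ ≤ 7 * Q.St.N
    · exact .inl (abs_le.2 ⟨by linarith, hsm⟩)
    · rw [not_le] at hsm
      obtain ⟨a, b, d⟩ := h.zone.resolve_left fun hh => by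
        have := abs_le.1 hh
        linarith
      rw [abs_of_pos (by linarith)] at a
      have := min_le_right (z * Q.Lz) (tgt Q z τ)
      exact .inr ⟨by rw [abs_of_pos (by linarith)]; linarith [hw.2], by linarith, by linarith⟩
  · obtain ⟨z1, z2⟩ := hz.2 hd
    by_cases hsm : tgt Q z τ - G.ht Q.St.zF c' ≤ 7 * Q.St.N
    · exact .inl (abs_le.2 ⟨by linarith, by linarith⟩)
    · rw [not_le] at hsm
      obtain ⟨a, b, d⟩ := h.zone.resolve_left fun hh => by
        have := abs_le.1 hh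
        linarith
      rw [abs_of_nonpos (by linarith)] at a
      have := le_max_right (z * Q.Lz) (tgt Q z τ)
      exact .inr ⟨by rw [abs_of_nonpos (by linarith)]; linarith [hw.2], by linarith, by linarith⟩

/-- The displacement at a contact of a piece, pulled back to the base point. -/
lemma exists_disp {S : Shape} {P : Piece} (hc : c ∈ G.Cen)
    (hx : x ∈ cont B Q c S (B.pset (G.pieceAt c P) Q.St.M)) :
    ∃ x₀ ∈ B.pset P Q.St.M, (∃ y ∈ B.Bl S Q.St.M, H.Adj y x₀) ∧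
      ∀ u, G.ht u x - G.ht u c = G.ht u x₀ := by
  obtain ⟨hP, -, y, hy, hyx⟩ := cont_spec hx
  obtain ⟨φ, -, y₀, rfl, hy₀, hh, hpset⟩ := bl_at_pull hc hy
  obtain ⟨x₀, rfl⟩ := φ.surjective x
  exact ⟨x₀, (hpset P x₀).1 hP, ⟨y₀, hy₀, φ.map_adj_iff.1 hyx⟩,
    fun u => by rw [hh, add_sub_cancel_right]⟩

variable {t : ℝ} {K KM K' : ℕ} {ε δ : ℝ}

omit [DecidableEq W] in
lemma piece_exit {S : Shape} {P : Piece} (hk : P.k ∈ S) {M : ℕ} (c : W) :
    B.pset (G.pieceAt c P) M ⊆ exit B (G.at c S) M :=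
  fun _ hx hb => hb _ (List.mem_map_of_mem hk) hx.1

/-- The chain of hops from a state. -/
theorem chain_bound (hs : Scale B Q) (h0 : 0 < t) (h1 : t < 1) (hK' : 0 < K')
    (hKM : K' * (B.ballBd (2 * (B.L Q.St.M + Q.St.M)) * (B.oBd Q.St.M + 1)) ≤ KM)
    (hε : 0 ≤ ε) (hδ : 4 / (t ^ B.oBd Q.St.M * K') ≤ δ) (hM : 0 < Q.St.M)
    (hA : fail B t Q.St.M (2 * KM) Q.St.shA Q.St.M G.o Q.St.R (B.pset Q.St.pA Q.St.M) +
      confT B Q t KM ≤ ε * (1 - t) ^ (B.Δ * K))
    (hB : fail B t Q.St.M (2 * KM) Q.St.shB Q.St.M G.o Q.St.R (B.pset Q.St.pB Q.St.M) +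
      confT B Q t KM ≤ ε * (1 - t) ^ (B.Δ * K)) :
    ∀ (j : ℕ) (c : W), State B Q z T τ ρ j c → ∀ s₀, inEdges H (ball H c Q.St.M) ⊆ s₀ →
      pr (fun _ => t) (Q.tube B z T τ (ρ + Q.reachR B)) (fun η =>
        ¬ HitsS ↑(Q.gx B (z + (τ : ℤ)) (T + 1) (ρ + Q.reachR B + 1)) K (cl {c} (s₀ ∪ η))) ≤
      gseq ε δ j := by
  have hδ0 : 0 ≤ δ := le_trans (by positivity) hδ
  have hKM0 : 0 < KM := lt_of_lt_of_le
    (Nat.mul_pos hK' (Nat.mul_pos (by unfold Bounds.ballBd; positivity) (Nat.succ_pos _))) hKM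
  intro j
  induction j with
  | zero =>
    intro c h
    exfalso
    have hn : 0 < nrm Q.St.wF := by
      rcases (nrm_nonneg Q.St.wF).eq_or_lt with h | h
      · refine absurd ?_ hs.valid.wF_ne
        simp only [nrm] at h
        have := abs_nonneg Q.St.wF.1
        have := abs_nonneg Q.St.wF.2
        exact Prod.ext (abs_eq_zero.1 (by linarith)) (abs_eq_zero.1 (by linarith))
      · exact h
    have h2 : (1 : ℤ) ≤ (Q.St.M * B.D₀ : ℕ) := by
      exact_mod_cast Nat.mul_pos hM B.D₀_pos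
    have := h.left
    have := h.under
    have := le_mul_of_one_le_left hn.le h2
    simp only [Nat.cast_zero, mul_zero] at *
    linarith
  | succ j ih =>
    intro c h s₀ hs₀
    have hf := h.fits hs
    have main : ∀ (S : Shape) (P : Piece), S ∈ shapes Q → P.k ∈ S →
        fail B t Q.St.M (2 * KM) S Q.St.M G.o Q.St.R (B.pset P Q.St.M) + confT B Q t KM ≤
          ε * (1 - t) ^ (B.Δ * K) →
        (∀ x₀ ∈ B.pset P Q.St.M, (∃ y ∈ B.Bl S Q.St.M, H.Adj y x₀) →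
          ((Q.St.N : ℤ) ≤ 2 * G.ht Q.St.wF x₀ ∧ G.ht Q.St.wF x₀ ≤ 6 * Q.St.N) ∧
          (tgt Q z τ < G.ht Q.St.zF c → -(6 * (Q.St.N : ℤ)) ≤ G.ht Q.St.zF x₀ ∧
            2 * G.ht Q.St.zF x₀ ≤ -(Q.St.N : ℤ)) ∧
          (G.ht Q.St.zF c ≤ tgt Q z τ → (Q.St.N : ℤ) ≤ 2 * G.ht Q.St.zF x₀ ∧
            G.ht Q.St.zF x₀ ≤ 6 * Q.St.N)) →
        pr (fun _ => t) (Q.tube B z T τ (ρ + Q.reachR B)) (fun η =>
          ¬ HitsS ↑(Q.gx B (z + (τ : ℤ)) (T + 1) (ρ + Q.reachR B + 1)) K (cl {c} (s₀ ∪ η))) ≤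
        gseq ε δ (j + 1) := by
      intro S P hS hk hfail hdisp
      have hMs : Q.St.M ≤ slackC B Q.m Q.St.M := by unfold slackC; omega
      refine le_trans (hop_bound hs hf hS (piece_exit hk c) hs₀ h0 h1.le K hK' hKM
        (Red.gseq_nonneg hε hδ0 j) hδ (fun x hx c' hcen hc' s₁ hs₁ => ?_) ?_)
        (Red.gseq_step hε hδ0 j)
      · classical
        obtain ⟨x₀, hx₀, hadj, hh⟩ := exists_disp h.cen (mem_filter.1 hx).1
        obtain ⟨a, b⟩ := hdisp x₀ hx₀ hadj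
        rw [← hh] at a b
        exact ih c' (h.step hs hx a b hcen hc') s₁ hs₁
      · refine le_of_mul_le_mul_right ((few_near hs hf hS (piece_exit hk c) hMs h.under h0 h1.le K
          hKM0).trans ?_) (pow_pos (sub_pos.2 h1) _)
        rw [(fail_at B t Q.St.M (2 * KM) S Q.St.M Q.St.R h.cen P).1]
        exact hfail
    rcases lt_or_ge (tgt Q z τ) (G.ht Q.St.zF c) with hd | hd
    · refine main Q.St.shA Q.St.pA (by simp [shapes]) hs.valid.kA hA fun x₀ hx₀ hadj => ?_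
      obtain ⟨a, b, d, e⟩ := hs.valid.dispA x₀ hx₀ hadj
      exact ⟨⟨a, b⟩, fun _ => ⟨d, e⟩, fun h => absurd h (not_le.2 hd)⟩
    · refine main Q.St.shB Q.St.pB (by simp [shapes]) hs.valid.kB hB fun x₀ hx₀ hadj => ?_
      obtain ⟨a, b, d, e⟩ := hs.valid.dispB x₀ hx₀ hadj
      exact ⟨⟨a, b⟩, fun h => absurd hd (not_le.2 h), fun _ => ⟨d, e⟩⟩

/-- From a contact of a cell the next cell is reached. -/
theorem tube_bound (hs : Scale B Q) (h0 : 0 < t) (h1 : t < 1) (hK' : 0 < K')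
    (hKM : K' * (B.ballBd (2 * (B.L Q.St.M + Q.St.M)) * (B.oBd Q.St.M + 1)) ≤ KM)
    (hε : 0 ≤ ε) (hδ : 4 / (t ^ B.oBd Q.St.M * K') ≤ δ) (hM : 0 < Q.St.M)
    (h00 : fail B t Q.m (2 * KM) Q.St.sh0 Q.St.M G.o Q.St.R (exit B Q.St.sh0 Q.St.M) ≤ ε)
    (hA : fail B t Q.St.M (2 * KM) Q.St.shA Q.St.M G.o Q.St.R (B.pset Q.St.pA Q.St.M) +
      confT B Q t KM ≤ ε * (1 - t) ^ (B.Δ * K))
    (hB : fail B t Q.St.M (2 * KM) Q.St.shB Q.St.M G.o Q.St.R (B.pset Q.St.pB Q.St.M) +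
      confT B Q t KM ≤ ε * (1 - t) ^ (B.Δ * K))
    (hx : x ∈ Q.gx B z T ρ) :
    pr (fun _ => t) (Q.tube B z T τ (ρ + Q.reachR B)) (fun η =>
      ¬ HitsS ↑(Q.gx B (z + (τ : ℤ)) (T + 1) (ρ + Q.reachR B + 1)) K
        (cl {B.cenOut (Q.plane B T) Q.m x} (B.oOut (Q.plane B T) Q.m x ∪ η))) ≤
      gseq ε δ 4501 := by
  classical
  obtain ⟨hxb, hout, hxw, hxz⟩ := mem_filter.1 hx
  obtain ⟨hcen, -, -, hcx, -, hseed, -⟩ := B.oOut_spec hout
  set c := B.cenOut (Q.plane B T) Q.m x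
  have hgt : T * Q.Lw - (Q.m * B.D₀ + 1) * nrm Q.St.wF < G.ht Q.St.wF x := B.out_gt hout
  have hkm : B.L Q.m * B.D₀ ≤ slackC B Q.m Q.St.M := by
    unfold slackC
    rw [Nat.add_mul (B.L Q.m)]
    omega
  have hkM : B.L Q.St.M * B.D₀ ≤ slackC B Q.m Q.St.M := by
    unfold slackC
    rw [Nat.add_mul (B.L Q.St.M)]
    omega
  have e1 := slack_w hs hkm
  have e2 := slack_z hs hkm
  have e3 := slack_w hs (a := Q.m * B.D₀ + 1) (by unfold slackC; omega)
  have e4 := slack_w hs (a := bandW B Q.St.M) (by unfold slackC; omega)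
  push_cast at e1 e2 e3
  have hN : (1 : ℤ) ≤ Q.St.N := by exact_mod_cast hs.valid.N_pos
  have hm0 : (0 : ℤ) ≤ ((Q.m : ℤ) * B.D₀ + 1) * nrm Q.St.wF := mul_nonneg
    (add_nonneg (mul_nonneg (Int.natCast_nonneg _) (Int.natCast_nonneg _)) zero_le_one)
    (nrm_nonneg _)
  have hwb := abs_le.1 (ht_ball B Q.St.wF hcx)
  have hzb := abs_le.1 (ht_ball B Q.St.zF hcx)
  rw [abs_le] at hxz
  have hl := plane_snd B Q T
  have hLw : Q.Lw = 2000 * Q.St.N := rfl
  have hLz : Q.Lz = 100 * Q.St.N := rfl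
  rw [add_one_mul] at hl
  have hmin : min (z * Q.Lz) (tgt Q z τ) ≤ z * Q.Lz := min_le_left _ _
  have hmax : z * Q.Lz ≤ max (z * Q.Lz) (tgt Q z τ) := le_max_left _ _
  have hf : Fits B Q z T τ (ρ + Q.reachR B) c := by
    refine ⟨hcen, fun v hv => ?_, by linarith, .inl ⟨by linarith, by linarith, by linarith⟩⟩
    have := two_stR hs
    have he := reachR_eq B Q
    generalize Q.reachR B = rr at he ⊢
    refine mem_ball_le (ball_trans (ball_trans hxb hcx) hv) ?_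
    unfold stR at this he
    omega
  have hm : Q.m ≤ slackC B Q.m Q.St.M := by unfold slackC; omega
  have hδ0 : 0 ≤ δ := le_trans (by positivity) hδ
  have hS : Q.St.sh0 ∈ shapes Q := by simp [shapes]
  refine le_trans (hop_bound hs hf hS (P := exit B (G.at c Q.St.sh0) Q.St.M) subset_rfl hseed h0
    h1.le K hK' hKM (Red.gseq_nonneg hε hδ0 4500) hδ (fun x' hx' c' hcen' hc' s₁ hs₁ => ?_) ?_)
    (Red.gseq_step hε hδ0 4500)
  · refine chain_bound hs h0 h1 hK' hKM hε hδ hM hA hB 4500 c' ?_ s₁ hs₁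
    obtain ⟨hxc', hlow'⟩ := mem_filter.1 hx'
    obtain ⟨-, hb', q, hq, hqx⟩ := cont_spec hxc'
    obtain ⟨a, b⟩ := close_of_ball hs hS hcen hq (.inr hqx.symm) hkM hc'
    rw [abs_le] at a b
    refine ⟨hcen', ⟨2, by norm_num, ball_le ?_
      (ball_trans (ball_trans hxb hcx) (ball_trans hb' hc'))⟩, by linarith,
      under_of hc' hlow', by push_cast; linarith, ?_⟩
    · unfold stR
      omega
    by_cases hd : |G.ht Q.St.zF c' - tgt Q z τ| ≤ 7 * Q.St.N
    · exact .inl hd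
    refine .inr ⟨?_, by linarith, by linarith⟩
    have hτ : tgt Q z τ = z * Q.Lz + (τ : ℤ) * Q.Lz := by rw [tgt, add_mul]
    have habs : |G.ht Q.St.zF c' - tgt Q z τ| ≤ 135 * Q.St.N := by
      rw [abs_le, hτ]
      rcases Int.units_eq_one_or τ with rfl | rfl <;>
        simp only [Units.val_one, Units.val_neg, one_mul, neg_mul] <;>
        constructor <;> linarith
    linarith
  · refine le_trans (le_trans (Fin.pr_mono (fun _ => h0.le) (fun _ => h1.le) fun η _ hh => hh.2)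
      (few_far hs hf hS subset_rfl hm (by linarith) h0.le h1.le KM)) ?_
    rw [(fail_at B t Q.m (2 * KM) Q.St.sh0 Q.St.M Q.St.R hcen Q.St.pA).2]
    exact h00

end Chain

omit [DecidableEq W] [H.LocallyFinite] in
/-- The error sequence is small for small parameters. -/
lemma exists_gseq_le (j : ℕ) {g : ℝ} (hg : 0 < g) : ∃ η : ℝ, 0 < η ∧ gseq η η j ≤ g := by
  have hc : ∀ j, Continuous (fun η : ℝ => gseq η η j) ∧ gseq (0 : ℝ) 0 j = 0 := by
    intro j
    induction j with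
    | zero => exact ⟨continuous_id, rfl⟩
    | succ j ih =>
      refine ⟨?_, by simp [gseq, ih.2]⟩
      exact ih.1.add ((continuous_id.add (continuous_const.mul
        (Real.continuous_sqrt.comp ih.1))).add continuous_id)
  have h := ((hc j).1.tendsto 0).eventually (eventually_le_nhds (show gseq (0 : ℝ) 0 j < g by
    rw [(hc j).2]; exact hg))
  obtain ⟨η, h1, h2⟩ := ((h.filter_mono nhdsWithin_le_nhds).and
    (self_mem_nhdsWithin (a := (0 : ℝ)) (s := Set.Ioi 0))).exists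
  exact ⟨η, h2, h1⟩

lemma valid_mono {St : Steer} {B : Bounds G} {C C' : ℕ} (h : St.Valid B C') (hC : C ≤ C') :
    St.Valid B C := by
  exact
    { h with
      C_le_R := hC.trans h.C_le_R
      slack_w := (slack_le hC _).trans h.slack_w
      slack_z := (slack_le hC _).trans h.slack_z
      inner := fun S hS x hx => h.inner S hS (Finset.mem_coe.2 (ball_le hC (Finset.mem_coe.1 hx))) }

/-- The chain through a tube, uniformly near the parameter. -/
theorem exists_chain [Countable W] (hH : H.Connected) (B : Bounds G) (p : I) (hp0 : 0 < (p : ℝ))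
    (hp1 : (p : ℝ) < 1) (hθ : 0 < bondMeasure H p (infExists H)) {g : ℝ} (hg : 0 < g) :
    ∃ m, ∀ K C : ℕ, ∃ St : Steer, St.Valid B C ∧ m ≤ St.M ∧ ∀ᶠ t in 𝓝 (p : ℝ),
      ∀ (z T : ℤ) (τ : ℤˣ) (ρ : ℕ),
      let Q : Geo := ⟨St, m⟩
      ∀ x ∈ Q.gx B z T ρ,
        Fin.pr (fun _ => t) (Q.tube B z T τ (ρ + Q.reachR B)) (fun η =>
          ¬ HitsS ↑(Q.gx B (z + (τ : ℤ)) (T + 1) (ρ + Q.reachR B + 1)) K
            (cl {B.cenOut (Q.plane B T) m x} (B.oOut (Q.plane B T) m x ∪ η))) ≤ g := by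
  obtain ⟨η, hη, hηg⟩ := exists_gseq_le 4501 hg
  obtain ⟨m, hm⟩ := exists_steer hH B p hp0 hp1 hθ hη
  refine ⟨m, fun K C => ?_⟩
  set f := ((1 - (p : ℝ)) / 2) ^ (B.Δ * K) with hfdef
  have hf : 0 < f := pow_pos (by linarith) _
  obtain ⟨M₀, hM₀⟩ := hm m le_rfl (η * f / 2) (by positivity)
  set M := M₀ + m + 1
  set a := (p : ℝ) / 2
  have ha : 0 < a := half_pos hp0
  set K' := ⌈4 / (a ^ B.oBd M * η)⌉₊ + 1
  set D := upD B M
  set cf := (D + 1) * (B.Δ + 1 : ℝ) ^ (D + 2) / (a ^ (D + 1) * (η * f / 2))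
  set KM := max (K' * (B.ballBd (2 * (B.L M + M)) * (B.oBd M + 1))) (⌈cf⌉₊ + 1) with hKM
  obtain ⟨St, hStM, hval, hev⟩ :=
    hM₀ M (by omega) (2 * KM) (max C (1000 * slackC B m M))
  refine ⟨St, valid_mono hval (le_max_left _ _), by omega, ?_⟩
  have hsc : Scale B (⟨St, m⟩ : Geo) := by
    have hle : slackC B m M ≤ max C (1000 * slackC B m M) := le_trans (by omega) (le_max_right _ _)
    refine ⟨valid_mono hval (hStM ▸ hle), ?_, ?_⟩ <;> simp only [hStM]
    · refine le_trans (le_of_eq ?_) ((slack_le (le_max_right C _) _).trans hval.slack_w)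
      push_cast
      ring
    · refine le_trans (le_of_eq ?_) ((slack_le (le_max_right C _) _).trans hval.slack_z)
      push_cast
      ring
  have hlt : (p : ℝ) < (1 + p) / 2 := by linarith
  filter_upwards [hev, eventually_gt_nhds (half_lt_self hp0), eventually_lt_nhds hlt]
    with t ht hta htb
  intro z T τ ρ Q x hx
  obtain ⟨h0t, hAt, hBt⟩ := ht
  have t0 : 0 < t := ha.trans hta
  have t1 : t < 1 := by linarith
  have hK'pos : (0 : ℝ) < K' := by positivity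
  have hδ : 4 / (t ^ B.oBd M * K') ≤ η := by
    refine le_trans (div_le_div_of_nonneg_left (by norm_num) (by positivity)
      (mul_le_mul_of_nonneg_right (pow_le_pow_left₀ ha.le hta.le _) hK'pos.le)) ?_
    rw [div_le_iff₀ (by positivity)]
    have := (div_le_iff₀ (by positivity)).1
      ((Nat.le_ceil (4 / (a ^ B.oBd M * η))).trans (show (_ : ℝ) ≤ (K' : ℝ) by
        exact_mod_cast Nat.le_succ _))
    linarith
  have hft : f ≤ (1 - t) ^ (B.Δ * K) := pow_le_pow_left₀ (by linarith) (by linarith) _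
  have hKMpos : (0 : ℝ) < KM := by
    have : 0 < KM := lt_of_lt_of_le (Nat.succ_pos _) (le_max_right _ _)
    exact_mod_cast this
  have hconf : confT B Q t KM ≤ η * f / 2 := by
    have hcf : cf ≤ KM := (Nat.le_ceil cf).trans (by
      exact_mod_cast (Nat.le_succ _).trans (le_max_right _ _))
    rw [div_le_iff₀ (by positivity)] at hcf
    rw [confT, show Q.St.M = M from hStM, div_le_iff₀ (by positivity)]
    refine hcf.trans ?_
    rw [← mul_assoc, mul_comm (η * f / 2), mul_comm (KM : ℝ)]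
    gcongr
  refine le_trans (tube_bound (B := B) (Q := Q) hsc t0 t1 (Nat.succ_pos _)
    (KM := KM) (K' := K') (ε := η) (δ := η) ?_ hη.le ?_ ?_ ?_ ?_ ?_ hx) hηg
  all_goals simp only [show Q.St = St from rfl, show Q.m = m from rfl, hStM]
  · exact le_max_left _ _
  · exact hδ
  · omega
  · exact h0t
  · nlinarith [mul_le_mul_of_nonneg_left hft hη.le]
  · nlinarith [mul_le_mul_of_nonneg_left hft hη.le]

end Vale.Agent.P151.Height
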