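import Vale.Agent.P151.Height.Trap
import Vale.Agent.P151.Reduction.Quenched
import Vale.Agent.P151.FiniteCluster

/-!
Two local lemmas: closing the edges that leave a region at few contacts, and confinement (a cluster
with many vertices near a set rarely avoids it).
-/

open Finset

namespace Vale.Agent.P151.Height

open Vale.Agent.P151.Fin
open Vale.Agent.P165 (cl ball hull cl_mono cl_step cl_subset subset_cl)

variable {W : Type*} [DecidableEq W] {H : SimpleGraph W} [H.LocallyFinite]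

omit [DecidableEq W] [H.LocallyFinite] in
lemma mem_cl_of_walk' {X : Set W} {ω : Finset (Sym2 W)} {x y : W} (w : H.Walk x y)
    (hw : ∀ e ∈ w.edges, e ∈ ω) (hx : x ∈ cl X ω) : y ∈ cl X ω := by
  induction w with
  | nil => exact hx
  | cons h w ih =>
    exact ih (fun e he => hw e (List.mem_cons_of_mem _ he))
      (cl_step hx (hw _ (List.mem_cons_self ..)))

lemma card_ball_deg {Δ : ℕ} (hΔ : ∀ x, (H.neighborFinset x).card ≤ Δ) (x : W) (r : ℕ) :
    (ball H x r).card ≤ (Δ + 1) ^ r := by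
  induction r with
  | zero => simp [ball]
  | succ r ih =>
    refine (card_union_le _ _).trans ?_
    have h1 := card_biUnion_le_card_mul (ball H x r) (fun z => H.neighborFinset z) Δ
      fun z _ => hΔ z
    calc (ball H x r).card + ((ball H x r).biUnion fun z => H.neighborFinset z).card
        ≤ (ball H x r).card * (Δ + 1) := by rw [Nat.mul_succ]; omega
      _ ≤ _ := by rw [pow_succ]; exact Nat.mul_le_mul_right _ ih

omit [H.LocallyFinite] [DecidableEq W] in
/-- The part of a walk after its last vertex in `C`. -/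
lemma exists_suffix {C : Set W} {y z : W} (w : H.Walk y z) (hC : ∃ v ∈ w.support, v ∈ C)
    (hz : z ∉ C) :
    ∃ a b, ∃ w' : H.Walk b z, w'.length + 1 ≤ w.length ∧ s(a, b) ∈ w.edges ∧
      (∀ e ∈ w'.edges, e ∈ w.edges) ∧ a ∈ C ∧ ∀ v ∈ w'.support, v ∉ C := by
  induction w with
  | nil =>
    obtain ⟨v, hv, hvC⟩ := hC
    rw [SimpleGraph.Walk.support_nil, List.mem_singleton] at hv
    exact absurd (hv ▸ hvC) hz
  | @cons a b c h p ih =>
    by_cases hp : ∃ v ∈ p.support, v ∈ C
    · obtain ⟨a', b', w', h1, h2, h3, h4, h5⟩ := ih hp hz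
      exact ⟨a', b', w', h1.trans (Nat.le_succ _), List.mem_cons_of_mem _ h2,
        fun e he => List.mem_cons_of_mem _ (h3 e he), h4, h5⟩
    · simp only [not_exists, not_and] at hp
      obtain ⟨v, hv, hvC⟩ := hC
      rw [SimpleGraph.Walk.support_cons, List.mem_cons] at hv
      rcases hv with rfl | hv
      · exact ⟨v, b, p, le_rfl, List.mem_cons_self .., fun e he => List.mem_cons_of_mem _ he, hvC,
          hp⟩
      · exact absurd hvC (hp v hv)

omit [H.LocallyFinite] [DecidableEq W] in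
lemma sum_ind {ι : Type*} (s : Finset ι) (P : ι → Prop) :
    open scoped Classical in ∑ i ∈ s, ind (P i) = ((s.filter P).card : ℝ) := by
  classical
  rw [Finset.natCast_card_filter]
  exact sum_congr rfl fun i _ => by by_cases h : P i <;> simp [ind, h]

omit [H.LocallyFinite] [DecidableEq W] in
lemma mem_support_of_edge {y z : W} (w : H.Walk y z) {e : Sym2 W} (he : e ∈ w.edges) {v : W}
    (hv : v ∈ e) : v ∈ w.support := by
  obtain ⟨u, rfl⟩ := hv
  exact w.fst_mem_support_of_mem_edges he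

/-- Closing: a cluster with fewer than `K` contacts on `Cap` may be trapped inside `T` by closing
at most `Δ K` edges; then no open edge outside `T` touches it. -/
theorem close_le {t : ℝ} (h0 : 0 ≤ t) (h1 : t ≤ 1) {Δ : ℕ}
    (hΔ : ∀ x, (H.neighborFinset x).card ≤ Δ) {T U : Finset (Sym2 W)} (hTU : T ⊆ U)
    (hU : ↑U ⊆ H.edgeSet) (S : Set W) (Cap : Finset W) (K : ℕ)
    (hcap : ∀ v, (v ∈ S ∨ ∃ e ∈ T, v ∈ e) → ∀ e ∈ U, e ∉ T → v ∈ e → v ∈ Cap)
    (Q : Finset (Sym2 W) → Prop) :
    Fin.pr (fun _ => t) T (fun η => Q η ∧ ¬ HitsS ↑Cap K (cl S η)) * (1 - t) ^ (Δ * K) ≤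
      Fin.pr (fun _ => t) U (fun η => Q (η ∩ T) ∧ ¬ HitsS ↑Cap K (cl S (η ∩ T)) ∧
        cl S η = cl S (η ∩ T) ∧ ∀ e ∈ η, e ∉ T → ∀ v ∈ e, v ∉ cl S (η ∩ T)) := by
  classical
  have p0 : ∀ e : Sym2 W, 0 ≤ (fun _ => t) e := fun _ => h0
  have p1 : ∀ e : Sym2 W, (fun _ => t) e ≤ 1 := fun _ => h1
  have hd : Disjoint T (U \ T) := disjoint_sdiff
  conv_rhs => rw [← union_sdiff_of_subset hTU, pr, ev_split hd]
  rw [pr, mul_comm, ← ev_mul_left]
  refine ev_mono p0 p1 fun σ hσ => ?_
  by_cases hA : Q σ ∧ ¬ HitsS ↑Cap K (cl S σ)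
  · rw [ind_true hA, mul_one]
    set C := cl S σ with hC
    set F := (U \ T).filter fun e => ∃ v ∈ e, v ∈ C with hF
    set Y := Cap.filter fun v => v ∈ C with hY
    have hYK : Y.card < K := by
      by_contra hh
      exact hA.2 ⟨Y, fun v hv => (mem_filter.1 hv).1, fun v hv => (mem_filter.1 hv).2,
        not_lt.1 hh⟩
    have hFc : F.card ≤ Δ * K := by
      have hsub : F ⊆ Y.biUnion fun v => (H.neighborFinset v).image fun w => s(v, w) := by
        intro e he
        obtain ⟨heU, v, hve, hvC⟩ := mem_filter.1 he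
        obtain ⟨heU, heT⟩ := mem_sdiff.1 heU
        have hcapv : v ∈ Cap := by
          refine hcap v ?_ e heU heT hve
          by_cases hvS : v ∈ S
          · exact .inl hvS
          · obtain ⟨z, -, -, hz⟩ := P165.mem_cl_iff_out hvC hvS
            exact .inr ⟨_, hσ hz, Sym2.mem_mk_right z v⟩
        obtain ⟨w, rfl⟩ := hve
        refine mem_biUnion.2 ⟨v, mem_filter.2 ⟨hcapv, hvC⟩, mem_image.2 ⟨w, ?_, rfl⟩⟩
        rw [SimpleGraph.mem_neighborFinset]
        exact hU (mem_coe.2 heU)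
      refine (card_le_card hsub).trans ((card_biUnion_le_card_mul _ _ Δ fun v _ => ?_).trans ?_)
      · exact card_image_le.trans (hΔ v)
      · rw [mul_comm]; exact Nat.mul_le_mul_left _ hYK.le
    calc (1 - t) ^ (Δ * K) ≤ (1 - t) ^ F.card :=
          pow_le_pow_of_le_one (sub_nonneg.2 h1) (by linarith) hFc
      _ = ev (fun _ => t) F fun η => ind (η = ∅) := by
          rw [ev, sum_eq_single ∅]
          · simp [wt, ind_true]
          · intro η _ hne; rw [ind_false hne, mul_zero]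
          · simp
      _ = ev (fun _ => t) (U \ T) fun η => ind (η ∩ F = ∅) :=
          (ev_marginal (filter_subset _ _) fun η => ind (η = ∅)).symm
      _ ≤ _ := ev_mono p0 p1 fun η hη => ind_mono fun hηF => ?_
    have hσT : (σ ∪ η) ∩ T = σ := by
      rw [union_inter_distrib_right, inter_eq_left.2 hσ,
        disjoint_iff_inter_eq_empty.1 (disjoint_of_subset_left hη hd.symm), union_empty]
    have hno : ∀ e ∈ σ ∪ η, e ∉ T → ∀ v ∈ e, v ∉ C := by
      intro e he heT v hv hvC
      rcases mem_union.1 he with he | he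
      · exact heT (hσ he)
      · exact notMem_empty e (hηF ▸ mem_inter.2 ⟨he, mem_filter.2 ⟨hη he, v, hv, hvC⟩⟩)
    rw [hσT]
    refine ⟨hA.1, hA.2, subset_antisymm (cl_subset (subset_cl _ _) fun y z hy hyz => ?_)
      (cl_mono subset_rfl subset_union_left), hno⟩
    by_cases hT : s(y, z) ∈ T
    · rcases mem_union.1 hyz with h | h
      · exact cl_step hy h
      · exact absurd hT (mem_sdiff.1 (hη h)).2
    · exact absurd hy (hno _ hyz hT y (Sym2.mem_mk_left y z))
  · rw [ind_false hA, mul_zero]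
    exact ev_nonneg p0 p1 fun η _ => ind_nonneg _

/-- Opening `e` would join the cluster to `Z` along at most `D` edges. -/
def JoinAt (H : SimpleGraph W) (S Z : Set W) (D : ℕ) (e : Sym2 W) (ξ : Finset (Sym2 W)) : Prop :=
  Disjoint (cl S ξ) Z ∧ ∃ a b z, z ∈ Z ∧ ∃ w' : H.Walk b z, w'.length + 1 ≤ D ∧ e = s(a, b) ∧
    a ∈ cl S ξ ∧ ∀ d ∈ w'.edges, d ∈ ξ

omit [H.LocallyFinite] in
/-- In one configuration at most `D` open edges join the cluster to `Z` in this way. -/
lemma card_joinAt_le (S Z : Set W) (D : ℕ) (η : Finset (Sym2 W)) :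
    open scoped Classical in (η.filter fun e => JoinAt H S Z D e (η.erase e)).card ≤ D := by
  classical
  set P := η.filter fun e => JoinAt H S Z D e (η.erase e) with hP
  rcases P.eq_empty_or_nonempty with h | ⟨e₀, he₀⟩
  · simp [h]
  have hsub : ∀ e ∈ P, η \ P ⊆ η.erase e := fun e he d hd =>
    mem_erase.2 ⟨fun h => (mem_sdiff.1 hd).2 (h ▸ he), (mem_sdiff.1 hd).1⟩
  obtain ⟨e₁, he₁, v, hv, hvc⟩ : ∃ e ∈ P, ∃ v ∈ e, v ∈ cl S (η \ P) := by
    by_contra hh
    simp only [not_exists, not_and] at hh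
    have hclosed : cl S η ⊆ cl S (η \ P) := cl_subset (subset_cl _ _) fun y z hy hyz => by
      by_cases hP' : s(y, z) ∈ P
      · exact absurd hy (hh _ hP' y (Sym2.mem_mk_left y z))
      · exact cl_step hy (mem_sdiff.2 ⟨hyz, hP'⟩)
    obtain ⟨hη₀, hdis, a, b, z, hz, w', -, rfl, ha, hw'⟩ := mem_filter.1 he₀
    have hzc : z ∈ cl S η := mem_cl_of_walk' w' (fun d hd => (mem_erase.1 (hw' d hd)).2)
      (cl_step (cl_mono subset_rfl (erase_subset _ _) ha) hη₀)
    exact Set.disjoint_left.1 hdis (cl_mono subset_rfl (hsub _ he₀) (hclosed hzc)) hz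
  obtain ⟨hη₁, -, a, b, z, hz, w', hlen, rfl, -, hw'⟩ := mem_filter.1 he₁
  set E := insert s(a, b) w'.edges.toFinset
  have hzE : z ∈ cl S (η \ P ∪ E) := by
    refine mem_cl_of_walk' w' (fun d hd => mem_union_right _ (mem_insert_of_mem
      (List.mem_toFinset.2 hd))) ?_
    have hvc' := cl_mono subset_rfl (subset_union_left (s₂ := E)) hvc
    rcases Sym2.mem_iff.1 hv with rfl | rfl
    · exact cl_step hvc' (mem_union_right _ (mem_insert_self _ _))
    · exact hvc'
  have hPE : P ⊆ E := by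
    intro e he
    by_contra heE
    refine Set.disjoint_left.1 (mem_filter.1 he).2.1 (cl_mono subset_rfl ?_ hzE) hz
    intro d hd
    rcases mem_union.1 hd with hd | hd
    · exact hsub e he hd
    · refine mem_erase.2 ⟨fun h => heE (h ▸ hd), ?_⟩
      rcases mem_insert.1 hd with rfl | hd
      · exact hη₁
      · exact (mem_erase.1 (hw' d (List.mem_toFinset.1 hd))).2
  refine (card_le_card hPE).trans ((card_insert_le _ _).trans ?_)
  have := w'.edges.toFinset_card_le
  rw [SimpleGraph.Walk.length_edges] at this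
  omega

/-- Confinement: a cluster with many points near `Z` rarely avoids `Z`. -/
theorem confine {t : ℝ} (h0 : 0 ≤ t) (h1 : t ≤ 1) {Δ : ℕ}
    (hΔ : ∀ x, (H.neighborFinset x).card ≤ Δ) {U : Finset (Sym2 W)} (S : Set W) (Z : Set W)
    (Y : Finset W) {D : ℕ}
    (hY : ∀ y ∈ Y, ∃ z ∈ Z, ∃ w : H.Walk y z, w.length ≤ D ∧ ∀ e ∈ w.edges, e ∈ U) (N : ℕ) :
    Fin.pr (fun _ => t) U (fun η => Disjoint (cl S η) Z ∧ HitsS ↑Y N (cl S η)) * (t ^ (D + 1) * N)
      ≤ (D + 1) * (Δ + 1 : ℝ) ^ (D + 2) := by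
  classical
  set p : Sym2 W → ℝ := fun _ => t with hp
  have p0 : ∀ e, 0 ≤ p e := fun _ => h0
  have p1 : ∀ e, p e ≤ 1 := fun _ => h1
  choose zo hzo wo hwl hwU using hY
  set Ev : Finset (Sym2 W) → Prop := fun η => Disjoint (cl S η) Z ∧ HitsS ↑Y N (cl S η) with hEv
  -- `y` sees `Z` along an open end of its walk
  set Suf : W → Set W → Finset (Sym2 W) → Prop := fun y C ξ =>
    ∃ hy : y ∈ Y, ∃ a b, ∃ w' : H.Walk b (zo y hy), w'.length + 1 ≤ D ∧ s(a, b) ∈ (wo y hy).edges ∧
      a ∈ C ∧ b ∉ C ∧ ∀ d ∈ w'.edges, d ∈ ξ with hSuf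
  set cnt : Finset (Sym2 W) → Finset (Sym2 W) → ℝ := fun K ξ =>
    ind (Ev K) * ∑ y ∈ Y, ind (y ∈ cl S K) * ind (Suf y (cl S K) ξ) with hcnt
  have hlow : Fin.pr p U Ev * (N * t ^ D) ≤
      ev p U fun ω => ev p U fun ω' => cnt (clu S ω) (away (cl S ω) ω') := by
    rw [pr, mul_comm, ← ev_mul_left]
    refine ev_mono p0 p1 fun ω _ => ?_
    by_cases hω : Ev ω
    · have hK : Ev (clu S ω) := by simpa only [hEv, cl_clu] using hω
      simp only [hcnt, ind_true hω, mul_one, ind_true hK, one_mul, cl_clu, ev_sum]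
      obtain ⟨hdis, Y', hY', hY'c, hN⟩ := hω
      calc (N : ℝ) * t ^ D ≤ Y'.card * t ^ D :=
            mul_le_mul_of_nonneg_right (by exact_mod_cast hN) (pow_nonneg h0 D)
        _ = ∑ _y ∈ Y', t ^ D := by rw [sum_const, nsmul_eq_mul]
        _ ≤ ∑ y ∈ Y', ev p U fun ω' => ind (y ∈ cl S ω) * ind (Suf y (cl S ω) (away (cl S ω) ω')) :=
            sum_le_sum fun y hy => ?_
        _ ≤ _ := sum_le_sum_of_subset_of_nonneg (fun y hy => mem_coe.1 (hY' (mem_coe.2 hy)))
            fun y _ _ => ev_nonneg p0 p1 fun _ _ => mul_nonneg (ind_nonneg _) (ind_nonneg _)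
      have hyY : y ∈ Y := mem_coe.1 (hY' (mem_coe.2 hy))
      have hyc : y ∈ cl S ω := hY'c (mem_coe.2 hy)
      obtain ⟨a, b, w', hlen, hab, hsub, ha, hout⟩ := exists_suffix (wo y hyY)
        ⟨y, (wo y hyY).start_mem_support, hyc⟩ (Set.disjoint_right.1 hdis (hzo y hyY))
      simp only [ind_true hyc, one_mul]
      have hU' : w'.edges.toFinset ⊆ U := fun d hd =>
        hwU y hyY d (hsub d (List.mem_toFinset.1 hd))
      refine le_trans ?_ ((Red.pr_subset (p := p) hU').symm.le.trans (pr_mono p0 p1 fun ω' _ hs => ?_))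
      · rw [hp, prod_const]
        refine pow_le_pow_of_le_one h0 h1 ?_
        have := w'.edges.toFinset_card_le
        rw [SimpleGraph.Walk.length_edges] at this
        have := hwl y hyY
        omega
      · exact ⟨hyY, a, b, w', hlen.trans (hwl y hyY), hab, ha, hout b w'.start_mem_support, fun d hd =>
          mem_away.2 ⟨hs (List.mem_toFinset.2 hd), fun v hv => hout v (mem_support_of_edge w' hd hv)⟩⟩
    · rw [ind_false hω, mul_zero]
      exact ev_nonneg p0 p1 fun _ _ =>
        mul_nonneg (ind_nonneg _) (sum_nonneg fun _ _ => mul_nonneg (ind_nonneg _) (ind_nonneg _))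
  rw [← ev_explore] at hlow
  -- every such end gives a closed joining edge
  have hpt : ∀ ω, cnt (clu S ω) (away (cl S ω) ω) ≤
      (Δ + 1 : ℝ) ^ D * ∑ e ∈ U, ind (e ∉ ω ∧ JoinAt H S Z D e ω) := by
    intro ω
    by_cases hω : Ev ω
    · have hK : Ev (clu S ω) := by simpa only [hEv, cl_clu] using hω
      simp only [hcnt, ind_true hK, one_mul, cl_clu, ← ind_and]
      rw [sum_ind, sum_ind]
      set A := Y.filter fun y => y ∈ cl S ω ∧ Suf y (cl S ω) (away (cl S ω) ω)
      have hsub : A ⊆ (U.filter fun e => e ∉ ω ∧ JoinAt H S Z D e ω).biUnion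
          fun e => Y.filter fun y => ∃ hy, e ∈ (wo y hy).edges := by
        intro y hy
        obtain ⟨hyY', -, hyY, a, b, w', hlen, hab, ha, hb, hw'⟩ := mem_filter.1 hy
        refine mem_biUnion.2 ⟨s(a, b), mem_filter.2 ⟨hwU y hyY _ hab,
          fun hopen => hb (cl_step ha hopen), hω.1, a, b, zo y hyY, hzo y hyY, w', hlen, rfl, ha,
          fun d hd => away_subset _ _ (hw' d hd)⟩, mem_filter.2 ⟨hyY', hyY, hab⟩⟩
      have hfib : ∀ e ∈ U.filter (fun e => e ∉ ω ∧ JoinAt H S Z D e ω),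
          (Y.filter fun y => ∃ hy, e ∈ (wo y hy).edges).card ≤ (Δ + 1) ^ D := by
        intro e _
        induction e using Sym2.ind with
        | _ a b =>
          refine (card_le_card fun y hy => ?_).trans (card_ball_deg hΔ a D)
          obtain ⟨-, hyY, he⟩ := mem_filter.1 hy
          exact P165.mem_ball_of_walk
            ((wo y hyY).takeUntil a ((wo y hyY).fst_mem_support_of_mem_edges he))
            (((wo y hyY).length_takeUntil_le_length _).trans (hwl y hyY))
      have h := (card_le_card hsub).trans (card_biUnion_le_card_mul _ _ _ hfib)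
      rw [mul_comm] at h
      have h' : ((A.card : ℕ) : ℝ) ≤ (((Δ + 1) ^ D * _ : ℕ) : ℝ) := Nat.cast_le.2 h
      push_cast at h'
      refine le_of_eq_of_le ?_ (h'.trans_eq ?_)
      · congr!
      · congr!
    · have hK : ¬ Ev (clu S ω) := by simpa only [hEv, cl_clu] using hω
      simp only [hcnt, ind_false hK, zero_mul]
      exact mul_nonneg (by positivity) (sum_nonneg fun _ _ => ind_nonneg _)
  -- opening such an edge gives few configurations
  have hsum : t * ∑ e ∈ U, pr p U (fun ω => e ∉ ω ∧ JoinAt H S Z D e ω) ≤ D := by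
    have hopen : ∀ e ∈ U, t * pr p U (fun ω => e ∉ ω ∧ JoinAt H S Z D e ω) ≤
        pr p U fun ω => e ∈ ω ∧ JoinAt H S Z D e (ω.erase e) := by
      intro e he
      set I := ev p (U.erase e) fun ω => ind (JoinAt H S Z D e ω) with hI
      have hne : ∀ ω, ω ⊆ U.erase e → e ∉ ω := fun ω hω hm => (mem_erase.1 (hω hm)).1 rfl
      have hz : ev p (U.erase e) (fun _ => (0 : ℝ)) = 0 := ev_const 0
      have e1 : pr p U (fun ω => e ∉ ω ∧ JoinAt H S Z D e ω) = (1 - t) * I := by
        rw [pr]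
        conv_lhs => rw [← insert_erase he, ev_insert (notMem_erase e U)]
        rw [ev_congr (g := fun _ => 0) fun ω _ => ind_false fun h => h.1 (mem_insert_self e ω), hz,
          mul_zero, zero_add]
        exact congrArg _ (ev_congr fun ω hω => ind_congr (and_iff_right (hne ω hω)))
      have e2 : pr p U (fun ω => e ∈ ω ∧ JoinAt H S Z D e (ω.erase e)) = t * I := by
        rw [pr]
        conv_lhs => rw [← insert_erase he, ev_insert (notMem_erase e U)]
        rw [ev_congr (f := fun ω => ind (e ∈ ω ∧ JoinAt H S Z D e (ω.erase e))) (g := fun _ => 0)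
          fun ω hω => ind_false fun h => hne ω hω h.1, hz, mul_zero, add_zero]
        refine congrArg _ (ev_congr fun ω hω => ind_congr ?_)
        rw [erase_insert (hne ω hω)]
        exact and_iff_right (mem_insert_self e ω)
      rw [e1, e2]
      have hI0 : 0 ≤ I := pr_nonneg p0 p1 _
      exact mul_le_mul_of_nonneg_left (mul_le_of_le_one_left hI0 (by linarith)) h0
    rw [mul_sum]
    refine (sum_le_sum hopen).trans ?_
    simp only [pr]
    rw [← ev_sum]
    refine (ev_mono p0 p1 fun ω hω => ?_).trans_eq (ev_const (D : ℝ))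
    rw [sum_ind]
    refine Nat.cast_le.2 (le_trans (card_le_card ?_) (card_joinAt_le (H := H) S Z D ω))
    intro e he
    simp only [mem_filter] at he ⊢
    exact he.2
  have hmain := hlow.trans ((ev_mono p0 p1 fun ω _ => hpt ω).trans_eq
    (by rw [ev_mul_left, ev_sum]))
  have hM : (Δ + 1 : ℝ) ^ D ≤ (Δ + 1 : ℝ) ^ (D + 2) :=
    pow_le_pow_right₀ (by linarith [Δ.cast_nonneg (α := ℝ)]) (Nat.le_add_right D 2)
  calc Fin.pr p U Ev * (t ^ (D + 1) * N) = t * (Fin.pr p U Ev * (N * t ^ D)) := by ring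
    _ ≤ t * ((Δ + 1 : ℝ) ^ D * ∑ e ∈ U, pr p U (fun ω => e ∉ ω ∧ JoinAt H S Z D e ω)) :=
        mul_le_mul_of_nonneg_left hmain h0
    _ ≤ (Δ + 1 : ℝ) ^ D * D := by
        rw [mul_left_comm]; exact mul_le_mul_of_nonneg_left hsum (by positivity)
    _ ≤ (D + 1) * (Δ + 1 : ℝ) ^ (D + 2) := by
        rw [mul_comm (D + 1 : ℝ)]
        exact mul_le_mul hM (by linarith) (Nat.cast_nonneg D) (by positivity)

end Vale.Agent.P151.Height
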