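import Vale.Agent.P151.Height.Trap
import Vale.Agent.P151.Height.Local
import Vale.Agent.P151.Reduction.Step

/-!
One hop inside the tube of a coarse bond: the regions around a hop, closing at the landing plane and
the generalised hop step.
-/

open Finset

namespace Vale.Agent.P151.Height

open Vale.Agent.P165 (cl ball hull edgesAt inEdges)
open Vale.Agent.P151.Fin (pr)

variable {W : Type*} [DecidableEq W] {H : SimpleGraph W} [H.LocallyFinite] {G : HeightMap H}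

lemma self_mem_ball' (x : W) (r : ℕ) : x ∈ ball H x r :=
  P165.mem_ball_of_walk SimpleGraph.Walk.nil (Nat.zero_le r)

lemma ball_trans {c x y : W} {r s : ℕ} (hx : x ∈ ball H c r) (hy : y ∈ ball H x s) :
    y ∈ ball H c (r + s) := by
  obtain ⟨w₁, h₁⟩ := exists_walk_of_mem_ball hx
  obtain ⟨w₂, h₂⟩ := exists_walk_of_mem_ball hy
  exact P165.mem_ball_of_walk (w₂.append w₁) (by rw [SimpleGraph.Walk.length_append]; omega)

lemma ball_adj {c x y : W} {r : ℕ} (hx : x ∈ ball H c r) (h : H.Adj y x) :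
    y ∈ ball H c (r + 1) :=
  ball_trans hx (P165.mem_ball_of_walk (SimpleGraph.Walk.cons h .nil) le_rfl)

lemma ball_le {c : W} {r s : ℕ} (h : r ≤ s) : ball H c r ⊆ ball H c s := P165.ball_mono c h

lemma mem_eAt {X : Set W} {Λ : Finset W} {x y : W} :
    s(x, y) ∈ eAt H X Λ ↔ H.Adj x y ∧ ((x ∈ Λ ∧ x ∈ X) ∨ (y ∈ Λ ∧ y ∈ X)) := by
  classical
  simp only [eAt, P165.edgesAt, mem_biUnion, mem_filter, mem_image,
    SimpleGraph.mem_neighborFinset, Sym2.eq_iff]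
  constructor
  · rintro ⟨a, ha, b, hab, ⟨rfl, rfl⟩ | ⟨rfl, rfl⟩⟩
    · exact ⟨hab, .inl ha⟩
    · exact ⟨hab.symm, .inr ha⟩
  · rintro ⟨h, hx | hy⟩
    · exact ⟨x, hx, y, h, .inl ⟨rfl, rfl⟩⟩
    · exact ⟨y, hy, x, h.symm, .inr ⟨rfl, rfl⟩⟩

omit [DecidableEq W] [H.LocallyFinite] in
/-- A vertex of a cluster is a root or is touched by an open edge. -/
lemma cl_touched {S : Set W} {η : Finset (Sym2 W)} {x : W} (h : x ∈ cl S η) :
    x ∈ S ∨ ∃ e ∈ η, x ∈ e := by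
  by_cases hx : x ∈ S
  · exact .inl hx
  · obtain ⟨z, -, -, hzx⟩ := P165.mem_cl_iff_out h hx
    exact .inr ⟨_, hzx, Sym2.mem_mk_right z x⟩

/-- Among enough contacts, many seeds are disjoint and of one size. -/
lemma exists_class (B : Bounds G) {X : Finset W} (O : W → Finset (Sym2 W)) {r Bd : ℕ}
    (hball : ∀ x ∈ X, ∀ e ∈ O x, ∀ y ∈ e, y ∈ ball H x r) (hcard : ∀ x ∈ X, (O x).card ≤ Bd)
    (Z : Finset W) (hZ : Z ⊆ X) {K' : ℕ} (hK : K' * (B.ballBd (2 * r) * (Bd + 1)) ≤ Z.card) :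
    ∃ Y ⊆ Z, K' ≤ Y.card ∧ (Y : Set W).PairwiseDisjoint O ∧
      ∀ x ∈ Y, ∀ y ∈ Y, (O x).card = (O y).card := by
  classical
  have sep : ∀ Z : Finset W, Z ⊆ X → ∃ Y ⊆ Z, Z.card ≤ Y.card * B.ballBd (2 * r) ∧
      (Y : Set W).PairwiseDisjoint O := by
    intro Z
    induction Z using Finset.strongInduction with
    | H Z ih =>
      intro hZX
      rcases Z.eq_empty_or_nonempty with rfl | ⟨a, ha⟩
      · exact ⟨∅, subset_refl _, by simp, by simp⟩
      have hlt : Z \ ball H a (2 * r) ⊂ Z :=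
        (ssubset_iff_of_subset sdiff_subset).2
          ⟨a, ha, fun h => (mem_sdiff.1 h).2 (self_mem_ball' a _)⟩
      obtain ⟨Y, hY, hc, hd⟩ := ih _ hlt (sdiff_subset.trans hZX)
      have haY : a ∉ Y := fun h => (mem_sdiff.1 (hY h)).2 (self_mem_ball' a _)
      refine ⟨insert a Y, insert_subset ha (hY.trans sdiff_subset), ?_, ?_⟩
      · rw [card_insert_of_notMem haY, Nat.add_mul, one_mul]
        have h1 : Z.card ≤ (Z \ ball H a (2 * r)).card + (ball H a (2 * r)).card :=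
          card_le_card_sdiff_add_card
        have := B.card_ball_le a (2 * r)
        omega
      · rw [coe_insert]
        refine hd.insert fun b hb _ => disjoint_left.2 fun e he he' => ?_
        refine (mem_sdiff.1 (hY hb)).2 ?_
        induction e with
        | h p q =>
          have hp := hball a (hZX ha) _ he p (Sym2.mem_mk_left p q)
          obtain ⟨w, hw⟩ := exists_walk_of_mem_ball
            (hball b (hZX (mem_sdiff.1 (hY hb)).1) _ he' p (Sym2.mem_mk_left p q))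
          rw [two_mul]
          exact ball_trans hp (P165.mem_ball_of_walk w.reverse (by rwa [w.length_reverse]))
  obtain ⟨Y₀, hY₀, hc, hd⟩ := sep Z hZ
  have hmaps : ∀ x ∈ Y₀, (O x).card ∈ range (Bd + 1) := fun x hx =>
    mem_range.2 (Nat.lt_succ_of_le (hcard x (hZ (hY₀ hx))))
  have hpos : 0 < B.ballBd (2 * r) := by unfold Bounds.ballBd; positivity
  have hbig : (range (Bd + 1)).card * K' ≤ Y₀.card := by
    rw [card_range]
    refine Nat.le_of_mul_le_mul_right (le_trans ?_ hc) hpos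
    calc (Bd + 1) * K' * B.ballBd (2 * r) = K' * (B.ballBd (2 * r) * (Bd + 1)) := by ring
      _ ≤ Z.card := hK
  obtain ⟨k, -, hk⟩ := exists_le_card_fiber_of_mul_le_card_of_maps_to hmaps (by simp) hbig
  refine ⟨Y₀.filter fun x => (O x).card = k, (filter_subset _ _).trans hY₀, hk,
    hd.subset (coe_subset.2 (filter_subset _ _)), fun x hx y hy => ?_⟩
  rw [(mem_filter.1 hx).2, (mem_filter.1 hy).2]

variable (B : Bounds G)

/-- The band below the landing plane. -/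
def bandW (M : ℕ) : ℕ := 2 * ((B.L M + M) * B.D₀) + 1

/-- The length of the walks beyond the landing plane. -/
def upD (M : ℕ) : ℕ := 2 * (bandW B M + B.c₀ + B.D₀ + 2) * B.ℓ₀

/-- All margins of a hop together. -/
def slackC (m M : ℕ) : ℕ :=
  (B.L M + M) * B.D₀ + (B.L m + m) * B.D₀ + (m * B.D₀ + 1) + bandW B M + B.c₀ + B.D₀ + 2 +
    upD B M * B.D₀ + upD B M + M + m + B.L M + B.L m

/-- The standing hypotheses on the parameters. -/
structure Scale (Q : Geo) : Prop where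
  valid : Q.St.Valid B (slackC B Q.m Q.St.M)
  sw : 1000 * (slackC B Q.m Q.St.M * nrm Q.St.wF) ≤ (Q.St.N : ℤ)
  sz : 1000 * (slackC B Q.m Q.St.M * nrm Q.St.zF) ≤ (Q.St.N : ℤ)

lemma slack_le {a k : ℕ} (h : a ≤ k) (u : ℤ × ℤ) : (a : ℤ) * nrm u ≤ k * nrm u :=
  mul_le_mul_of_nonneg_right (by exact_mod_cast h) (nrm_nonneg u)

/-- The level of the landing plane. -/
def lev (Q : Geo) (T : ℤ) : ℤ := (Q.plane B (T + 1)).2

omit [DecidableEq W] in
lemma plane_snd (Q : Geo) (T : ℤ) :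
    lev B Q T = (T + 1) * Q.Lw - (Q.m * B.D₀ + 1) * nrm Q.St.wF := rfl

/-- The lateral target of a bond. -/
def tgt (Q : Geo) (z : ℤ) (τ : ℤˣ) : ℤ := (z + (τ : ℤ)) * Q.Lz

/-- A hop centred at `c` fits in the tube of the bond. -/
structure Fits (Q : Geo) (z T : ℤ) (τ : ℤˣ) (ρ' : ℕ) (c : W) : Prop where
  cen : c ∈ G.Cen
  inBall : ∀ x ∈ ball H c (Q.St.R + 2 + slackC B Q.m Q.St.M), x ∈ ball H G.o ρ'
  low : T * Q.Lw - 20 * Q.St.N ≤ G.ht Q.St.wF c
  zone : (G.ht Q.St.wF c ≤ T * Q.Lw + 1570 * Q.St.N ∧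
      min (z * Q.Lz) (tgt Q z τ) - 36 * Q.St.N ≤ G.ht Q.St.zF c ∧
      G.ht Q.St.zF c ≤ max (z * Q.Lz) (tgt Q z τ) + 36 * Q.St.N) ∨
    |G.ht Q.St.zF c - tgt Q z τ| ≤ 8 * Q.St.N

/-- Points within reach of a hop centred at `c`. -/
def Close (Q : Geo) (c x : W) : Prop :=
  |G.ht Q.St.wF x - G.ht Q.St.wF c| ≤ 8 * Q.St.N ∧ |G.ht Q.St.zF x - G.ht Q.St.zF c| ≤ 8 * Q.St.N

variable {B} {Q : Geo} {z T : ℤ} {τ : ℤˣ} {ρ' : ℕ} {c x y : W}

omit [DecidableEq W] in
/-- The reference point of a shape seen from a centre. -/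
lemma bl_at_pull {S : Shape} {M : ℕ} (hc : c ∈ G.Cen) (hx : x ∈ B.Bl (G.at c S) M) :
    ∃ φ : H ≃g H, φ G.o = c ∧ ∃ x₀, φ x₀ = x ∧ x₀ ∈ B.Bl S M ∧
      (∀ u w, G.ht u (φ w) = G.ht u w + G.ht u c) ∧
      ∀ P w, φ w ∈ B.pset (G.pieceAt c P) M ↔ w ∈ B.pset P M := by
  obtain ⟨φ, v, hφ, rfl⟩ := hc
  have hv : G.π (φ G.o) = v := by rw [hφ G.o, G.π_o, zero_add]
  rw [← hv] at hφ
  obtain ⟨x₀, rfl⟩ := φ.surjective x
  exact ⟨φ, rfl, x₀, rfl, (bl_at B hφ S M x₀).1 hx, fun u w => G.ht_shift hφ u w,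
    fun P w => pset_at B hφ P M w⟩

/-- The shapes of the hops. -/
def shapes (Q : Geo) : List Shape := [Q.St.shA, Q.St.shB, Q.St.sh0]

lemma region_at (hs : Scale B Q) {S : Shape} (hS : S ∈ shapes Q) (hc : c ∈ G.Cen)
    (hx : x ∈ B.Bl (G.at c S) Q.St.M) :
    |G.ht Q.St.wF x - G.ht Q.St.wF c| ≤ 7 * Q.St.N ∧
      |G.ht Q.St.zF x - G.ht Q.St.zF c| ≤ 7 * Q.St.N := by
  obtain ⟨φ, -, x₀, rfl, hx₀, hh, -⟩ := bl_at_pull hc hx
  have := hs.valid.region S hS x₀ hx₀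
  rw [hh, hh, add_sub_cancel_right, add_sub_cancel_right]
  exact this

lemma inner_at (hs : Scale B Q) {S : Shape} (hS : S ∈ shapes Q) (hc : c ∈ G.Cen) {r : ℕ}
    (hr : r ≤ slackC B Q.m Q.St.M) (hx : x ∈ ball H c r) : x ∈ B.Bl (G.at c S) Q.St.M := by
  obtain ⟨φ, v, hφ, rfl⟩ := hc
  have hv : G.π (φ G.o) = v := by rw [hφ G.o, G.π_o, zero_add]
  rw [← hv] at hφ
  rw [← ball_map φ G.o r, Finset.mem_map] at hx
  obtain ⟨x₀, hx₀, rfl⟩ := hx
  exact (bl_at B hφ S Q.St.M x₀).2 (hs.valid.inner S hS (Finset.mem_coe.2 (ball_le hr hx₀)))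

/-- Vertices within a bounded walk of a neighbour of a shape are close. -/
lemma close_of_ball (hs : Scale B Q) {S : Shape} (hS : S ∈ shapes Q) (hc : c ∈ G.Cen) {p q : W}
    (hp : p ∈ B.Bl (G.at c S) Q.St.M) (hq : q = p ∨ H.Adj q p) {r : ℕ}
    (hr : r * B.D₀ ≤ slackC B Q.m Q.St.M) (hx : x ∈ ball H q r) : Close (G := G) Q c x := by
  obtain ⟨a, b⟩ := region_at hs hS hc hp
  have key : ∀ u, 1000 * ((slackC B Q.m Q.St.M : ℤ) * nrm u) ≤ Q.St.N →
      |G.ht u p - G.ht u c| ≤ 7 * Q.St.N → |G.ht u x - G.ht u c| ≤ 8 * Q.St.N := by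
    intro u hu hpu
    have h1 := abs_le.1 (ht_ball B u hx)
    have h2 : |G.ht u q - G.ht u p| ≤ B.D₀ * nrm u := by
      rcases hq with rfl | hq
      · simp only [sub_self, abs_zero]
        exact mul_nonneg (Int.natCast_nonneg _) (nrm_nonneg u)
      · exact B.lip u q p hq
    have h3 : ((r * B.D₀ : ℕ) : ℤ) * nrm u ≤ slackC B Q.m Q.St.M * nrm u := slack_le hr u
    have h4 : ((B.D₀ : ℕ) : ℤ) * nrm u ≤ slackC B Q.m Q.St.M * nrm u :=
      slack_le (by unfold slackC; omega) u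
    have h5 := abs_le.1 h2
    have h6 := abs_le.1 hpu
    push_cast at h3
    rw [abs_le]
    constructor <;> linarith
  exact ⟨key _ hs.sw a, key _ hs.sz b⟩

omit [DecidableEq W] [H.LocallyFinite] in
lemma close_self (c : W) : Close (G := G) Q c c := by
  simp [Close]

/-- A close point below the landing plane is in the region. -/
lemma mem_region (hf : Fits B Q z T τ ρ' c) (hx : Close (G := G) Q c x)
    (hout : x ∉ B.Out (Q.plane B (T + 1)) Q.m) : x ∈ Q.region B z T τ := by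
  obtain ⟨a, b⟩ := hx
  rw [abs_le] at a b
  have := hf.low
  refine ⟨hout, by linarith, ?_⟩
  rcases hf.zone with ⟨h1, h2, h3⟩ | h
  · exact .inl ⟨by linarith, by simp only [tgt] at h2; linarith,
      by simp only [tgt] at h3; linarith⟩
  · rw [abs_le] at h
    refine .inr (abs_le.2 ?_)
    simp only [tgt] at h
    constructor <;> linarith

lemma low_of_close (hf : Fits B Q z T τ ρ' c) (hx : Close (G := G) Q c x) :
    T * Q.Lw - 30 * Q.St.N ≤ G.ht Q.St.wF x := by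
  have := abs_le.1 hx.1
  have := hf.low
  linarith

/-- An edge near a hop with an end below the landing plane is in the tube. -/
lemma mem_tube (hf : Fits B Q z T τ ρ' c) (h : H.Adj x y) (hx : Close (G := G) Q c x)
    (hy : Close (G := G) Q c y) (hxb : x ∈ ball H G.o ρ')
    (hout : x ∉ B.Out (Q.plane B (T + 1)) Q.m) : s(x, y) ∈ Q.tube B z T τ ρ' := by
  classical
  refine mem_filter.2 ⟨mem_eAt.2 ⟨h, .inl ⟨hxb, mem_region hf hx hout⟩⟩, fun v hv => ?_⟩
  rcases Sym2.mem_iff.1 hv with rfl | rfl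
  exacts [low_of_close hf hx, low_of_close hf hy]

/-- A vertex touched by the tube is just above the landing plane at most. -/
lemma ht_le_of_tube {e : Sym2 W} {v : W} (he : e ∈ Q.tube B z T τ ρ') (hv : v ∈ e) :
    G.ht Q.St.wF v ≤ lev B Q T + (B.c₀ + B.D₀ : ℕ) * nrm Q.St.wF := by
  classical
  induction e with
  | h a b =>
    obtain ⟨hab, hh⟩ := mem_eAt.1 (mem_filter.1 he).1
    obtain ⟨r, ⟨-, hr⟩, hrv⟩ : ∃ r, (r ∈ ball H G.o ρ' ∧ r ∈ Q.region B z T τ) ∧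
        (v = r ∨ H.Adj v r) := by
      rcases hh with h | h <;> rcases Sym2.mem_iff.1 hv with rfl | rfl
      exacts [⟨_, h, .inl rfl⟩, ⟨_, h, .inr hab.symm⟩, ⟨_, h, .inr hab⟩, ⟨_, h, .inl rfl⟩]
    have h1 : G.ht Q.St.wF r ≤ lev B Q T + B.c₀ * nrm Q.St.wF :=
      not_lt.1 fun h => hr.1 (B.mem_out_of_gt h)
    have h2 : |G.ht Q.St.wF v - G.ht Q.St.wF r| ≤ B.D₀ * nrm Q.St.wF := by
      rcases hrv with rfl | h'
      · simp only [sub_self, abs_zero]
        exact mul_nonneg (Int.natCast_nonneg _) (nrm_nonneg _)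
      · exact B.lip _ v r h'
    have := abs_le.1 h2
    push_cast
    linarith

/-- Edges outside the tube meet what the tube touches only in the next cell. -/
lemma mem_cap (hs : Scale B Q) (hf : Fits B Q z T τ ρ' c) (hv : Close (G := G) Q c x)
    (hy : Close (G := G) Q c y) (h : H.Adj x y) (hxb : x ∈ ball H G.o ρ')
    (hnot : s(x, y) ∉ Q.tube B z T τ ρ')
    (hup : G.ht Q.St.wF x ≤ lev B Q T + (B.c₀ + B.D₀ : ℕ) * nrm Q.St.wF) :
    x ∈ Q.gx B (z + (τ : ℤ)) (T + 1) (ρ' + 1) := by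
  classical
  have hout : x ∈ B.Out (Q.plane B (T + 1)) Q.m := by
    by_contra hno
    exact hnot (mem_tube hf h hv hy hxb hno)
  have hgt : lev B Q T < G.ht Q.St.wF x := B.out_gt hout
  have hN : (1 : ℤ) ≤ Q.St.N := by exact_mod_cast hs.valid.N_pos
  have hn := nrm_nonneg Q.St.wF
  have s1 : ((Q.m * B.D₀ + 1 : ℕ) : ℤ) * nrm Q.St.wF ≤ slackC B Q.m Q.St.M * nrm Q.St.wF :=
    slack_le (by unfold slackC; omega) _
  have s2 : ((B.c₀ + B.D₀ : ℕ) : ℤ) * nrm Q.St.wF ≤ slackC B Q.m Q.St.M * nrm Q.St.wF :=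
    slack_le (by unfold slackC; omega) _
  push_cast at s1 s2 hup
  have hl := plane_snd B Q T
  have hsw := hs.sw
  have hLw : Q.Lw = 2000 * Q.St.N := rfl
  have hmn : 0 ≤ ((Q.m : ℤ) * B.D₀ + 1) * nrm Q.St.wF :=
    mul_nonneg (add_nonneg (mul_nonneg (Int.natCast_nonneg _) (Int.natCast_nonneg _))
      zero_le_one) hn
  have hnn : 0 ≤ ((B.c₀ : ℤ) + B.D₀) * nrm Q.St.wF :=
    mul_nonneg (add_nonneg (Int.natCast_nonneg _) (Int.natCast_nonneg _)) hn
  refine mem_filter.2 ⟨ball_le (Nat.le_succ ρ') hxb, hout, by linarith, ?_⟩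
  obtain ⟨a, b⟩ := hv
  rw [abs_le] at a b
  rcases hf.zone with ⟨h1, -, -⟩ | hz
  · exfalso
    rw [hLw] at h1
    rw [hLw, add_one_mul] at hl
    linarith
  · rw [abs_le] at hz ⊢
    simp only [tgt] at hz
    constructor <;> linarith

variable (B) in
/-- The exit contacts of a hop next to its shape. -/
noncomputable def cont (Q : Geo) (c : W) (S : Shape) (P : Set W) : Finset W :=
  open scoped Classical in (ball H c (Q.St.R + 1)).filter fun x =>
    x ∈ P ∧ ∃ y ∈ B.Bl (G.at c S) Q.St.M, H.Adj y x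

variable (B) in
/-- The contacts well below the landing plane. -/
noncomputable def contX (Q : Geo) (T : ℤ) (c : W) (S : Shape) (P : Set W) : Finset W :=
  open scoped Classical in (cont B Q c S P).filter fun x =>
    G.ht Q.St.wF x + bandW B Q.St.M * nrm Q.St.wF ≤ lev B Q T

variable (B) in
/-- The edges of a shape seen in a window. -/
noncomputable def hopE (Q : Geo) (c : W) (S : Shape) : Finset (Sym2 W) :=
  eAt H (B.Bl (G.at c S) Q.St.M) (ball H c Q.St.R)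

lemma eAt_edge {X : Set W} {Λ : Finset W} {e : Sym2 W} (he : e ∈ eAt H X Λ) : e ∈ H.edgeSet := by
  induction e with
  | h x y => exact (mem_eAt.1 he).1

lemma tube_edge {e : Sym2 W} (he : e ∈ Q.tube B z T τ ρ') : e ∈ H.edgeSet := by
  classical
  exact eAt_edge (mem_filter.1 he).1

/-- The ends of an edge of a window are close and in the ball. -/
lemma hopE_spec (hs : Scale B Q) (hf : Fits B Q z T τ ρ' c) {S : Shape} (hS : S ∈ shapes Q)
    {e : Sym2 W} (he : e ∈ hopE B Q c S) {v : W} (hv : v ∈ e) :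
    Close (G := G) Q c v ∧ v ∈ ball H G.o ρ' ∧ v ∈ ball H c (Q.St.R + 1) ∧
      (v ∈ B.Bl (G.at c S) Q.St.M ∨ ∃ p ∈ B.Bl (G.at c S) Q.St.M, H.Adj p v) := by
  induction e with
  | h a b =>
    obtain ⟨hab, hh⟩ := mem_eAt.1 he
    obtain ⟨p, hpb, hp, hpv⟩ : ∃ p, p ∈ ball H c Q.St.R ∧ p ∈ B.Bl (G.at c S) Q.St.M ∧
        (v = p ∨ H.Adj v p) := by
      rcases hh with h | h <;> rcases Sym2.mem_iff.1 hv with rfl | rfl
      exacts [⟨_, h.1, h.2, .inl rfl⟩, ⟨_, h.1, h.2, .inr hab.symm⟩, ⟨_, h.1, h.2, .inr hab⟩,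
        ⟨_, h.1, h.2, .inl rfl⟩]
    have hb : v ∈ ball H c (Q.St.R + 1) := by
      rcases hpv with rfl | h
      exacts [ball_le (Nat.le_succ _) hpb, ball_adj hpb h]
    refine ⟨close_of_ball hs hS hf.cen hp hpv (r := 0) (by simp) (self_mem_ball' v 0),
      hf.inBall v (ball_le (by omega) hb), hb, ?_⟩
    rcases hpv with rfl | h
    exacts [.inl hp, .inr ⟨p, hp, h.symm⟩]

/-- A point of the exit in a cluster grown inside the shape is a contact. -/
lemma mem_cont (hs : Scale B Q) (hf : Fits B Q z T τ ρ' c) {S : Shape} (hS : S ∈ shapes Q)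
    {P : Set W} (hP : P ⊆ exit B (G.at c S) Q.St.M) {m' : ℕ}
    (hm : m' ≤ slackC B Q.m Q.St.M) {η : Finset (Sym2 W)} (hη : η ⊆ hopE B Q c S)
    (hxP : x ∈ P) (hx : x ∈ reach H m' c η) : x ∈ cont B Q c S P := by
  classical
  rcases cl_touched hx with h | ⟨e, he, hxe⟩
  · exact absurd (inner_at hs hS hf.cen hm (Finset.mem_coe.1 h)) (hP hxP)
  · obtain ⟨-, -, hb, hor⟩ := hopE_spec hs hf hS (hη he) hxe
    exact mem_filter.2 ⟨hb, hxP, hor.resolve_left (hP hxP)⟩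

lemma cont_spec {S : Shape} {P : Set W} (hx : x ∈ cont B Q c S P) :
    x ∈ P ∧ x ∈ ball H c (Q.St.R + 1) ∧ ∃ y ∈ B.Bl (G.at c S) Q.St.M, H.Adj y x := by
  classical
  obtain ⟨h1, h2, h3⟩ := mem_filter.1 hx
  exact ⟨h2, h1, h3⟩

lemma seed_low {m' : ℕ} (h : G.ht Q.St.wF c + (m' * B.D₀ : ℕ) * nrm Q.St.wF ≤ lev B Q T)
    (hx : x ∈ ball H c m') : G.ht Q.St.wF x ≤ lev B Q T := by
  have := abs_le.1 (ht_ball B Q.St.wF hx)
  push_cast at h
  linarith

/-- An edge of the window outside the tube meets what the tube reaches only in the next cell. -/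
lemma cap_of_close (hs : Scale B Q) (hf : Fits B Q z T τ ρ' c) {m' : ℕ}
    (hlow : G.ht Q.St.wF c + (m' * B.D₀ : ℕ) * nrm Q.St.wF ≤ lev B Q T) {e : Sym2 W}
    (he : e ∈ H.edgeSet) (hends : ∀ v ∈ e, Close (G := G) Q c v ∧ v ∈ ball H G.o ρ')
    (hnot : e ∉ Q.tube B z T τ ρ') (hx : x ∈ e)
    (hup : x ∈ (↑(ball H c m') : Set W) ∨ ∃ d ∈ Q.tube B z T τ ρ', x ∈ d) :
    x ∈ Q.gx B (z + (τ : ℤ)) (T + 1) (ρ' + 1) := by
  obtain ⟨y, rfl⟩ := hx
  refine mem_cap hs hf (hends x (Sym2.mem_mk_left x y)).1 (hends y (Sym2.mem_mk_right x y)).1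
    he (hends x (Sym2.mem_mk_left x y)).2 hnot ?_
  rcases hup with h | ⟨d, hd, hxd⟩
  · have h1 := seed_low hlow (Finset.mem_coe.1 h)
    have h2 : (0 : ℤ) ≤ (B.c₀ + B.D₀ : ℕ) * nrm Q.St.wF :=
      mul_nonneg (Int.natCast_nonneg _) (nrm_nonneg _)
    linarith
  · exact ht_le_of_tube hd hxd

/-- From near the landing plane a short walk leads beyond it. -/
lemma exists_up (hs : Scale B Q) (hy : lev B Q T < G.ht Q.St.wF y + bandW B Q.St.M * nrm Q.St.wF) :
    ∃ a, lev B Q T + (B.c₀ + B.D₀ : ℕ) * nrm Q.St.wF < G.ht Q.St.wF a ∧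
      ∃ w : H.Walk y a, w.length ≤ upD B Q.St.M := by
  obtain ⟨v, hv, hg⟩ := exists_unit Q.St.wF
  have hn : 0 < nrm Q.St.wF := by
    rcases (nrm_nonneg Q.St.wF).eq_or_lt with h | h
    · refine absurd (Prod.ext ?_ ?_) hs.valid.wF_ne <;> simp only [nrm] at h <;>
        [skip; skip] <;>
        exact abs_eq_zero.1 (by
          have := abs_nonneg Q.St.wF.1
          have := abs_nonneg Q.St.wF.2
          linarith)
    · exact h
  obtain ⟨a, w, hw, -, ha⟩ := exists_climb B Q.St.wF v hv (by linarith)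
    (2 * (bandW B Q.St.M + B.c₀ + B.D₀ + 2)) y
    (G.ht Q.St.wF y - B.c₀ * nrm Q.St.wF - 1) (by linarith)
  refine ⟨a, ?_, w, hw⟩
  have h1 : ((bandW B Q.St.M + B.c₀ + B.D₀ + 2 : ℕ) : ℤ) * nrm Q.St.wF ≤
      (bandW B Q.St.M + B.c₀ + B.D₀ + 2 : ℕ) * (2 * dot Q.St.wF v) :=
    mul_le_mul_of_nonneg_left hg (Int.natCast_nonneg _)
  push_cast at h1 ha ⊢
  linarith

/-- A hop near the landing plane: few low contacts inside the tube is unlikely unless the next
cell is reached. -/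
theorem few_near (hs : Scale B Q) (hf : Fits B Q z T τ ρ' c) {S : Shape} (hS : S ∈ shapes Q)
    {P : Set W} (hP : P ⊆ exit B (G.at c S) Q.St.M) {m' : ℕ}
    (hm : m' ≤ slackC B Q.m Q.St.M)
    (hlow : G.ht Q.St.wF c + (m' * B.D₀ : ℕ) * nrm Q.St.wF ≤ lev B Q T)
    {t : ℝ} (h0 : 0 < t) (h1 : t ≤ 1) (K : ℕ) {KM : ℕ} (hKM : 0 < KM) :
    pr (fun _ => t) (Q.tube B z T τ ρ') (fun η =>
        ¬ HitsS ↑(Q.gx B (z + (τ : ℤ)) (T + 1) (ρ' + 1)) K (reach H m' c η) ∧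
        ¬ HitsS ↑(contX B Q T c S P) KM
          (reach H m' c (η ∩ (hopE B Q c S ∩ Q.tube B z T τ ρ')))) * (1 - t) ^ (B.Δ * K) ≤
      fail B t m' (2 * KM) (G.at c S) Q.St.M c Q.St.R P +
        (upD B Q.St.M + 1) * (B.Δ + 1 : ℝ) ^ (upD B Q.St.M + 2) /
          (t ^ (upD B Q.St.M + 1) * KM) := by
  classical
  set p : Sym2 W → ℝ := fun _ => t
  have p0 : ∀ e, 0 ≤ p e := fun _ => h0.le
  have p1 : ∀ e, p e ≤ 1 := fun _ => h1
  set Tb := Q.tube B z T τ ρ'
  set E0 := hopE B Q c S ∩ Tb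
  set Gx := Q.gx B (z + (τ : ℤ)) (T + 1) (ρ' + 1)
  set X := contX B Q T c S P
  set Yb := cont B Q c S P \ X
  set D := upD B Q.St.M
  set f := (1 - t) ^ (B.Δ * K) with hfdef
  set A₁ : Finset (Sym2 W) → Prop := fun η => ¬ HitsS ↑Gx K (reach H m' c η) ∧
    ¬ HitsS ↑X KM (reach H m' c η) ∧ ¬ HitsS ↑Yb KM (reach H m' c η)
  set A₂ : Finset (Sym2 W) → Prop := fun η =>
    HitsS ↑Yb KM (reach H m' c η) ∧ ¬ HitsS ↑Gx K (reach H m' c η)
  have mono : ∀ {η η' : Finset (Sym2 W)}, η ⊆ η' → ∀ {Z : Set W} {k : ℕ},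
      HitsS Z k (reach H m' c η) → HitsS Z k (reach H m' c η') :=
    fun hsub _ _ ⟨Y, a, b, d⟩ => ⟨Y, a, b.trans (P165.cl_mono subset_rfl hsub), d⟩
  have hcase : ∀ η, η ⊆ Tb → ¬ HitsS ↑Gx K (reach H m' c η) ∧
      ¬ HitsS ↑X KM (reach H m' c (η ∩ E0)) → A₁ (η ∩ E0) ∨ A₂ η := by
    intro η _ h
    by_cases hY : HitsS ↑Yb KM (reach H m' c (η ∩ E0))
    · exact .inr ⟨mono inter_subset_left hY, h.1⟩
    · exact .inl ⟨fun hh => h.1 (mono inter_subset_left hh), h.2, hY⟩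
  have hsum : pr p Tb (fun η => ¬ HitsS ↑Gx K (reach H m' c η) ∧
      ¬ HitsS ↑X KM (reach H m' c (η ∩ E0))) ≤ pr p E0 A₁ + pr p Tb A₂ := by
    have e : pr p Tb (fun η => A₁ (η ∩ E0)) = pr p E0 A₁ :=
      Fin.ev_marginal inter_subset_right fun η => Fin.ind (A₁ η)
    have := Fin.pr_mono (U := Tb) p0 p1 hcase
    have := Fin.pr_or_and (p := p) (U := Tb) (fun η => A₁ (η ∩ E0)) A₂
    have := Fin.pr_nonneg (U := Tb) p0 p1 fun η => A₁ (η ∩ E0) ∧ A₂ η
    linarith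
  have hE : pr p E0 A₁ * f ≤ fail B t m' (2 * KM) (G.at c S) Q.St.M c Q.St.R P := by
    have h := close_le (t := t) h0.le h1 B.deg (T := E0) (U := hopE B Q c S) inter_subset_left
      (fun e he => eAt_edge (Finset.mem_coe.1 he)) (↑(ball H c m') : Set W) Gx K
      (fun v hv e he hnot hve => cap_of_close hs hf hlow (eAt_edge he)
        (fun w hw => ⟨(hopE_spec hs hf hS he hw).1, (hopE_spec hs hf hS he hw).2.1⟩)
        (fun ht => hnot (mem_inter.2 ⟨he, ht⟩)) hve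
        (hv.imp id fun ⟨d, hd, hvd⟩ => ⟨d, (mem_inter.1 hd).2, hvd⟩))
      (fun η => ¬ HitsS ↑X KM (reach H m' c η) ∧ ¬ HitsS ↑Yb KM (reach H m' c η))
    refine le_trans (le_of_eq ?_) (h.trans (Fin.pr_mono p0 p1 fun η hη hh => ?_))
    · exact congrArg (· * f) (Fin.pr_congr fun η _ => by simp only [A₁, reach]; tauto)
    obtain ⟨⟨hX, hY⟩, -, heq, -⟩ := hh
    rintro ⟨Y, hYP, hYr, hcard⟩
    have hsub : Y ⊆ X ∪ Yb := fun v hv => by
      have := mem_cont hs hf hS hP hm hη (hYP hv) (hYr hv)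
      by_cases hvX : v ∈ X
      · exact mem_union_left _ hvX
      · exact mem_union_right _ (mem_sdiff.2 ⟨this, hvX⟩)
    have hr : ∀ v ∈ Y, v ∈ reach H m' c (η ∩ E0) := fun v hv => (Set.ext_iff.1 heq v).1 (hYr hv)
    have b1 : (Y.filter (· ∈ X)).card < KM := not_le.1 fun hh => hX
      ⟨_, fun v hv => (mem_filter.1 hv).2, fun v hv => hr v (mem_filter.1 hv).1, hh⟩
    have b2 : (Y.filter (· ∉ X)).card < KM := not_le.1 fun hh => hY
      ⟨_, fun v hv => (mem_union.1 (hsub (mem_filter.1 hv).1)).resolve_left (mem_filter.1 hv).2,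
        fun v hv => hr v (mem_filter.1 hv).1, hh⟩
    have := card_filter_add_card_filter_not (s := Y) (fun v => v ∈ X)
    omega
  have hT : pr p Tb A₂ * f ≤ (D + 1) * (B.Δ + 1 : ℝ) ^ (D + 2) / (t ^ (D + 1) * KM) := by
    set U := Tb ∪ (eAt H Set.univ (ball H G.o ρ')).filter fun e =>
      ∀ v ∈ e, Close (G := G) Q c v ∧ v ∈ ball H G.o ρ'
    have hadj : ∀ e ∈ U, e ∈ H.edgeSet := by
      intro e he
      rcases mem_union.1 he with h | h
      · exact tube_edge h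
      · exact eAt_edge (mem_filter.1 h).1
    have h := close_le (t := t) h0.le h1 B.deg (T := Tb) (U := U) subset_union_left
      (fun e he => hadj e (Finset.mem_coe.1 he)) (↑(ball H c m') : Set W) Gx K
      (fun v hv e he hnot hve => cap_of_close hs hf hlow (hadj e he)
        (mem_filter.1 ((mem_union.1 he).resolve_left hnot)).2 hnot hve hv)
      (fun η => HitsS ↑Yb KM (reach H m' c η))
    rw [le_div_iff₀ (mul_pos (pow_pos h0 _) (by exact_mod_cast hKM))]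
    refine le_trans (mul_le_mul_of_nonneg_right (le_trans (le_of_eq
      (congrArg (· * f) (Fin.pr_congr fun η _ => Iff.rfl))) (h.trans (Fin.pr_mono p0 p1
        fun η hη hh => ?_))) (mul_nonneg (pow_nonneg h0.le _) (Nat.cast_nonneg _)))
      (confine (t := t) h0.le h1 B.deg (U := U) (↑(ball H c m') : Set W)
        {v | lev B Q T + (B.c₀ + B.D₀ : ℕ) * nrm Q.St.wF < G.ht Q.St.wF v} Yb (D := D) ?_ KM)
    · obtain ⟨hY, -, heq, -⟩ := hh
      refine ⟨Set.disjoint_left.2 fun v hv hz => not_le.2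
        (by simpa only [Set.mem_ofPred_eq] using hz :
        lev B Q T + (B.c₀ + B.D₀ : ℕ) * nrm Q.St.wF < G.ht Q.St.wF v) ?_, heq ▸ hY⟩
      rw [heq] at hv
      rcases cl_touched hv with hv | ⟨d, hd, hvd⟩
      · have h2 : (0 : ℤ) ≤ (B.c₀ + B.D₀ : ℕ) * nrm Q.St.wF :=
          mul_nonneg (Int.natCast_nonneg _) (nrm_nonneg _)
        have := seed_low hlow (Finset.mem_coe.1 hv)
        linarith
      · exact ht_le_of_tube (mem_inter.1 hd).2 hvd
    intro y hy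
    obtain ⟨hyC, hyX⟩ := mem_sdiff.1 hy
    obtain ⟨-, hyb, q, hq, hqy⟩ := cont_spec hyC
    obtain ⟨a, ha, w, hw⟩ := exists_up (y := y) (T := T) hs
      (not_le.1 fun hh => hyX (mem_filter.2 ⟨hyC, hh⟩))
    refine ⟨a, ha, w, hw, fun e he => mem_union_right _ (mem_filter.2 ⟨?_, fun v hv => ?_⟩)⟩
    · induction e with
      | h u v =>
        refine mem_eAt.2 ⟨w.adj_of_mem_edges he, .inl ⟨hf.inBall u ?_, Set.mem_univ u⟩⟩
        refine ball_le (r := Q.St.R + 1 + D) (by simp only [D, slackC]; omega) (ball_trans hyb ?_)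
        exact P165.mem_ball_of_walk (w.takeUntil u (w.fst_mem_support_of_mem_edges he)).reverse
          (by rw [SimpleGraph.Walk.length_reverse]; exact (w.length_takeUntil_le_length _).trans hw)
    · have hvy : v ∈ ball H y D :=
        P165.mem_ball_of_walk (w.takeUntil v (mem_support_of_edge w he hv)).reverse
          (by rw [SimpleGraph.Walk.length_reverse]; exact (w.length_takeUntil_le_length _).trans hw)
      exact ⟨close_of_ball hs hS hf.cen hq (.inr hqy.symm) (by simp only [D, slackC]; omega) hvy,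
        hf.inBall v (ball_le (by simp only [D, slackC]; omega) (ball_trans hyb hvy))⟩
  have := mul_le_mul_of_nonneg_right hsum (pow_nonneg (sub_nonneg.2 h1) (B.Δ * K))
  rw [add_mul] at this
  exact this.trans (add_le_add hE hT)

/-- A hop far from the landing plane: the whole window is in the tube. -/
theorem few_far (hs : Scale B Q) (hf : Fits B Q z T τ ρ' c) {S : Shape} (hS : S ∈ shapes Q)
    {P : Set W} (hP : P ⊆ exit B (G.at c S) Q.St.M) {m' : ℕ}
    (hm : m' ≤ slackC B Q.m Q.St.M)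
    (hfar : G.ht Q.St.wF c + 8 * Q.St.N + bandW B Q.St.M * nrm Q.St.wF ≤ lev B Q T)
    {t : ℝ} (h0 : 0 ≤ t) (h1 : t ≤ 1) (KM : ℕ) :
    pr (fun _ => t) (Q.tube B z T τ ρ') (fun η => ¬ HitsS ↑(contX B Q T c S P) KM
        (reach H m' c (η ∩ (hopE B Q c S ∩ Q.tube B z T τ ρ')))) ≤
      fail B t m' (2 * KM) (G.at c S) Q.St.M c Q.St.R P := by
  classical
  have hb : (0 : ℤ) ≤ bandW B Q.St.M * nrm Q.St.wF :=
    mul_nonneg (Int.natCast_nonneg _) (nrm_nonneg _)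
  have hsub : hopE B Q c S ⊆ Q.tube B z T τ ρ' := by
    intro e he
    induction e with
    | h a b =>
      obtain ⟨a1, a2, -, -⟩ := hopE_spec hs hf hS he (Sym2.mem_mk_left a b)
      refine mem_tube hf (mem_eAt.1 he).1 a1 (hopE_spec hs hf hS he (Sym2.mem_mk_right a b)).1 a2
        fun hout => ?_
      have h := B.out_gt hout
      have := (abs_le.1 a1.1).2
      change lev B Q T < G.ht Q.St.wF a at h
      linarith
  rw [inter_eq_left.2 hsub]
  have hm' : pr (fun _ => t) (Q.tube B z T τ ρ') (fun η => ¬ HitsS ↑(contX B Q T c S P) KM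
      (reach H m' c (η ∩ hopE B Q c S))) = pr (fun _ => t) (hopE B Q c S)
        (fun η => ¬ HitsS ↑(contX B Q T c S P) KM (reach H m' c η)) :=
    Fin.ev_marginal (p := fun _ => t) hsub
      fun η => Fin.ind (¬ HitsS (↑(contX B Q T c S P) : Set W) KM (reach H m' c η))
  refine hm'.le.trans (Fin.pr_mono (fun _ => h0) (fun _ => h1) fun η hη hh hit => hh ?_)
  obtain ⟨Y, hYP, hYr, hcard⟩ := hit
  refine ⟨Y, fun v hv => ?_, hYr, by omega⟩
  have hc := mem_cont hs hf hS hP hm hη (hYP hv) (hYr hv)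
  obtain ⟨-, -, q, hq, hqv⟩ := cont_spec hc
  have := (abs_le.1 (close_of_ball hs hS hf.cen hq (.inr hqv.symm) (r := 0) (by simp)
    (self_mem_ball' v 0)).1).2
  exact mem_filter.2 ⟨hc, by linarith⟩

/-- One hop inside a tube. -/
theorem hop_bound (hs : Scale B Q) (hf : Fits B Q z T τ ρ' c) {S : Shape} (hS : S ∈ shapes Q)
    {P : Set W} (hP : P ⊆ exit B (G.at c S) Q.St.M) {m' : ℕ} {s₀ : Finset (Sym2 W)}
    (hs₀ : inEdges H (ball H c m') ⊆ s₀) {t : ℝ} (h0 : 0 < t) (h1 : t ≤ 1) (K : ℕ) {KM K' : ℕ}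
    (hK' : 0 < K')
    (hKM : K' * (B.ballBd (2 * (B.L Q.St.M + Q.St.M)) * (B.oBd Q.St.M + 1)) ≤ KM)
    {g ε δ : ℝ} (hg : 0 ≤ g) (hδ : 4 / (t ^ B.oBd Q.St.M * K') ≤ δ)
    (hnext : ∀ x ∈ contX B Q T c S P, ∀ c' ∈ G.Cen, c' ∈ ball H x (B.L Q.St.M) →
      ∀ s₁, inEdges H (ball H c' Q.St.M) ⊆ s₁ →
        pr (fun _ => t) (Q.tube B z T τ ρ') (fun η =>
          ¬ HitsS ↑(Q.gx B (z + (τ : ℤ)) (T + 1) (ρ' + 1)) K (cl {c'} (s₁ ∪ η))) ≤ g)
    (hhop : pr (fun _ => t) (Q.tube B z T τ ρ') (fun η =>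
        ¬ HitsS ↑(Q.gx B (z + (τ : ℤ)) (T + 1) (ρ' + 1)) K (reach H m' c η) ∧
        ¬ HitsS ↑(contX B Q T c S P) KM
          (reach H m' c (η ∩ (hopE B Q c S ∩ Q.tube B z T τ ρ')))) ≤ ε) :
    pr (fun _ => t) (Q.tube B z T τ ρ') (fun η =>
        ¬ HitsS ↑(Q.gx B (z + (τ : ℤ)) (T + 1) (ρ' + 1)) K (cl {c} (s₀ ∪ η))) ≤
      ε + 3 * Real.sqrt g + δ := by
  classical
  set M := Q.St.M
  set X := contX B Q T c S P
  have hX : ∀ x ∈ X, (∃ k ∈ G.at c S, x ∈ B.Out k M) ∧ x ∈ ball H c (Q.St.R + 1) ∧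
      (∃ y ∈ B.Bl (G.at c S) M, H.Adj y x) ∧
      G.ht Q.St.wF x + bandW B M * nrm Q.St.wF ≤ lev B Q T := by
    intro x hx
    obtain ⟨hc, hle⟩ := mem_filter.1 hx
    obtain ⟨hxP, hb, hy⟩ := cont_spec hc
    refine ⟨?_, hb, hy, hle⟩
    by_contra hh
    exact hP hxP fun k hk hxk => hh ⟨k, hk, hxk⟩
  choose! k hk using fun x hx => (hX x hx).1
  have spec := fun x hx => B.oOut_spec (hk x hx).2
  set O := fun x => B.oOut (k x) M x
  set F : Set W → Prop := fun C => HitsS ↑(Q.gx B (z + (τ : ℤ)) (T + 1) (ρ' + 1)) K C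
  have hrch : ∀ η, reach H m' c η ⊆ cl {c} (s₀ ∪ η) := fun η => by
    rw [← seed_cl]
    exact P165.cl_mono subset_rfl (union_subset_union_left hs₀)
  refine le_trans (Red.hop_step_gen (p := fun _ => t) (fun _ => h0.le) (fun _ => h1) c X
    (fun x => B.cenOut (k x) M x) O (T := Q.tube B z T τ ρ')
    (Bl := hopE B Q c S ∩ Q.tube B z T τ ρ') (s₀ := s₀) (K := KM) (K' := K') (F := F)
    (fun C D h ⟨Y, a, b, d⟩ => ⟨Y, a, b.trans h, d⟩) (s := t ^ B.oBd M) (g := g) (ε := ε)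
    (pow_pos h0 _) hK' hg inter_subset_right (fun x hx => ⟨fun e he => ?_, ?_, ?_⟩)
    (fun Z hZ hZK => ?_) (fun x hx w hw hxa => (spec x hx).2.2.2.2.2.2 c w hw hxa)
    (fun x hx => hnext x hx _ (spec x hx).1 (spec x hx).2.2.2.1 _ (spec x hx).2.2.2.2.2.1) ?_)
    (add_le_add le_rfl hδ)
  · obtain ⟨-, hxb, ⟨q, hq, hqx⟩, hlow⟩ := hX x hx
    obtain ⟨-, hed, -, -, hends, -⟩ := spec x hx
    have hball : ∀ v ∈ e, v ∈ ball H x (B.L M + M) := fun v hv => (hends e he v hv).2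
    have hcl : ∀ v ∈ e, Close (G := G) Q c v := fun v hv =>
      close_of_ball hs hS hf.cen hq (.inr hqx.symm) (by simp only [slackC, M]; omega) (hball v hv)
    have hedge : e ∈ H.edgeSet := hed (Finset.mem_coe.2 he)
    induction e with
    | h a b =>
      have hab := hball a (Sym2.mem_mk_left a b)
      refine mem_tube hf hedge (hcl a (Sym2.mem_mk_left a b)) (hcl b (Sym2.mem_mk_right a b))
        (hf.inBall a (ball_le (by simp only [slackC, M]; omega) (ball_trans hxb hab))) fun hout => ?_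
      have h2 := B.out_gt hout
      change lev B Q T < G.ht Q.St.wF a at h2
      have h3 := (abs_le.1 (ht_ball B Q.St.wF hab)).2
      have h4 : ((B.L M + M : ℕ) : ℤ) * B.D₀ * nrm Q.St.wF ≤ bandW B M * nrm Q.St.wF := by
        rw [← Nat.cast_mul]
        exact slack_le (by unfold bandW; omega) _
      linarith
  · refine disjoint_left.2 fun e he he' => ?_
    obtain ⟨-, -, -, -, hends, -⟩ := spec x hx
    have hb := (mem_inter.1 he').1
    induction e with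
    | h a b =>
      rcases (mem_eAt.1 hb).2 with ⟨-, h⟩ | ⟨-, h⟩
      · exact h _ (hk x hx).1 (hends _ he a (Sym2.mem_mk_left a b)).1
      · exact h _ (hk x hx).1 (hends _ he b (Sym2.mem_mk_right a b)).1
  · rw [prod_const]
    exact pow_le_pow_of_le_one h0.le h1 (spec x hx).2.2.1
  · obtain ⟨Y, a1, a2, a3, a4⟩ := exists_class B O (X := X) (r := B.L M + M) (Bd := B.oBd M)
      (fun x hx e he v hv => ((spec x hx).2.2.2.2.1 e he v hv).2) (fun x hx => (spec x hx).2.2.1)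
      Z hZ (hKM.trans hZK)
    exact ⟨Y, a1, a2, a3, fun x hx y hy => by rw [prod_const, prod_const, a4 x hx y hy]⟩
  · refine le_trans (Fin.pr_mono (fun _ => h0.le) (fun _ => h1) fun η _ hh => ?_) hhop
    refine ⟨fun ⟨Y, a, b, d⟩ => hh.1 ⟨Y, a, b.trans (hrch η), d⟩, ?_⟩
    rintro ⟨Y, a, b, d⟩
    exact hh.2 ⟨Y, fun v hv => Finset.mem_coe.1 (a hv), b.trans (hrch _), d⟩

end Vale.Agent.P151.Height
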