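import Vale.Agent.P151.Height.Defs
import Vale.Agent.P151.Height.Cells
import Vale.Agent.P151.Reduction.Step
import Vale.Agent.P151.Reduction.Contour

/-!
The coarse step over abstract cells: a failure of a bond is unlikely given everything revealed
before its time, so failures of many bonds are rare and a first seed reaches arbitrarily far.
-/

open Finset

namespace Vale.Agent.P151.Height

open Vale.Agent.P165 (cl cl_mono)
open Vale.Agent.P151.Fin (ev pr ind)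
open Vale.Agent.P151.Reduction (Bond Cell tri bondTarget)

variable {W : Type*}

private lemma hits_grow {X : Set W} {K : ℕ} {A D : Set W} (h : A ⊆ D) (hA : HitsS X K A) :
    HitsS X K D := by
  obtain ⟨Y, a, b, c⟩ := hA
  exact ⟨Y, a, b.trans h, c⟩

/-- A separated family contains many seeds of one size. -/
private lemma exists_uniform {Bd sep K K' : ℕ} {X Y₀ : Finset W} {O : W → Finset (Sym2 W)}
    (hsel : ∀ Y, Y ⊆ X →
      ∃ Y', Y' ⊆ Y ∧ Y.card ≤ Y'.card * sep ∧ (Y' : Set W).PairwiseDisjoint O)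
    (hcard : ∀ x ∈ X, (O x).card ≤ Bd) (hsep : 0 < sep) (hK : K' * (sep * (Bd + 1)) ≤ K)
    (hY₀ : Y₀ ⊆ X) (hYK : K ≤ Y₀.card) :
    ∃ Y ⊆ Y₀, K' ≤ Y.card ∧ (Y : Set W).PairwiseDisjoint O ∧
      ∃ k ≤ Bd, ∀ x ∈ Y, (O x).card = k := by
  obtain ⟨Y', hY', hc, hd⟩ := hsel Y₀ hY₀
  have h1 : (Bd + 1) * K' ≤ Y'.card := by
    refine Nat.le_of_mul_le_mul_right (le_trans (le_of_eq ?_) (hK.trans (hYK.trans hc))) hsep
    ring
  obtain ⟨k, hk, hk'⟩ := exists_le_card_fiber_of_mul_le_card_of_maps_to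
    (s := Y') (t := range (Bd + 1)) (f := fun x => (O x).card) (n := K')
    (fun x hx => mem_range.2 (Nat.lt_succ_of_le (hcard x (hY₀ (hY' hx)))))
    ⟨0, by simp⟩ (by rwa [card_range])
  exact ⟨_, (filter_subset _ _).trans hY', hk', hd.subset (coe_subset.2 (filter_subset _ _)),
    k, Nat.le_of_lt_succ (mem_range.1 hk), fun x hx => (mem_filter.1 hx).2⟩

namespace Cells

variable [DecidableEq W] (C : Cells W)

lemma gs_fresh (z T : ℤ) (σ τ : ℤˣ) :
    C.gs (z + (σ : ℤ)) (T + 1) τ ⊆ C.fresh z T σ := by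
  rcases Int.units_eq_one_or τ with rfl | rfl
  · exact subset_union_left.trans subset_union_right
  · exact subset_union_right.trans subset_union_right

/-- A seed is good if, given the seed layer, it nearly surely feeds both next cells. -/
def Good (t : ℝ) (K : ℕ) (g : ℝ) (z T : ℤ) (ω : Finset (Sym2 W)) (x : W) : Prop :=
  ∀ σ : ℤˣ, Fin.pr (fun _ => t) (C.tube z T σ \ C.gs z T σ) (fun η =>
    ¬ HitsS ↑(C.gx (z + (σ : ℤ)) (T + 1)) K (cl {C.cen T x} (ω ∩ C.gs z T σ ∪ η))) ≤ g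

/-- The cell is reached from `a`: some good open seed of it is connected. -/
def Reached (t : ℝ) (K : ℕ) (g : ℝ) (a : W) (z T : ℤ) (ω : Finset (Sym2 W)) : Prop :=
  ∃ x ∈ C.gx z T, C.O T x ⊆ ω ∧ C.Good t K g z T ω x ∧ C.cen T x ∈ cl {a} (ω ∩ C.reg z T)

/-- The bond fails: its source is reached and its target is not. -/
def Failed (t : ℝ) (K : ℕ) (g : ℝ) (a : W) (z T : ℤ) (σ : ℤˣ) (ω : Finset (Sym2 W)) : Prop :=
  C.Reached t K g a z T ω ∧ ¬ C.Reached t K g a (z + (σ : ℤ)) (T + 1) ω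

variable {C}

lemma good_congr {t : ℝ} {K : ℕ} {g : ℝ} {z T : ℤ} {ω ω' : Finset (Sym2 W)} {x : W}
    (h : ∀ τ, ω ∩ C.gs z T τ = ω' ∩ C.gs z T τ) :
    C.Good t K g z T ω x ↔ C.Good t K g z T ω' x := by
  simp only [Good, h]

/-- A failure is already a failure of the configuration restricted to the revealed part and the
fresh edges of the bond. -/
lemma failed_local {t : ℝ} {K : ℕ} {g : ℝ} {a : W} {z T : ℤ} {σ : ℤˣ}
    (hF : C.Facts z T σ) {ω : Finset (Sym2 W)}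
    (hs : C.Reached t K g a z T ω) (ht : ¬ C.Reached t K g a (z + (σ : ℤ)) (T + 1) ω) :
    C.Failed t K g a z T σ (ω ∩ (C.rev T ∪ C.fresh z T σ)) := by
  set D := C.rev T ∪ C.fresh z T σ
  have hgs : ∀ τ, ω ∩ D ∩ C.gs z T τ = ω ∩ C.gs z T τ := fun τ => by
    rw [inter_assoc, inter_eq_right.2 ((hF.gs_rev τ).trans subset_union_left)]
  have hgs' : ∀ τ, ω ∩ D ∩ C.gs (z + (σ : ℤ)) (T + 1) τ =
      ω ∩ C.gs (z + (σ : ℤ)) (T + 1) τ := fun τ => by
    rw [inter_assoc, inter_eq_right.2 ((C.gs_fresh z T σ τ).trans subset_union_right)]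
  have hreg : C.reg z T ⊆ D := by
    intro e he
    rcases mem_union.1 he with he | he
    · exact mem_union_left _ he
    · have h1 := hF.ball_tube he
      by_cases h2 : e ∈ C.gs z T σ
      · exact mem_union_left _ (hF.gs_rev σ h2)
      · exact mem_union_right _ (mem_union_left _ (mem_sdiff.2 ⟨h1, h2⟩))
  constructor
  · obtain ⟨x, hx, hO, hgood, hc⟩ := hs
    refine ⟨x, hx, subset_inter hO ?_, (good_congr hgs).2 hgood, ?_⟩
    · intro e he
      exact mem_union_left _ (hF.gs_rev σ (hF.lay_gs (mem_biUnion.2 ⟨x, hx, he⟩)))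
    · rwa [inter_assoc, inter_eq_right.2 hreg]
  · rintro ⟨x, hx, hO, hgood, hc⟩
    refine ht ⟨x, hx, hO.trans inter_subset_left, (good_congr hgs').1 hgood, ?_⟩
    exact cl_mono subset_rfl (inter_subset_inter inter_subset_left subset_rfl) hc

/-- Few open seeds are bad for a bond leaving them. -/
lemma bad_open_le {t g g₀ : ℝ} {K : ℕ} (h0 : 0 ≤ t) (h1 : t ≤ 1) (hg : 0 < g)
    (z T : ℤ) (σ : ℤˣ) (hlay : C.lay z T ⊆ C.gs z T σ) {x : W} (hx : x ∈ C.gx z T)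
    (hfail : pr (fun _ => t) (C.tube z T σ) (fun η =>
      ¬ HitsS ↑(C.gx (z + (σ : ℤ)) (T + 1)) K (cl {C.cen T x} (C.O T x ∪ η))) ≤ g₀) :
    pr (fun _ => t) (C.gs z T σ) (fun s => C.O T x ⊆ s ∧
      g < pr (fun _ => t) (C.tube z T σ \ C.gs z T σ) fun η =>
        ¬ HitsS ↑(C.gx (z + (σ : ℤ)) (T + 1)) K (cl {C.cen T x} (s ∪ η))) ≤
      t ^ (C.O T x).card * (g₀ / g) := by
  have hS : C.gs z T σ ⊆ C.tube z T σ := by classical exact filter_subset _ _
  have hOs : C.O T x ⊆ C.gs z T σ := fun e he => hlay (mem_biUnion.2 ⟨x, hx, he⟩)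
  have h := Red.bad_seed_le (p := fun _ => t) (fun _ => h0) (fun _ => h1)
    (S := C.gs z T σ) (R := C.tube z T σ \ C.gs z T σ) (C.cen T x)
    (F := fun A => HitsS ↑(C.gx (z + (σ : ℤ)) (T + 1)) K A) (fun A D hAD => hits_grow hAD)
    (s := t ^ (C.O T x).card) (g := g) (g₀ := g₀) disjoint_sdiff hOs
    (by simp) (by rwa [union_sdiff_of_subset hS])
  rw [← mul_div_assoc, le_div_iff₀ hg]
  exact h

/-- An open seed is rarely not good. -/
lemma not_good_le {t g g₀ : ℝ} {K : ℕ} (h0 : 0 ≤ t) (h1 : t ≤ 1) (hg : 0 < g)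
    (z T : ℤ) {L : Finset (Sym2 W)} (hL : ∀ τ, C.gs z T τ ⊆ L)
    (hlay : ∀ τ, C.lay z T ⊆ C.gs z T τ) {x : W} (hx : x ∈ C.gx z T)
    (hfail : ∀ σ, pr (fun _ => t) (C.tube z T σ) (fun η =>
      ¬ HitsS ↑(C.gx (z + (σ : ℤ)) (T + 1)) K (cl {C.cen T x} (C.O T x ∪ η))) ≤ g₀) :
    pr (fun _ => t) L (fun s => C.O T x ⊆ s ∧ ¬ C.Good t K g z T s x) ≤
      2 * (g₀ / g) * t ^ (C.O T x).card := by
  set O := C.O T x
  set Q : ℤˣ → Finset (Sym2 W) → Prop := fun σ s => O ⊆ s ∧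
    g < pr (fun _ => t) (C.tube z T σ \ C.gs z T σ) fun η =>
      ¬ HitsS ↑(C.gx (z + (σ : ℤ)) (T + 1)) K (cl {C.cen T x} (s ∪ η))
  have hm : ∀ σ, pr (fun _ => t) L (fun s => Q σ (s ∩ C.gs z T σ)) ≤
      t ^ O.card * (g₀ / g) := fun σ =>
    (Fin.ev_marginal (hL σ) fun s => ind (Q σ s)).trans_le
      (bad_open_le h0 h1 hg z T σ (hlay σ) hx (hfail σ))
  refine le_trans ?_ (le_of_eq_of_le (b := t ^ O.card * (g₀ / g) + t ^ O.card * (g₀ / g)) rfl
    (by linarith))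
  refine le_trans ?_ (add_le_add (hm 1) (hm (-1)))
  rw [pr, pr, pr, ← Fin.ev_add]
  refine Fin.ev_mono (fun _ => h0) (fun _ => h1) fun s _ => ?_
  by_cases hq : O ⊆ s ∧ ¬ C.Good t K g z T s x
  · obtain ⟨ho, hng⟩ := hq
    rw [Fin.ind_true ⟨ho, hng⟩]
    obtain ⟨σ, hσ⟩ : ∃ σ, Q σ (s ∩ C.gs z T σ) := by
      simp only [Good, not_forall, not_le] at hng
      obtain ⟨σ, hσ⟩ := hng
      exact ⟨σ, subset_inter ho fun e he => hlay σ (mem_biUnion.2 ⟨x, hx, he⟩), hσ⟩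
    rcases Int.units_eq_one_or σ with rfl | rfl
    · rw [Fin.ind_true hσ]; linarith [Fin.ind_nonneg (Q (-1) (s ∩ C.gs z T (-1)))]
    · rw [Fin.ind_true hσ]; linarith [Fin.ind_nonneg (Q 1 (s ∩ C.gs z T 1))]
  · rw [Fin.ind_false hq]
    exact add_nonneg (Fin.ind_nonneg _) (Fin.ind_nonneg _)

/-- A bond fails with small probability, whatever was revealed before. -/
lemma failed_le {t g g₀ δ : ℝ} {K K' Bd sep : ℕ} (h0 : 0 < t) (h1 : t ≤ 1) (hg : 0 < g)
    (hg₀ : 0 ≤ g₀) (hK' : 0 < K') (hsep : 0 < sep) (hK : K' * (sep * (Bd + 1)) ≤ K)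
    (hδ : 4 / (t ^ Bd * K') ≤ δ) {a : W} {z T : ℤ} {σ : ℤˣ} (hF : C.Facts z T σ)
    (hcard : ∀ x ∈ C.gx (z + (σ : ℤ)) (T + 1), (C.O (T + 1) x).card ≤ Bd)
    (hsel : ∀ Y, Y ⊆ C.gx (z + (σ : ℤ)) (T + 1) → ∃ Y', Y' ⊆ Y ∧ Y.card ≤ Y'.card * sep ∧
      (Y' : Set W).PairwiseDisjoint (C.O (T + 1)))
    (hfail : ∀ τ, ∀ x ∈ C.gx (z + (σ : ℤ)) (T + 1),
      pr (fun _ => t) (C.tube (z + (σ : ℤ)) (T + 1) τ) (fun η =>
        ¬ HitsS ↑(C.gx (z + (σ : ℤ) + (τ : ℤ)) (T + 1 + 1)) K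
          (cl {C.cen (T + 1) x} (C.O (T + 1) x ∪ η))) ≤ g₀)
    {s : Finset (Sym2 W)} (hs : s ⊆ C.rev T) :
    pr (fun _ => t) (C.fresh z T σ) (fun η => C.Failed t K g a z T σ (s ∪ η)) ≤
      g + (4 * (g₀ / g) + δ) := by
  classical
  set p : Sym2 W → ℝ := fun _ => t
  have p0 : ∀ e, 0 ≤ p e := fun _ => h0.le
  have p1 : ∀ e, p e ≤ 1 := fun _ => h1
  set z' := z + (σ : ℤ)
  set T' := T + 1
  set R₁ := C.tube z T σ \ C.gs z T σ with hR₁
  set R₂ := C.gs z' T' 1 ∪ C.gs z' T' (-1) with hR₂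
  have hR₂d : Disjoint R₂ (C.tube z T σ ∪ C.rev T) :=
    disjoint_union_left.2 ⟨hF.gs_disj 1, hF.gs_disj (-1)⟩
  have hd12 : Disjoint R₁ R₂ :=
    (hR₂d.mono_right (sdiff_subset.trans subset_union_left)).symm
  have hd1 : ∀ e ∈ R₁, e ∉ C.rev T := fun e he hr => by
    rw [hR₁, mem_sdiff] at he
    exact he.2 (hF.rev_inter ▸ mem_inter.2 ⟨he.1, hr⟩)
  set B : Finset W := ((C.gx z T).filter fun x =>
    C.O T x ⊆ s ∧ C.Good t K g z T s x).image (C.cen T)
  set F : Set W → Prop := fun A => HitsS ↑(C.gx z' T') K A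
  set δ' := 4 * (g₀ / g) + δ
  have hδ0 : 0 ≤ δ := le_trans (by positivity) hδ
  -- given the tube, all open seeds at many contacts are rarely bad
  have inner : ∀ η₁, η₁ ⊆ R₁ → F (cl {a} (s ∪ η₁)) →
      pr p R₂ (fun η₂ => C.Failed t K g a z T σ (s ∪ (η₁ ∪ η₂))) ≤ δ' := by
    intro η₁ hη₁ hit
    obtain ⟨Y₀, hY₀, hYc, hYK⟩ := hit
    obtain ⟨Y, hY, hK'Y, hYd, k, hk, hYcard⟩ :=
      exists_uniform hsel hcard hsep hK (coe_subset.1 hY₀) hYK
    have hLsub : ∀ τ, C.gs z' T' τ ⊆ R₂ := fun τ => by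
      rcases Int.units_eq_one_or τ with rfl | rfl
      · exact subset_union_left
      · exact subset_union_right
    have hxg : ∀ x ∈ Y, x ∈ C.gx z' T' := fun x hx => coe_subset.1 hY₀ (hY hx)
    have hOR : ∀ x ∈ Y, C.O T' x ⊆ R₂ := fun x hx e he =>
      hLsub 1 (hF.lay_gs' 1 (mem_biUnion.2 ⟨x, hxg x hx, he⟩))
    have hprod : ∀ x ∈ Y, ∏ e ∈ C.O T' x, p e = t ^ k :=
      fun x hx => by simp [p, hYcard x hx]
    have hbad : ∀ x ∈ Y, pr p R₂ (fun η => C.O T' x ⊆ η ∧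
        ¬ C.Good t K g z' T' η x) ≤ 2 * (g₀ / g) * t ^ k := fun x hx => by
      have := not_good_le h0.le h1 hg z' T' hLsub hF.lay_gs' (hxg x hx)
        (fun τ => hfail τ x (hxg x hx))
      rwa [hYcard x hx] at this
    have hng := Red.no_good_seed (p := p) p0 p1 Y (C.O T') (L := R₂)
      (Bad := fun x η => ¬ C.Good t K g z' T' η x) (b := 2 * (g₀ / g))
      (s := t ^ k) (pow_pos h0 _) hK' hK'Y hYd hOR hprod hbad
    have hδk : 4 / (t ^ k * (K' : ℝ)) ≤ δ := by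
      refine le_trans (div_le_div_of_nonneg_left (by norm_num) ?_ ?_) hδ
      · exact mul_pos (pow_pos h0 _) (by exact_mod_cast hK')
      · exact mul_le_mul_of_nonneg_right (pow_le_pow_of_le_one h0.le h1 hk) (Nat.cast_nonneg _)
    refine le_trans (Fin.pr_mono p0 p1 fun η₂ hη₂ hfl => ?_) (hng.trans (by linarith))
    intro x hx hO hgood
    refine hfl.2 ⟨x, hxg x hx, hO.trans (subset_union_right.trans subset_union_right), ?_, ?_⟩
    · refine (good_congr fun τ => ?_).2 hgood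
      ext e
      simp only [mem_inter, mem_union]
      constructor
      · rintro ⟨he | he | he, hg'⟩
        · exact absurd (mem_union_right _ (hs he)) (disjoint_left.1 hR₂d (hLsub τ hg'))
        · exact absurd (mem_union_left _ (sdiff_subset (hη₁ he)))
            (disjoint_left.1 hR₂d (hLsub τ hg'))
        · exact ⟨he, hg'⟩
      · exact fun he => ⟨Or.inr (Or.inr he.1), he.2⟩
    · have hsub : s ∪ η₁ ∪ C.O T' x ⊆ (s ∪ (η₁ ∪ η₂)) ∩ C.reg z' T' := by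
        refine subset_inter ?_ ?_
        · exact union_subset (union_subset_union_right subset_union_left)
            (hO.trans (subset_union_right.trans subset_union_right))
        · refine union_subset (union_subset (hs.trans hF.rev_reg)
            ((hη₁.trans sdiff_subset).trans hF.tube_reg)) fun e he => ?_
          refine mem_union_left _ (mem_union_right _ (mem_filter.2 ⟨?_, z', ?_⟩))
          · exact hF.gs_sub 1 (hF.lay_gs' 1 (mem_biUnion.2 ⟨x, hxg x hx, he⟩))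
          · exact mem_biUnion.2 ⟨x, hxg x hx, he⟩
      refine cl_mono subset_rfl hsub (hF.link x (hxg x hx) a _ subset_union_right ?_)
      exact cl_mono subset_rfl subset_union_left (hYc (hY hx))
  -- a reached source is joined to a good seed
  have hsrc : ∀ η₁, η₁ ⊆ R₁ → ∀ η₂, η₂ ⊆ R₂ → C.Failed t K g a z T σ (s ∪ (η₁ ∪ η₂)) →
      a ∈ cl (B : Set W) (s ∪ η₁) := by
    intro η₁ hη₁ η₂ hη₂ hfl
    obtain ⟨x, hx, hO, hgood, hc⟩ := hfl.1
    have hcut : ∀ e, e ∈ s ∪ (η₁ ∪ η₂) → e ∈ C.tube z T σ ∪ C.rev T → e ∈ s ∪ η₁ := by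
      intro e he h'
      rcases mem_union.1 he with he | he
      · exact mem_union_left _ he
      · rcases mem_union.1 he with he | he
        · exact mem_union_right _ he
        · exact absurd h' (disjoint_left.1 hR₂d (hη₂ he))
    have hcuts : ∀ e, e ∈ s ∪ (η₁ ∪ η₂) → e ∈ C.rev T → e ∈ s := by
      intro e he h'
      rcases mem_union.1 (hcut e he (mem_union_right _ h')) with he | he
      · exact he
      · exact absurd h' (hd1 e (hη₁ he))
    have hxB : C.cen T x ∈ B := by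
      refine mem_image_of_mem _ (mem_filter.2 ⟨hx, fun e he => ?_, ?_⟩)
      · exact hcuts e (hO he) (hF.gs_rev σ (hF.lay_gs (mem_biUnion.2 ⟨x, hx, he⟩)))
      · refine (good_congr fun τ => ?_).1 hgood
        ext e
        simp only [mem_inter]
        exact ⟨fun he => ⟨hcuts e he.1 (hF.gs_rev τ he.2), he.2⟩,
          fun he => ⟨mem_union_left _ he.1, he.2⟩⟩
    have hc' : C.cen T x ∈ cl {a} (s ∪ η₁) := by
      refine cl_mono subset_rfl (fun e he => ?_) hc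
      rw [mem_inter] at he
      refine hcut e he.1 ?_
      rcases mem_union.1 he.2 with h' | h'
      · exact mem_union_right _ h'
      · exact mem_union_left _ (hF.ball_tube h')
    obtain ⟨y, hy, hr⟩ := hc'
    rw [Set.mem_singleton_iff] at hy
    subst hy
    exact ⟨_, hxB, hr.symm⟩
  have hquen : pr p R₁ (fun η => a ∈ cl (B : Set W) (s ∪ η) ∧ ¬ F (cl {a} (s ∪ η))) ≤ g := by
    refine Red.quenched_le_of_subset p0 p1 (σ₁ := s ∩ C.gs z T σ) inter_subset_left R₁ a B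
      (fun A D hAD => hits_grow hAD) hg.le ?_
    intro u hu
    obtain ⟨x, hx, rfl⟩ := mem_image.1 hu
    exact (mem_filter.1 hx).2.2 σ
  unfold fresh
  rw [pr, Fin.ev_split hd12]
  refine le_trans (Fin.ev_mono p0 p1 (g := fun η₁ =>
    ind (a ∈ cl (B : Set W) (s ∪ η₁) ∧ ¬ F (cl {a} (s ∪ η₁))) + δ') fun η₁ hη₁ => ?_) ?_
  · by_cases hit : F (cl {a} (s ∪ η₁))
    · exact (inner η₁ hη₁ hit).trans (le_add_of_nonneg_left (Fin.ind_nonneg _))
    · by_cases hsB : a ∈ cl (B : Set W) (s ∪ η₁)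
      · rw [Fin.ind_true ⟨hsB, hit⟩]
        exact le_trans (Fin.pr_le_one p0 p1 _) (le_add_of_nonneg_right (by positivity))
      · refine le_trans (le_trans (Fin.ev_mono p0 p1 (g := fun _ => (0 : ℝ)) fun η₂ hη₂ => ?_)
          (Fin.ev_const 0).le) (add_nonneg (Fin.ind_nonneg _) (by positivity))
        rw [Fin.ind_false fun hfl => hsB (hsrc η₁ hη₁ η₂ hη₂ hfl)]
  · rw [Fin.ev_add, Fin.ev_const]
    exact add_le_add_left hquen _

/-- Every set of bonds below a level fails with geometrically small probability. -/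
lemma all_failed_le {t g g₀ δ q : ℝ} {K K' M Bd sep : ℕ} (h0 : 0 < t) (h1 : t ≤ 1)
    (hg : 0 < g) (hg₀ : 0 ≤ g₀) (hok : C.OK M Bd sep) (hK' : 0 < K') (hsep : 0 < sep)
    (hK : K' * (sep * (Bd + 1)) ≤ K) (hδ : 4 / (t ^ Bd * K') ≤ δ) (hq0 : 0 ≤ q) (hq1 : q ≤ 1)
    (hh : g + (4 * (g₀ / g) + δ) ≤ q ^ 16)
    (hchain : ∀ z T : ℤ, 0 ≤ T → ∀ τ : ℤˣ, ∀ x ∈ C.gx z T,
      pr (fun _ => t) (C.tube z T τ) (fun η => ¬ HitsS ↑(C.gx (z + (τ : ℤ)) (T + 1)) K
        (cl {C.cen T x} (C.O T x ∪ η))) ≤ g₀)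
    {a : W} {S₀ : Finset (Sym2 W)} {E : Finset (Sym2 W) → Prop} (hS₀ : S₀ ⊆ C.U)
    (hS₀' : ∀ b : Bond, b.1 ∈ tri M → S₀ ⊆ C.rev (tOf b.1))
    (I : Finset Bond) (hI : ∀ b ∈ I, b.1 ∈ tri M) :
    pr (fun _ => t) C.U (fun ω => E (ω ∩ S₀) ∧ ∀ b ∈ I,
      C.Failed t K g a (zOf b.1) (tOf b.1) (sgn b)
        (ω ∩ (C.rev (tOf b.1) ∪ C.fresh (zOf b.1) (tOf b.1) (sgn b)))) ≤
      q ^ I.card * pr (fun _ => t) C.U (fun ω => E (ω ∩ S₀)) := by
  classical
  set h := g + (4 * (g₀ / g) + δ) with hhdef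
  have hh0 : 0 ≤ h := by
    have : 0 ≤ δ := le_trans (by positivity) hδ
    positivity
  have tnn : ∀ b ∈ I, 0 ≤ tOf b.1 := fun b hb => by
    have := (Reduction.mem_tri.1 (hI b hb))
    simp only [tOf]; omega
  set κ : Finset (ℕ × ℕ × Bool) := range 2 ×ˢ (range 4 ×ˢ univ)
  have hmap : ∀ b ∈ I, cls b ∈ κ := fun b _ => by
    simp [cls, κ]; omega
  obtain ⟨k, -, hk⟩ : ∃ k ∈ κ, I.card ≤ 16 * (I.filter fun b => cls b = k).card := by
    by_contra hcon
    push Not at hcon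
    have hsum := card_eq_sum_card_fiberwise hmap
    have : ∑ k ∈ κ, 16 * (I.filter fun b => cls b = k).card < ∑ _k ∈ κ, I.card :=
      sum_lt_sum_of_nonempty (by simp [κ]) hcon
    rw [← mul_sum, ← hsum, sum_const, smul_eq_mul] at this
    simp [κ] at this
  set J := I.filter fun b => cls b = k
  have hJ : ∀ b ∈ J, b ∈ I ∧ cls b = k := fun b hb => mem_filter.1 hb
  have step := Red.pr_layers_le (p := fun _ : Sym2 W => t) (U := C.U) (fun _ => h0.le)
    (fun _ => h1) (fun b : Bond => (tOf b.1).toNat) (fun τ : ℕ => C.rev τ) S₀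
    (fun b => C.fresh (zOf b.1) (tOf b.1) (sgn b)) E
    (fun b => C.Failed t K g a (zOf b.1) (tOf b.1) (sgn b)) hh0 hS₀ J
    ?_ ?_ ?_ ?_ ?_ ?_ ?_
  · have hE : pr (fun _ => t) S₀ E = pr (fun _ => t) C.U fun ω => E (ω ∩ S₀) :=
      (Fin.ev_marginal hS₀ _).symm
    rw [hE] at step
    refine le_trans (le_trans (Fin.pr_mono (fun _ => h0.le) (fun _ => h1) ?_) step) ?_
    · intro ω _ hω
      refine ⟨hω.1, fun b hb => ?_⟩
      have hbI := (hJ b hb).1
      simpa [Int.toNat_of_nonneg (tnn b hbI)] using hω.2 b hbI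
    · rw [mul_comm (q ^ _)]
      exact mul_le_mul_of_nonneg_left (Reduction.pow_le_pow_class hh0 hq0 hq1 hh hk)
        (Fin.pr_nonneg (fun _ => h0.le) (fun _ => h1) _)
  · intro b hb
    rw [Int.toNat_of_nonneg (tnn b (hJ b hb).1)]
    exact hok.rev_sub _
  · exact fun b hb => subset_union_right.trans (hok.sub b (hI b (hJ b hb).1))
  · intro b hb
    rw [Int.toNat_of_nonneg (tnn b (hJ b hb).1)]
    exact hS₀' b (hI b (hJ b hb).1)
  · intro b hb
    rw [Int.toNat_of_nonneg (tnn b (hJ b hb).1)]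
    have hF := hok.facts b (hI b (hJ b hb).1)
    refine disjoint_union_right.2 ⟨disjoint_right.2 fun e he hr => ?_, ?_⟩
    · rw [mem_sdiff] at he
      exact he.2 (hF.rev_inter ▸ mem_inter.2 ⟨he.1, hr⟩)
    · exact disjoint_union_right.2 ⟨((hF.gs_disj 1).mono_right subset_union_right).symm,
        ((hF.gs_disj (-1)).mono_right subset_union_right).symm⟩
  · intro b hb c hc hbc hτ
    obtain ⟨hbI, hbk⟩ := hJ b hb
    obtain ⟨hcI, hck⟩ := hJ c hc
    have := tnn b hbI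
    have := tnn c hcI
    exact hok.disj b c (hI b hbI) (hI c hcI) (hbk.trans hck.symm) hbc (by omega)
  · intro b hb c hc hlt
    obtain ⟨hbI, hbk⟩ := hJ b hb
    obtain ⟨hcI, hck⟩ := hJ c hc
    have hb0 := tnn b hbI
    have hc0 := tnn c hcI
    rw [Int.toNat_of_nonneg hb0, Int.toNat_of_nonneg hc0]
    refine hok.nest b c (hI b hbI) (hI c hcI) ?_
    have e := congrArg Prod.fst (hbk.trans hck.symm)
    simp only [cls] at e
    omega
  · intro b hb s hs _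
    obtain ⟨hbI, -⟩ := hJ b hb
    have ht : 0 ≤ tOf b.1 + 1 := by linarith [tnn b hbI]
    rw [Int.toNat_of_nonneg (tnn b hbI)] at hs
    exact failed_le h0 h1 hg hg₀ hK' hsep hK hδ (hok.facts b (hI b hbI))
      (fun x hx => hok.card _ _ ht x hx) (fun Y hY => hok.select _ _ ht Y hY)
      (fun τ x hx => hchain _ _ ht τ x hx) hs

lemma bond_target (b : Bond) :
    zOf (bondTarget b) = zOf b.1 + (sgn b : ℤ) ∧ tOf (bondTarget b) = tOf b.1 + 1 := by
  obtain ⟨⟨u, v⟩, s⟩ := b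
  cases s <;> simp [bondTarget, sgn, zOf, tOf] <;> omega

end Cells

open Cells in
/-- A first seed reaches the level `M` of the coarse lattice. -/
theorem coarse_reach [DecidableEq W] {C : Cells W} {M Bd sep K K' : ℕ} {t g g₀ δ : ℝ}
    (h0 : 0 < t) (h1 : t ≤ 1)
    (hg : 0 < g) (hg₀ : 0 ≤ g₀) (hok : C.OK M Bd sep) (hK' : 0 < K')
    (hK : K' * (sep * (Bd + 1)) ≤ K) (hδ : 4 / (t ^ Bd * K') ≤ δ)
    (hh : g + (4 * (g₀ / g) + δ) ≤ ((1 : ℝ) / 36) ^ 16)
    (hchain : ∀ z T : ℤ, 0 ≤ T → ∀ τ : ℤˣ, ∀ x ∈ C.gx z T,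
      Fin.pr (fun _ => t) (C.tube z T τ) (fun η => ¬ HitsS ↑(C.gx (z + (τ : ℤ)) (T + 1)) K
        (cl {C.cen T x} (C.O T x ∪ η))) ≤ g₀)
    {x₀ : W} (hx₀ : x₀ ∈ C.gx 0 0) :
    t ^ Bd * (1 - 2 * (g₀ / g)) / 2 ≤
      Fin.pr (fun _ => t) C.U
        (fun ω => ∃ z : ℤ, ∃ x ∈ C.gx z M, C.cen M x ∈ cl {C.cen 0 x₀} ω) := by
  set p : Sym2 W → ℝ := fun _ => t
  have p0 : ∀ e, 0 ≤ p e := fun _ => h0.le
  have p1 : ∀ e, p e ≤ 1 := fun _ => h1
  rcases lt_or_ge (1 - 2 * (g₀ / g)) 0 with hneg | hpos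
  · exact le_trans (div_nonpos_of_nonpos_of_nonneg
      (mul_nonpos_of_nonneg_of_nonpos (pow_nonneg h0.le _) hneg.le) zero_le_two)
      (Fin.pr_nonneg p0 p1 _)
  have hsep : 0 < sep := by
    obtain ⟨Y', -, hc, -⟩ := hok.select 0 0 le_rfl {x₀} (singleton_subset_iff.2 hx₀)
    rw [card_singleton] at hc
    exact Nat.pos_of_ne_zero fun h => by simp [h] at hc
  set S₀ := C.gs 0 0 1 ∪ C.gs 0 0 (-1)
  have hS₀' : ∀ b : Bond, b.1 ∈ tri M → S₀ ⊆ C.rev (tOf b.1) := fun b hb =>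
    union_subset (hok.gs₀_rev b hb 1) (hok.gs₀_rev b hb (-1))
  have hS₀ : S₀ ⊆ C.U := (union_subset (hok.gs₀ 1) (hok.gs₀ (-1))).trans (hok.rev_sub 0)
  have hsub : ∀ τ, C.gs 0 0 τ ⊆ S₀ := fun τ => by
    rcases Int.units_eq_one_or τ with rfl | rfl
    · exact subset_union_left
    · exact subset_union_right
  set O := C.O 0 x₀
  have hO : O ⊆ S₀ := fun e he => hsub 1 (hok.lay₀ 1 (mem_biUnion.2 ⟨x₀, hx₀, he⟩))
  set E : Finset (Sym2 W) → Prop := fun s => O ⊆ s ∧ C.Good t K g 0 0 s x₀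
  have hE : t ^ Bd * (1 - 2 * (g₀ / g)) ≤ pr p C.U fun ω => E (ω ∩ S₀) := by
    refine le_trans (mul_le_mul_of_nonneg_right
      (pow_le_pow_of_le_one h0.le h1 (hok.card 0 0 le_rfl x₀ hx₀)) hpos) ?_
    rw [pr, Fin.ev_marginal hS₀ fun s => ind (E s)]
    have hb := not_good_le h0.le h1 hg 0 0 hsub hok.lay₀ hx₀
      (fun τ => hchain 0 0 le_rfl τ x₀ hx₀)
    have ho := Red.pr_subset (p := p) hO
    have hspl : pr p S₀ (fun s => O ⊆ s) ≤ pr p S₀ E + pr p S₀ (fun s => O ⊆ s ∧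
        ¬ C.Good t K g 0 0 s x₀) := by
      rw [pr, pr, pr, ← Fin.ev_add]
      refine Fin.ev_mono p0 p1 fun s _ => ?_
      by_cases ha : O ⊆ s <;> by_cases hb : C.Good t K g 0 0 s x₀ <;>
        simp [Fin.ind, E, ha, hb]
    simp only [p, prod_const] at ho
    simp only [pr] at hb ho hspl ⊢
    change t ^ O.card * (1 - 2 * (g₀ / g)) ≤ _
    linarith
  set a₀ := C.cen 0 x₀
  have key := Reduction.peierls (p := p) (U := C.U) p0 p1 (E := fun ω => E (ω ∩ S₀))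
    (R := fun c ω => C.Reached t K g a₀ (zOf c) (tOf c) ω)
    (bad := fun b ω => C.Failed t K g a₀ (zOf b.1) (tOf b.1) (sgn b)
      (ω ∩ (C.rev (tOf b.1) ∪ C.fresh (zOf b.1) (tOf b.1) (sgn b))))
    (T := M) (q := 1 / 36) (by norm_num) le_rfl ?_ ?_ ?_
  · refine le_trans ?_ (key.trans (Fin.pr_mono p0 p1 ?_))
    · linarith
    · rintro ω - ⟨-, c, -, -, hM, x, hx, -, -, hc⟩
      rw [show tOf c = ((M : ℕ) : ℤ) from hM] at hx hc
      exact ⟨zOf c, x, hx, cl_mono subset_rfl inter_subset_left hc⟩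
  · rintro ω - ⟨ho, hgood⟩
    simp only [zOf, tOf, add_zero, sub_zero]
    refine ⟨x₀, hx₀, ho.trans inter_subset_left, ?_, a₀, rfl, .refl _⟩
    refine (good_congr fun τ => ?_).1 hgood
    rw [inter_assoc, inter_eq_right.2 (hsub τ)]
  · intro b hb ω _ _ hs ht
    obtain ⟨e1, e2⟩ := bond_target b
    simp only [e1, e2] at ht
    exact failed_local (hok.facts b hb) hs ht
  · intro I _ hI
    exact all_failed_le h0 h1 hg hg₀ hok hK' hsep hK hδ (by norm_num) (by norm_num) hh hchain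
      hS₀ hS₀' I hI

end Vale.Agent.P151.Height
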