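import Vale.Agent.P151.FiniteBasic
import Vale.Agent.P165.SharpCor
import Vale.Agent.P165.Spectral

/-!
Graphs with a height map to `ℤ²` compatible with automorphisms: trapping sets, shapes, seeds,
hops and the parameters of the coarse lattice.
-/

open Finset

namespace Vale.Agent.P151.Height

open Vale.Agent.P165 (cl ball hull edgesAt inEdges)

variable {W : Type*}

/-- The value of a functional. -/
def dot (u v : ℤ × ℤ) : ℤ := u.1 * v.1 + u.2 * v.2

/-- The size of a functional. -/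
def nrm (u : ℤ × ℤ) : ℤ := |u.1| + |u.2|

/-- A height map: every translation of `ℤ²` is induced by an automorphism, and such automorphisms
have finitely many orbits. -/
structure HeightMap (H : SimpleGraph W) where
  /-- the height -/
  π : W → ℤ × ℤ
  /-- the base point -/
  o : W
  π_o : π o = 0
  exists_shift : ∀ v : ℤ × ℤ, ∃ φ : H ≃g H, ∀ x, π (φ x) = π x + v
  cofinite : ∃ F : Finset W, ∀ x, ∃ φ : H ≃g H, (∃ v, ∀ y, π (φ y) = π y + v) ∧ φ x ∈ F

namespace HeightMap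

variable {H : SimpleGraph W} (G : HeightMap H)

/-- `φ` moves every height by `v`. -/
def Shifts (φ : H ≃g H) (v : ℤ × ℤ) : Prop := ∀ x, G.π (φ x) = G.π x + v

/-- The admissible seed centres. -/
def Cen : Set W := {c | ∃ φ v, G.Shifts φ v ∧ φ G.o = c}

/-- The height in direction `u`. -/
def ht (u : ℤ × ℤ) (x : W) : ℤ := dot u (G.π x)

end HeightMap

/-- A half plane `dot u ≤ level`. -/
abbrev Cons : Type := (ℤ × ℤ) × ℤ

/-- An intersection of half planes. -/
abbrev Shape : Type := List Cons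

/-- Uniform bounds for a height map. -/
structure Bounds {H : SimpleGraph W} [H.LocallyFinite] (G : HeightMap H) where
  /-- Lipschitz bound -/
  D₀ : ℕ
  /-- length of a unit move -/
  ℓ₀ : ℕ
  /-- degree bound -/
  Δ : ℕ
  D₀_pos : 0 < D₀
  ℓ₀_pos : 0 < ℓ₀
  Δ_pos : 0 < Δ
  lip : ∀ u x y, H.Adj x y → |G.ht u x - G.ht u y| ≤ D₀ * nrm u
  step : ∀ x, ∀ v : ℤ × ℤ, |v.1| + |v.2| = 1 →
    ∃ y, ∃ w : H.Walk x y, w.length ≤ ℓ₀ ∧ G.π y = G.π x + v
  cover : ∀ x, ∃ c ∈ G.Cen, ∃ w : H.Walk x c, w.length ≤ ℓ₀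
  deg : ∀ x, (H.neighborFinset x).card ≤ Δ

/-- A piece of the exit of a shape: a trapping set cut by a slab. -/
structure Piece where
  /-- the side -/
  k : Cons
  /-- the slab direction -/
  u : ℤ × ℤ
  /-- lower end -/
  lo : ℤ
  /-- upper end -/
  hi : ℤ

namespace Bounds

variable {H : SimpleGraph W} [H.LocallyFinite] {G : HeightMap H} (B : Bounds G)

/-- The dip of a unit move. -/
def c₀ : ℕ := B.ℓ₀ * B.D₀

/-- The length of escape walks for seeds of radius `m`. -/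
def L (m : ℕ) : ℕ := (2 * m * B.D₀ + 1) * B.ℓ₀ + m

/-- A bound on the balls of radius `r`. -/
def ballBd (r : ℕ) : ℕ := (B.Δ + 1) ^ r

/-- A bound on the number of edges of a seed with its walk. -/
def oBd (m : ℕ) : ℕ := B.L m + B.Δ * B.ballBd m

/-- Vertices from which a seed of radius `m` is reached strictly beyond a half plane. -/
def Out (k : Cons) (m : ℕ) : Set W :=
  {x | ∃ c ∈ G.Cen, ∃ w : H.Walk x c, w.length ≤ B.L m ∧
    (∀ y ∈ w.support, k.2 < G.ht k.1 y) ∧ k.2 + m * B.D₀ * nrm k.1 < G.ht k.1 c}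

/-- The trapped part of a shape. -/
def Bl (S : Shape) (m : ℕ) : Set W := {x | ∀ k ∈ S, x ∉ B.Out k m}

/-- The slightly enlarged shape. -/
def Near (S : Shape) : Set W :=
  {x | ∀ k ∈ S, G.ht k.1 x ≤ k.2 + (B.c₀ + B.D₀) * nrm k.1}

/-- The shape seen from `c`. -/
def _root_.Vale.Agent.P151.Height.HeightMap.at (G : HeightMap H) (c : W) (S : Shape) : Shape :=
  S.map fun k => (k.1, k.2 + G.ht k.1 c)

/-- The piece seen from `c`. -/
def _root_.Vale.Agent.P151.Height.HeightMap.pieceAt (G : HeightMap H) (c : W) (P : Piece) :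
    Piece :=
  ⟨(P.k.1, P.k.2 + G.ht P.k.1 c), P.u, P.lo + G.ht P.u c, P.hi + G.ht P.u c⟩

/-- The vertices of a piece. -/
def pset (P : Piece) (m : ℕ) : Set W :=
  {x | x ∈ B.Out P.k m ∧ P.lo ≤ G.ht P.u x ∧ G.ht P.u x ≤ P.hi}

end Bounds

/-- At least `K` points of `X` lie in `C`. -/
def HitsS (X : Set W) (K : ℕ) (C : Set W) : Prop :=
  ∃ Y : Finset W, ↑Y ⊆ X ∧ ↑Y ⊆ C ∧ K ≤ Y.card

variable [DecidableEq W] {H : SimpleGraph W} [H.LocallyFinite] {G : HeightMap H}

/-- The edges of `Λ` that touch `X`. -/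
noncomputable def eAt (H : SimpleGraph W) [H.LocallyFinite] (X : Set W) (Λ : Finset W) :
    Finset (Sym2 W) :=
  open scoped Classical in edgesAt H (Λ.filter fun x => x ∈ X)

/-- What an open seed reaches. -/
def reach (H : SimpleGraph W) [H.LocallyFinite] (m : ℕ) (c : W) (η : Finset (Sym2 W)) : Set W :=
  cl (↑(ball H c m) : Set W) η

/-- The probability that the seed of radius `m` at `c` fails to reach `K` points of `X` inside the
shape `S` trapped for seeds of radius `M`. -/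
noncomputable def fail (B : Bounds G) (t : ℝ) (m K : ℕ) (S : Shape) (M : ℕ) (c : W) (R : ℕ)
    (X : Set W) : ℝ :=
  Fin.pr (fun _ => t) (eAt H (B.Bl S M) (ball H c R)) fun η => ¬ HitsS X K (reach H m c η)

/-- Two hops with separated displacements, and a first shape. -/
structure Steer where
  /-- radius of the seeds inside tubes -/
  M : ℕ
  /-- the unit of length -/
  N : ℕ
  /-- the radius of the windows -/
  R : ℕ
  /-- the forward functional -/
  wF : ℤ × ℤ
  /-- the lateral functional -/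
  zF : ℤ × ℤ
  /-- shape of the hop to the right -/
  shA : Shape
  /-- shape of the hop to the left -/
  shB : Shape
  /-- shape of a first hop -/
  sh0 : Shape
  /-- exit of the hop to the right -/
  pA : Piece
  /-- exit of the hop to the left -/
  pB : Piece

/-- The exit of the shape `S`: everything outside its trapped part. -/
def exit (B : Bounds G) (S : Shape) (M : ℕ) : Set W := (B.Bl S M)ᶜ

/-- The geometry of the two hops, all relative to the base point. -/
structure Steer.Valid (St : Steer) (B : Bounds G) (C : ℕ) : Prop where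
  N_pos : 0 < St.N
  C_le_R : C ≤ St.R
  wF_ne : St.wF ≠ 0
  zF_ne : St.zF ≠ 0
  slack_w : (C : ℤ) * nrm St.wF ≤ St.N
  slack_z : (C : ℤ) * nrm St.zF ≤ St.N
  inner : ∀ S ∈ [St.shA, St.shB, St.sh0], ↑(ball H G.o C) ⊆ B.Bl S St.M
  region : ∀ S ∈ [St.shA, St.shB, St.sh0], ∀ x ∈ B.Bl S St.M,
    |G.ht St.wF x| ≤ 7 * St.N ∧ |G.ht St.zF x| ≤ 7 * St.N
  kA : St.pA.k ∈ St.shA
  kB : St.pB.k ∈ St.shB
  dispA : ∀ x ∈ B.pset St.pA St.M, (∃ y ∈ B.Bl St.shA St.M, H.Adj y x) →
    (St.N : ℤ) ≤ 2 * G.ht St.wF x ∧ G.ht St.wF x ≤ 6 * St.N ∧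
      -(6 * (St.N : ℤ)) ≤ G.ht St.zF x ∧ 2 * G.ht St.zF x ≤ -(St.N : ℤ)
  dispB : ∀ x ∈ B.pset St.pB St.M, (∃ y ∈ B.Bl St.shB St.M, H.Adj y x) →
    (St.N : ℤ) ≤ 2 * G.ht St.wF x ∧ G.ht St.wF x ≤ 6 * St.N ∧
      (St.N : ℤ) ≤ 2 * G.ht St.zF x ∧ G.ht St.zF x ≤ 6 * St.N

/-- Parameters of the coarse lattice. -/
structure Geo where
  /-- the hops -/
  St : Steer
  /-- radius of the seeds on the planes -/
  m : ℕ

namespace Geo

variable (Q : Geo) (B : Bounds G)

/-- Lateral spacing. -/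
def Lz : ℤ := 100 * (Q.St.N : ℤ)

/-- Forward spacing. -/
def Lw : ℤ := 2000 * (Q.St.N : ℤ)

/-- The landing plane of time `T`. -/
def plane (T : ℤ) : Cons := (Q.St.wF, T * Q.Lw - (Q.m * B.D₀ + 1) * nrm Q.St.wF)

/-- A bound on the number of hops of a tube. -/
def hops : ℕ := 5000

/-- How far one coarse bond can go in the graph. -/
def reachR : ℕ :=
  (hops + 2) * (Q.St.R + 2 * (B.L Q.St.M + Q.St.M) + 2 * (B.L Q.m + Q.m) + 4)

/-- The contacts of a cell inside the ball of radius `ρ`. -/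
noncomputable def gx (z T : ℤ) (ρ : ℕ) : Finset W :=
  open scoped Classical in (ball H G.o ρ).filter fun x =>
    x ∈ B.Out (Q.plane B T) Q.m ∧ G.ht Q.St.wF x ≤ T * Q.Lw + Q.St.N ∧
      |G.ht Q.St.zF x - z * Q.Lz| ≤ 26 * Q.St.N

/-- The region of a coarse bond. -/
def region (z T : ℤ) (σ : ℤˣ) : Set W :=
  {x | x ∉ B.Out (Q.plane B (T + 1)) Q.m ∧
    T * Q.Lw - 30 * Q.St.N ≤ G.ht Q.St.wF x ∧
    ((G.ht Q.St.wF x ≤ T * Q.Lw + 1600 * Q.St.N ∧
        min (z * Q.Lz) ((z + (σ : ℤ)) * Q.Lz) - 45 * Q.St.N ≤ G.ht Q.St.zF x ∧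
        G.ht Q.St.zF x ≤ max (z * Q.Lz) ((z + (σ : ℤ)) * Q.Lz) + 45 * Q.St.N) ∨
      |G.ht Q.St.zF x - (z + (σ : ℤ)) * Q.Lz| ≤ 25 * Q.St.N)}

/-- The tube of a coarse bond inside the ball of radius `ρ`. -/
noncomputable def tube (z T : ℤ) (σ : ℤˣ) (ρ : ℕ) : Finset (Sym2 W) :=
  open scoped Classical in (eAt H (Q.region B z T σ) (ball H G.o ρ)).filter fun e =>
    ∀ v ∈ e, T * Q.Lw - 30 * Q.St.N ≤ G.ht Q.St.wF v

end Geo

end Vale.Agent.P151.Height
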