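import Vale.Agent.P151.Height.Defs

/-!
Trapping sets: bounds for a height map, exits beyond a half plane with their seeds, and transport
of the failure probability along shifts.
-/

open Finset

namespace Vale.Agent.P151.Height

open Vale.Agent.P165 (cl ball hull edgesAt inEdges)

variable {W : Type*}

lemma dot_add (u a b : ℤ × ℤ) : dot u (a + b) = dot u a + dot u b := by
  simp only [dot, Prod.fst_add, Prod.snd_add]
  ring

lemma dot_neg (u a : ℤ × ℤ) : dot u (-a) = -dot u a := by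
  simp only [dot, Prod.fst_neg, Prod.snd_neg]
  ring

lemma nrm_nonneg (u : ℤ × ℤ) : 0 ≤ nrm u := add_nonneg (abs_nonneg _) (abs_nonneg _)

/-- In some unit direction a functional gains at least half its size. -/
lemma exists_unit (u : ℤ × ℤ) : ∃ v : ℤ × ℤ, |v.1| + |v.2| = 1 ∧ nrm u ≤ 2 * dot u v := by
  obtain ⟨a, b⟩ := u
  rcases le_total |b| |a| with h | h
  · rcases le_total 0 a with ha | ha
    · exact ⟨(1, 0), rfl, by simp only [nrm, dot, abs_of_nonneg ha] at h ⊢; omega⟩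
    · exact ⟨(-1, 0), rfl, by simp only [nrm, dot, abs_of_nonpos ha] at h ⊢; omega⟩
  · rcases le_total 0 b with hb | hb
    · exact ⟨(0, 1), rfl, by simp only [nrm, dot, abs_of_nonneg hb] at h ⊢; omega⟩
    · exact ⟨(0, -1), rfl, by simp only [nrm, dot, abs_of_nonpos hb] at h ⊢; omega⟩

namespace HeightMap

variable {H : SimpleGraph W} (G : HeightMap H)

lemma shifts_symm {φ : H ≃g H} {v : ℤ × ℤ} (hφ : G.Shifts φ v) : G.Shifts φ.symm (-v) := by
  intro x
  have := hφ (φ.symm x)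
  rw [φ.apply_symm_apply] at this
  rw [this, add_neg_cancel_right]

lemma ht_shift {φ : H ≃g H} {v : ℤ × ℤ} (hφ : G.Shifts φ v) (u : ℤ × ℤ) (x : W) :
    G.ht u (φ x) = G.ht u x + dot u v := by
  rw [ht, ht, hφ x, dot_add]

lemma o_mem_cen : G.o ∈ G.Cen := ⟨SimpleGraph.Iso.refl, 0, fun x => by simp, rfl⟩

lemma cen_shift {φ : H ≃g H} {v : ℤ × ℤ} (hφ : G.Shifts φ v) {c : W} (hc : c ∈ G.Cen) :
    φ c ∈ G.Cen := by
  obtain ⟨ψ, w, hψ, rfl⟩ := hc
  refine ⟨ψ.trans φ, w + v, fun x => ?_, rfl⟩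
  show G.π (φ (ψ x)) = _
  rw [hφ, hψ, add_assoc]

end HeightMap

variable [DecidableEq W] {H : SimpleGraph W} [H.LocallyFinite] {G : HeightMap H}

omit [DecidableEq W] in
/-- Uniform bounds exist by cofiniteness. -/
theorem exists_bounds (hH : H.Connected) (G : HeightMap H) : Nonempty (Bounds G) := by
  classical
  obtain ⟨F, hF⟩ := G.cofinite
  let V : Finset (ℤ × ℤ) := {(1, 0), (-1, 0), (0, 1), (0, -1)}
  have hV : ∀ v : ℤ × ℤ, |v.1| + |v.2| = 1 → v ∈ V := by
    rintro ⟨a, b⟩ h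
    simp only at h
    obtain ⟨ha, ha'⟩ := abs_le.1 (show |a| ≤ 1 by linarith [abs_nonneg b])
    obtain ⟨hb, hb'⟩ := abs_le.1 (show |b| ≤ 1 by linarith [abs_nonneg a])
    interval_cases a <;> interval_cases b <;> simp_all [V]
  have hw : ∀ (f : W) (v : ℤ × ℤ), ∃ y, ∃ _w : H.Walk f y, G.π y = G.π f + v := fun f v => by
    obtain ⟨ψ, hψ⟩ := G.exists_shift v
    exact ⟨ψ f, (hH.preconnected f (ψ f)).some, hψ f⟩
  choose Y P hY using hw
  let ℓ := (F ×ˢ V).sup (fun t => (P t.1 t.2).length) +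
    F.sup (fun f => (hH.preconnected f G.o).some.length) + 1
  let d := F.sup (fun f => (H.neighborFinset f).sup fun g =>
    max (G.π f - G.π g).1.natAbs (G.π f - G.π g).2.natAbs) + 1
  refine ⟨{ D₀ := d, ℓ₀ := ℓ, Δ := F.sup (fun f => (H.neighborFinset f).card) + 1
            D₀_pos := Nat.succ_pos _, ℓ₀_pos := Nat.succ_pos _, Δ_pos := Nat.succ_pos _
            lip := ?_, step := ?_, cover := ?_, deg := ?_ }⟩
  · intro u x y hxy
    obtain ⟨φ, ⟨v, hv⟩, hx⟩ := hF x
    have hadj : φ y ∈ H.neighborFinset (φ x) := by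
      rw [SimpleGraph.mem_neighborFinset]
      exact φ.map_adj_iff.2 hxy
    have h1 := (Finset.le_sup (f := fun g =>
      max (G.π (φ x) - G.π g).1.natAbs (G.π (φ x) - G.π g).2.natAbs) hadj).trans
      (Finset.le_sup (f := fun f => (H.neighborFinset f).sup fun g =>
        max (G.π f - G.π g).1.natAbs (G.π f - G.π g).2.natAbs) hx)
    rw [hv x, hv y, add_sub_add_right_eq_sub, max_le_iff] at h1
    have a1 : |(G.π x - G.π y).1| ≤ d := by
      rw [Int.abs_eq_natAbs]
      exact_mod_cast h1.1.trans (Nat.le_succ _)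
    have a2 : |(G.π x - G.π y).2| ≤ d := by
      rw [Int.abs_eq_natAbs]
      exact_mod_cast h1.2.trans (Nat.le_succ _)
    calc |G.ht u x - G.ht u y| = |u.1 * (G.π x - G.π y).1 + u.2 * (G.π x - G.π y).2| := by
          simp only [HeightMap.ht, dot, Prod.fst_sub, Prod.snd_sub]
          ring_nf
      _ ≤ |u.1| * |(G.π x - G.π y).1| + |u.2| * |(G.π x - G.π y).2| := by
          rw [← abs_mul, ← abs_mul]
          exact abs_add_le _ _
      _ ≤ |u.1| * d + |u.2| * d := by gcongr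
      _ = d * nrm u := by rw [nrm]; ring
  · intro x v hv
    obtain ⟨φ, ⟨s, hs⟩, hx⟩ := hF x
    refine ⟨φ.symm (Y (φ x) v), ((P (φ x) v).map φ.symm.toHom).copy (φ.symm_apply_apply x) rfl,
      ?_, ?_⟩
    · rw [SimpleGraph.Walk.length_copy, SimpleGraph.Walk.length_map]
      have := Finset.le_sup (f := fun t : W × (ℤ × ℤ) => (P t.1 t.2).length)
        (show (φ x, v) ∈ F ×ˢ V from mem_product.2 ⟨hx, hV v hv⟩)
      simp only at this
      omega
    · have := G.shifts_symm hs (Y (φ x) v)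
      rw [this, hY, hs]
      abel
  · intro x
    obtain ⟨φ, ⟨s, hs⟩, hx⟩ := hF x
    refine ⟨φ.symm G.o, G.cen_shift (G.shifts_symm hs) G.o_mem_cen,
      ((hH.preconnected (φ x) G.o).some.map φ.symm.toHom).copy (φ.symm_apply_apply x) rfl, ?_⟩
    rw [SimpleGraph.Walk.length_copy, SimpleGraph.Walk.length_map]
    have := Finset.le_sup (f := fun f => (hH.preconnected f G.o).some.length) hx
    omega
  · intro x
    obtain ⟨φ, -, hx⟩ := hF x
    refine le_trans (le_of_eq ?_) ((Finset.le_sup (f := fun f => (H.neighborFinset f).card) hx).trans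
      (Nat.le_succ _))
    rw [show H.neighborFinset (φ x) = (H.neighborFinset x).map φ.toEquiv.toEmbedding from ?_,
      card_map]
    ext y
    obtain ⟨z, rfl⟩ := φ.surjective y
    rw [show φ z = φ.toEquiv.toEmbedding z from rfl, mem_map']
    simp only [SimpleGraph.mem_neighborFinset]
    exact φ.map_adj_iff

/-! ### Balls -/

lemma exists_walk_of_mem_ball {c x : W} {r : ℕ} (h : x ∈ ball H c r) :
    ∃ w : H.Walk x c, w.length ≤ r := by
  induction r generalizing x with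
  | zero =>
    simp only [ball, mem_singleton] at h
    subst h
    exact ⟨.nil, le_rfl⟩
  | succ r ih =>
    simp only [ball, hull, mem_union, mem_biUnion, SimpleGraph.mem_neighborFinset] at h
    rcases h with h | ⟨y, hy, hyx⟩
    · obtain ⟨w, hw⟩ := ih h
      exact ⟨w, hw.trans (Nat.le_succ r)⟩
    · obtain ⟨w, hw⟩ := ih hy
      exact ⟨.cons hyx.symm w, Nat.succ_le_succ hw⟩

lemma mem_ball_iff {c x : W} {r : ℕ} : x ∈ ball H c r ↔ ∃ w : H.Walk x c, w.length ≤ r :=
  ⟨exists_walk_of_mem_ball, fun ⟨w, hw⟩ => P165.mem_ball_of_walk w hw⟩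

lemma ball_map (φ : H ≃g H) (c : W) (r : ℕ) :
    (ball H c r).map φ.toEquiv.toEmbedding = ball H (φ c) r := by
  ext y
  obtain ⟨z, rfl⟩ := φ.surjective y
  rw [show φ z = φ.toEquiv.toEmbedding z from rfl, mem_map']
  show _ ↔ φ z ∈ ball H (φ c) r
  rw [mem_ball_iff, mem_ball_iff]
  constructor
  · rintro ⟨w, hw⟩
    exact ⟨w.map φ.toHom, (w.length_map φ.toHom).trans_le hw⟩
  · rintro ⟨w, hw⟩
    refine ⟨(w.map φ.symm.toHom).copy (φ.symm_apply_apply z) (φ.symm_apply_apply c), ?_⟩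
    rwa [SimpleGraph.Walk.length_copy, SimpleGraph.Walk.length_map]

omit [DecidableEq W] in
/-- Heights along a walk. -/
lemma ht_walk (B : Bounds G) (u : ℤ × ℤ) {x c : W} (w : H.Walk x c) :
    |G.ht u x - G.ht u c| ≤ w.length * B.D₀ * nrm u := by
  induction w with
  | nil => simp
  | @cons a b d h w ih =>
    have := B.lip u a b h
    rw [SimpleGraph.Walk.length_cons, Nat.cast_succ]
    have := abs_sub_le (G.ht u a) (G.ht u b) (G.ht u d)
    linarith

lemma ht_support (B : Bounds G) (u : ℤ × ℤ) {x c : W} (w : H.Walk x c) {y : W}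
    (hy : y ∈ w.support) : |G.ht u x - G.ht u y| ≤ w.length * B.D₀ * nrm u := by
  refine (ht_walk B u (w.takeUntil y hy)).trans ?_
  gcongr
  · exact nrm_nonneg u
  · exact w.length_takeUntil_le hy

theorem ht_ball (B : Bounds G) (u : ℤ × ℤ) {c x : W} {r : ℕ} (h : x ∈ ball H c r) :
    |G.ht u x - G.ht u c| ≤ r * B.D₀ * nrm u := by
  obtain ⟨w, hw⟩ := exists_walk_of_mem_ball h
  refine (ht_walk B u w).trans ?_
  gcongr
  exact nrm_nonneg u

theorem Bounds.card_ball_le (B : Bounds G) (x : W) (r : ℕ) : (ball H x r).card ≤ B.ballBd r := by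
  induction r with
  | zero => simp [ball, Bounds.ballBd]
  | succ r ih =>
    refine (card_union_le _ _).trans ?_
    have h1 := card_biUnion_le_card_mul (ball H x r) (fun z => H.neighborFinset z) B.Δ
      fun z _ => B.deg z
    rw [Bounds.ballBd] at ih ⊢
    calc (ball H x r).card + ((ball H x r).biUnion fun z => H.neighborFinset z).card
        ≤ (ball H x r).card * (B.Δ + 1) := by rw [Nat.mul_succ]; omega
      _ ≤ _ := by rw [pow_succ]; exact Nat.mul_le_mul_right _ ih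

/-! ### Trapping sets -/

omit [DecidableEq W] in
theorem Bounds.out_gt (B : Bounds G) {k : Cons} {m : ℕ} {x : W} (h : x ∈ B.Out k m) :
    k.2 < G.ht k.1 x := by
  obtain ⟨c, -, w, -, hw, -⟩ := h
  exact hw x w.start_mem_support

/-- Unit moves climb without dropping below the starting level less the dip. -/
lemma exists_climb (B : Bounds G) (u v : ℤ × ℤ) (hv : |v.1| + |v.2| = 1) (hg : 0 ≤ dot u v)
    (n : ℕ) : ∀ (x : W) (l : ℤ), l + B.c₀ * nrm u < G.ht u x →
      ∃ y, ∃ w : H.Walk x y, w.length ≤ n * B.ℓ₀ ∧ (∀ z ∈ w.support, l < G.ht u z) ∧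
        G.ht u y = G.ht u x + n * dot u v := by
  have h0 : (0 : ℤ) ≤ B.c₀ * nrm u := mul_nonneg (Int.natCast_nonneg _) (nrm_nonneg u)
  induction n with
  | zero =>
    intro x l h
    refine ⟨x, .nil, le_of_eq (Nat.zero_mul _).symm, fun z hz => ?_, by simp⟩
    rw [SimpleGraph.Walk.support_nil, List.mem_singleton] at hz
    subst hz
    linarith
  | succ n ih =>
    intro x l h
    obtain ⟨y, w₁, hw₁, hy⟩ := B.step x v hv
    have hty : G.ht u y = G.ht u x + dot u v := by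
      rw [HeightMap.ht, HeightMap.ht, hy, dot_add]
    obtain ⟨z, w₂, hw₂, hs₂, hz⟩ := ih y l (by rw [hty]; linarith)
    refine ⟨z, w₁.append w₂, ?_, fun a ha => ?_, ?_⟩
    · rw [SimpleGraph.Walk.length_append, Nat.succ_mul]
      omega
    · rcases (SimpleGraph.Walk.mem_support_append_iff _ _).1 ha with ha | ha
      · have h1 := ht_support B u w₁ ha
        have h2 : (w₁.length : ℤ) * B.D₀ * nrm u ≤ B.c₀ * nrm u := by
          refine mul_le_mul_of_nonneg_right ?_ (nrm_nonneg u)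
          rw [Bounds.c₀, Nat.cast_mul]
          exact mul_le_mul_of_nonneg_right (by exact_mod_cast hw₁) (Int.natCast_nonneg _)
        have := abs_le.1 h1
        linarith
      · exact hs₂ a ha
    · rw [hz, hty]
      push_cast
      ring

theorem Bounds.mem_out_of_gt (B : Bounds G) {k : Cons} {m : ℕ} {x : W}
    (h : k.2 + B.c₀ * nrm k.1 < G.ht k.1 x) : x ∈ B.Out k m := by
  obtain ⟨u, l⟩ := k
  obtain ⟨v, hv, hg⟩ := exists_unit u
  have hn := nrm_nonneg u
  obtain ⟨y, w₁, hw₁, hs₁, hy⟩ := exists_climb B u v hv (by linarith) (2 * m * B.D₀) x l h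
  obtain ⟨c, hc, w₂, hw₂⟩ := B.cover y
  have hd : ∀ a ∈ w₂.support, G.ht u y - B.c₀ * nrm u ≤ G.ht u a := fun a ha => by
    have h1 := abs_le.1 (ht_support B u w₂ ha)
    have h2 : (w₂.length : ℤ) * B.D₀ * nrm u ≤ B.c₀ * nrm u := by
      refine mul_le_mul_of_nonneg_right ?_ hn
      rw [Bounds.c₀, Nat.cast_mul]
      exact mul_le_mul_of_nonneg_right (by exact_mod_cast hw₂) (Int.natCast_nonneg _)
    linarith
  have hgain : (m : ℤ) * B.D₀ * nrm u ≤ ((2 * m * B.D₀ : ℕ) : ℤ) * dot u v := by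
    push_cast
    calc (m : ℤ) * B.D₀ * nrm u ≤ (m : ℤ) * B.D₀ * (2 * dot u v) :=
          mul_le_mul_of_nonneg_left hg (mul_nonneg (Int.natCast_nonneg _) (Int.natCast_nonneg _))
      _ = _ := by ring
  have hmn : (0 : ℤ) ≤ (m : ℤ) * B.D₀ * nrm u :=
    mul_nonneg (mul_nonneg (Int.natCast_nonneg _) (Int.natCast_nonneg _)) hn
  simp only at h
  refine ⟨c, hc, w₁.append w₂, ?_, fun a ha => ?_, ?_⟩
  · rw [SimpleGraph.Walk.length_append, Bounds.L, Nat.add_mul, Nat.one_mul]
    omega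
  · rcases (SimpleGraph.Walk.mem_support_append_iff _ _).1 ha with ha | ha
    · exact hs₁ a ha
    · have := hd a ha
      show l < G.ht u a
      linarith
  · have := hd c w₂.end_mem_support
    show l + m * B.D₀ * nrm u < G.ht u c
    linarith

omit [DecidableEq W] in
theorem Bounds.out_anti (B : Bounds G) {u : ℤ × ℤ} {l l' : ℤ} {m : ℕ} (h : l ≤ l') :
    B.Out (u, l') m ⊆ B.Out (u, l) m := by
  rintro x ⟨c, hc, w, hw, hs, he⟩
  refine ⟨c, hc, w, hw, fun y hy => h.trans_lt (hs y hy), lt_of_le_of_lt ?_ he⟩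
  simp only
  linarith

omit [DecidableEq W] in
lemma out_shift_aux (B : Bounds G) {φ : H ≃g H} {v : ℤ × ℤ} (hφ : G.Shifts φ v) (k : Cons)
    (m : ℕ) {x : W} (h : x ∈ B.Out k m) : φ x ∈ B.Out (k.1, k.2 + dot k.1 v) m := by
  obtain ⟨c, hc, w, hw, hs, he⟩ := h
  refine ⟨φ c, G.cen_shift hφ hc, w.map φ.toHom, (w.length_map φ.toHom).trans_le hw,
    fun y hy => ?_, ?_⟩
  · rw [SimpleGraph.Walk.support_map, List.mem_map] at hy
    obtain ⟨z, hz, rfl⟩ := hy
    have := hs z hz
    show k.2 + dot k.1 v < G.ht k.1 (φ z)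
    rw [G.ht_shift hφ]
    linarith
  · show k.2 + dot k.1 v + m * B.D₀ * nrm k.1 < G.ht k.1 (φ c)
    rw [G.ht_shift hφ]
    linarith

omit [DecidableEq W] in
theorem Bounds.out_shift (B : Bounds G) {φ : H ≃g H} {v : ℤ × ℤ} (hφ : G.Shifts φ v) (k : Cons)
    (m : ℕ) (x : W) : φ x ∈ B.Out (k.1, k.2 + dot k.1 v) m ↔ x ∈ B.Out k m := by
  refine ⟨fun h => ?_, out_shift_aux B hφ k m⟩
  have := out_shift_aux B (G.shifts_symm hφ) _ m h
  rwa [φ.symm_apply_apply, dot_neg, add_neg_cancel_right] at this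

theorem Bounds.bl_subset_near (B : Bounds G) (S : Shape) (m : ℕ) : B.Bl S m ⊆ B.Near S := by
  intro x hx k hk
  have h := not_lt.1 fun h => hx k hk (B.mem_out_of_gt h)
  have : (0 : ℤ) ≤ B.D₀ * nrm k.1 := mul_nonneg (Int.natCast_nonneg _) (nrm_nonneg k.1)
  linarith

theorem Bounds.adj_mem_near (B : Bounds G) (S : Shape) (m : ℕ) {x y : W} (hx : x ∈ B.Bl S m)
    (h : H.Adj x y) : y ∈ B.Near S := by
  intro k hk
  have h1 := not_lt.1 fun h => hx k hk (B.mem_out_of_gt h)
  have h2 := abs_le.1 (B.lip k.1 x y h)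
  linarith

/-! ### The seed of an exit -/

omit [DecidableEq W] in
open scoped Classical in
/-- The centre of the seed of an exit. -/
noncomputable def Bounds.cenOut (B : Bounds G) (k : Cons) (m : ℕ) (x : W) : W :=
  if h : x ∈ B.Out k m then h.choose else x

open scoped Classical in
/-- The seed of an exit together with the walk leading to it. -/
noncomputable def Bounds.oOut (B : Bounds G) (k : Cons) (m : ℕ) (x : W) : Finset (Sym2 W) :=
  if h : x ∈ B.Out k m then
    h.choose_spec.2.choose.edges.toFinset ∪ inEdges H (ball H h.choose m)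
  else ∅

lemma card_inEdges_le (B : Bounds G) (X : Finset W) : (inEdges H X).card ≤ X.card * B.Δ :=
  card_biUnion_le_card_mul _ _ _ fun z _ =>
    card_image_le.trans ((card_le_card inter_subset_left).trans (B.deg z))

omit [DecidableEq W] [H.LocallyFinite] in
lemma mem_cl_of_walk {a : W} {ω : Finset (Sym2 W)} {x y : W} (w : H.Walk x y)
    (hw : ∀ e ∈ w.edges, e ∈ ω) (hx : x ∈ cl {a} ω) : y ∈ cl {a} ω := by
  induction w with
  | nil => exact hx
  | cons h w ih =>
    exact ih (fun e he => hw e (List.mem_cons_of_mem _ he))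
      (P165.cl_step hx (hw _ (List.mem_cons_self ..)))

lemma oOut_spec_aux (B : Bounds G) {k : Cons} {m : ℕ} {x c : W} (hc : c ∈ G.Cen)
    (w : H.Walk x c) (hw : w.length ≤ B.L m) (hs : ∀ y ∈ w.support, k.2 < G.ht k.1 y)
    (he : k.2 + m * B.D₀ * nrm k.1 < G.ht k.1 c) :
    let O := w.edges.toFinset ∪ inEdges H (ball H c m)
    ↑O ⊆ H.edgeSet ∧ O.card ≤ B.oBd m ∧ c ∈ ball H x (B.L m) ∧
    (∀ e ∈ O, ∀ y ∈ e, y ∈ B.Out k m ∧ y ∈ ball H x (B.L m + m)) ∧
    inEdges H (ball H c m) ⊆ O ∧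
    (∀ (a : W) (ω : Finset (Sym2 W)), O ⊆ ω → x ∈ cl {a} ω → c ∈ cl {a} ω) := by
  intro O
  refine ⟨fun e he' => ?_, ?_, P165.mem_ball_of_walk w.reverse (by rwa [w.length_reverse]),
    fun e he' y hy => ?_, subset_union_right, fun a ω hω hx => ?_⟩
  · rcases mem_union.1 (Finset.mem_coe.1 he') with h | h
    · exact w.edges_subset_edgeSet (List.mem_toFinset.1 h)
    · exact P165.inEdges_edge _ h
  · refine (card_union_le _ _).trans (add_le_add ((List.toFinset_card_le _).trans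
      (w.length_edges.trans_le hw)) ?_)
    rw [mul_comm]
    exact (card_inEdges_le B _).trans (Nat.mul_le_mul_right _ (B.card_ball_le c m))
  · rcases mem_union.1 he' with h | h
    · have hmem : y ∈ w.support := by
        rw [List.mem_toFinset] at h
        induction e with
        | h p q =>
          rcases Sym2.mem_iff.1 hy with rfl | rfl
          · exact w.fst_mem_support_of_mem_edges h
          · exact w.snd_mem_support_of_mem_edges h
      refine ⟨⟨c, hc, w.dropUntil y hmem, (w.length_dropUntil_le hmem).trans hw,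
        fun z hz => hs z (w.support_dropUntil_subset hmem hz), he⟩, ?_⟩
      refine P165.mem_ball_of_walk (w.takeUntil y hmem).reverse ?_
      rw [SimpleGraph.Walk.length_reverse]
      exact ((w.length_takeUntil_le hmem).trans hw).trans (Nat.le_add_right _ _)
    · have hmem : y ∈ ball H c m := by
        induction e with
        | h p q =>
          obtain ⟨-, hp, hq⟩ := P165.mem_inEdges.1 h
          rcases Sym2.mem_iff.1 hy with rfl | rfl <;> assumption
      obtain ⟨q, hq⟩ := exists_walk_of_mem_ball hmem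
      refine ⟨⟨c, hc, q, hq.trans (Nat.le_add_left _ _), fun z hz => ?_, he⟩,
        P165.mem_ball_of_walk (q.append w.reverse) ?_⟩
      · have h1 := abs_le.1 (ht_walk B k.1 (q.dropUntil z hz))
        have h2 : ((q.dropUntil z hz).length : ℤ) * B.D₀ * nrm k.1 ≤ m * B.D₀ * nrm k.1 := by
          gcongr
          · exact nrm_nonneg _
          · exact (q.length_dropUntil_le hz).trans hq
        linarith
      · rw [SimpleGraph.Walk.length_append, SimpleGraph.Walk.length_reverse]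
        omega
  · exact mem_cl_of_walk w (fun e he' => hω (mem_union_left _ (List.mem_toFinset.2 he'))) hx

theorem Bounds.oOut_spec (B : Bounds G) {k : Cons} {m : ℕ} {x : W} (h : x ∈ B.Out k m) :
    B.cenOut k m x ∈ G.Cen ∧ ↑(B.oOut k m x) ⊆ H.edgeSet ∧ (B.oOut k m x).card ≤ B.oBd m ∧
    B.cenOut k m x ∈ ball H x (B.L m) ∧
    (∀ e ∈ B.oOut k m x, ∀ y ∈ e, y ∈ B.Out k m ∧ y ∈ ball H x (B.L m + m)) ∧
    inEdges H (ball H (B.cenOut k m x) m) ⊆ B.oOut k m x ∧
    (∀ (a : W) (ω : Finset (Sym2 W)), B.oOut k m x ⊆ ω → x ∈ cl {a} ω →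
      B.cenOut k m x ∈ cl {a} ω) := by
  simp only [Bounds.cenOut, Bounds.oOut, dif_pos h]
  obtain ⟨hw, hs, he⟩ := h.choose_spec.2.choose_spec
  exact ⟨h.choose_spec.1, oOut_spec_aux B h.choose_spec.1 _ hw hs he⟩

/-- An open seed acts as one vertex. -/
theorem seed_cl (m : ℕ) (c : W) (η : Finset (Sym2 W)) :
    cl {c} (inEdges H (ball H c m) ∪ η) = reach H m c η := by
  have hc : c ∈ ball H c m := P165.mem_ball_of_walk SimpleGraph.Walk.nil (Nat.zero_le m)
  refine Set.Subset.antisymm (P165.cl_subset ?_ fun y z hy hyz => ?_)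
    (P165.cl_trans ?_ subset_union_right)
  · exact Set.singleton_subset_iff.2 (P165.subset_cl _ _ (Finset.mem_coe.2 hc))
  · rcases mem_union.1 hyz with h | h
    · exact P165.subset_cl _ _ (Finset.mem_coe.2 (P165.mem_inEdges.1 h).2.2)
    · exact P165.cl_step hy h
  · intro y hy
    refine P165.cl_mono subset_rfl subset_union_left ?_
    obtain ⟨w, hw⟩ := exists_walk_of_mem_ball (Finset.mem_coe.1 hy)
    refine mem_cl_of_walk w.reverse (fun e he => ?_) (P165.subset_cl _ _ rfl)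
    induction e with
    | h p q =>
      rw [SimpleGraph.Walk.edges_reverse, List.mem_reverse] at he
      have hball : ∀ z ∈ w.support, z ∈ ball H c m := fun z hz =>
        P165.mem_ball_of_walk (w.dropUntil z hz) ((w.length_dropUntil_le hz).trans hw)
      exact P165.mem_inEdges.2 ⟨w.adj_of_mem_edges he,
        hball p (w.fst_mem_support_of_mem_edges he), hball q (w.snd_mem_support_of_mem_edges he)⟩

/-! ### Transport along shifts -/

omit [H.LocallyFinite] in
lemma mem_cl_map (φ : H ≃g H) (X : Finset W) (T : Finset (Sym2 W)) (y : W) :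
    φ y ∈ cl (↑(X.map φ.toEquiv.toEmbedding) : Set W) (T.map φ.toEquiv.toEmbedding.sym2Map) ↔
      y ∈ cl (↑X : Set W) T := by
  constructor
  · rintro ⟨x, hx, hr⟩
    obtain ⟨a, ha, rfl⟩ := Finset.mem_map.1 (Finset.mem_coe.1 hx)
    obtain ⟨b, hb, hb'⟩ := (P165.cl_map φ.toEquiv a y T).1 ⟨_, rfl, hr⟩
    exact ⟨a, ha, hb ▸ hb'⟩
  · rintro ⟨x, hx, hr⟩
    obtain ⟨b, hb, hb'⟩ := (P165.cl_map φ.toEquiv x y T).2 ⟨_, rfl, hr⟩
    exact ⟨φ x, Finset.mem_coe.2 (Finset.mem_map.2 ⟨x, hx, rfl⟩), hb ▸ hb'⟩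

lemma eAt_map (φ : H ≃g H) {X X' : Set W} (hX : ∀ x, φ x ∈ X' ↔ x ∈ X) (Λ : Finset W) :
    eAt H X' (Λ.map φ.toEquiv.toEmbedding) = (eAt H X Λ).map φ.toEquiv.toEmbedding.sym2Map := by
  classical
  ext e
  induction e with
  | h p q =>
    obtain ⟨a, rfl⟩ := φ.surjective p
    obtain ⟨b, rfl⟩ := φ.surjective q
    rw [show s(φ a, φ b) = φ.toEquiv.toEmbedding.sym2Map s(a, b) from rfl, mem_map']
    simp only [eAt, P165.edgesAt, mem_biUnion, mem_filter, Finset.mem_map, mem_image,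
      SimpleGraph.mem_neighborFinset]
    constructor
    · rintro ⟨_, ⟨⟨x, hx, rfl⟩, hxX⟩, y, hxy, he⟩
      obtain ⟨y, rfl⟩ := φ.surjective y
      refine ⟨x, ⟨hx, (hX x).1 hxX⟩, y, φ.map_adj_iff.1 hxy, ?_⟩
      exact φ.toEquiv.toEmbedding.sym2Map.injective he
    · rintro ⟨x, ⟨hx, hxX⟩, y, hxy, he⟩
      exact ⟨φ x, ⟨⟨x, hx, rfl⟩, (hX x).2 hxX⟩, φ y, φ.map_adj_iff.2 hxy,
        congrArg φ.toEquiv.toEmbedding.sym2Map he⟩

omit [DecidableEq W] [H.LocallyFinite] in
lemma hitsS_map (φ : H ≃g H) {X X' C C' : Set W} (hX : ∀ x, φ x ∈ X' ↔ x ∈ X)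
    (hC : ∀ x, φ x ∈ C' ↔ x ∈ C) (K : ℕ) : HitsS X' K C' ↔ HitsS X K C := by
  constructor
  · rintro ⟨Y, h1, h2, h3⟩
    refine ⟨Y.map φ.symm.toEquiv.toEmbedding, fun y hy => ?_, fun y hy => ?_, by rwa [card_map]⟩
    · obtain ⟨z, hz, rfl⟩ := Finset.mem_map.1 (Finset.mem_coe.1 hy)
      refine (hX _).1 ?_
      show φ (φ.symm z) ∈ X'
      rw [φ.apply_symm_apply]
      exact h1 (Finset.mem_coe.2 hz)
    · obtain ⟨z, hz, rfl⟩ := Finset.mem_map.1 (Finset.mem_coe.1 hy)
      refine (hC _).1 ?_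
      show φ (φ.symm z) ∈ C'
      rw [φ.apply_symm_apply]
      exact h2 (Finset.mem_coe.2 hz)
  · rintro ⟨Y, h1, h2, h3⟩
    refine ⟨Y.map φ.toEquiv.toEmbedding, fun y hy => ?_, fun y hy => ?_, by rwa [card_map]⟩
    · obtain ⟨z, hz, rfl⟩ := Finset.mem_map.1 (Finset.mem_coe.1 hy)
      exact (hX z).2 (h1 (Finset.mem_coe.2 hz))
    · obtain ⟨z, hz, rfl⟩ := Finset.mem_map.1 (Finset.mem_coe.1 hy)
      exact (hC z).2 (h2 (Finset.mem_coe.2 hz))

omit [DecidableEq W] in
lemma bl_at (B : Bounds G) {φ : H ≃g H} (hφ : G.Shifts φ (G.π (φ G.o))) (S : Shape) (M : ℕ)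
    (x : W) : φ x ∈ B.Bl (G.at (φ G.o) S) M ↔ x ∈ B.Bl S M := by
  simp only [Bounds.Bl, HeightMap.at, Set.mem_ofPred_eq, List.forall_mem_map, HeightMap.ht]
  exact forall₂_congr fun k _ => not_congr (B.out_shift hφ k M x)

omit [DecidableEq W] in
lemma pset_at (B : Bounds G) {φ : H ≃g H} (hφ : G.Shifts φ (G.π (φ G.o))) (P : Piece) (M : ℕ)
    (x : W) : φ x ∈ B.pset (G.pieceAt (φ G.o) P) M ↔ x ∈ B.pset P M := by
  simp only [Bounds.pset, HeightMap.pieceAt, Set.mem_ofPred_eq, HeightMap.ht]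
  refine and_congr (B.out_shift hφ P.k M x) ?_
  rw [hφ x, dot_add]
  constructor <;> intro h <;> constructor <;> linarith [h.1, h.2]

lemma fail_map (B : Bounds G) (t : ℝ) (m K : ℕ) (S S' : Shape) (M R : ℕ) (φ : H ≃g H) (c : W)
    {X X' : Set W} (hS : ∀ x, φ x ∈ B.Bl S' M ↔ x ∈ B.Bl S M)
    (hX : ∀ x, φ x ∈ X' ↔ x ∈ X) :
    fail B t m K S' M (φ c) R X' = fail B t m K S M c R X := by
  rw [fail, fail, Fin.pr_eq_uniform, Fin.pr_eq_uniform, ← ball_map φ c R, eAt_map φ hS,
    P165.pr_image]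
  refine P165.pr_congr fun η _ => not_congr (hitsS_map φ hX (fun x => ?_) K)
  rw [reach, reach, ← ball_map φ c m]
  exact mem_cl_map φ _ η x

theorem fail_at (B : Bounds G) (t : ℝ) (m K : ℕ) (S : Shape) (M R : ℕ) {c : W} (hc : c ∈ G.Cen)
    (P : Piece) :
    fail B t m K (G.at c S) M c R (B.pset (G.pieceAt c P) M) = fail B t m K S M G.o R (B.pset P M) ∧
    fail B t m K (G.at c S) M c R (exit B (G.at c S) M) = fail B t m K S M G.o R (exit B S M) := by
  obtain ⟨φ, v, hφ, rfl⟩ := hc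
  have hv : G.π (φ G.o) = v := by rw [hφ G.o, G.π_o, zero_add]
  rw [← hv] at hφ
  exact ⟨fail_map B t m K S _ M R φ G.o (bl_at B hφ S M) (pset_at B hφ P M),
    fail_map B t m K S _ M R φ G.o (bl_at B hφ S M) fun x => not_congr (bl_at B hφ S M x)⟩

end Vale.Agent.P151.Height
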