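import Vale.Agent.P151.Height.Local
import Vale.Agent.P151.Height.Trap
import Vale.Agent.P151.Base.Threshold

/-!
The inputs of the height map renormalisation: seeds escape, finite clusters have small tails,
percolation from finite lower bounds, and all shapes are left at many points.
-/

open Finset Filter MeasureTheory
open scoped unitInterval Topology

namespace Vale.Agent.P151.Height

open Vale.Agent.P165 (cl cl_mono cl_subset cl_step subset_cl ball hull edgesAt inEdges bondMeasure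
  infAt pc)

variable {W : Type*} [DecidableEq W] {H : SimpleGraph W} [H.LocallyFinite] {G : HeightMap H}

lemma mem_edgesAt {Λ : Finset W} {e : Sym2 W} :
    e ∈ edgesAt H Λ ↔ ∃ x ∈ Λ, ∃ y, H.Adj x y ∧ e = s(x, y) := by
  simp only [edgesAt, mem_biUnion, mem_image, SimpleGraph.mem_neighborFinset, eq_comm]

lemma eAt_univ (Λ : Finset W) : eAt H Set.univ Λ = edgesAt H Λ := by
  classical
  simp [eAt]

/-- Escape probabilities are transported by automorphisms. -/
lemma pr_esc_map (t : ℝ) (φ : H ≃g H) (X Λ : Finset W) :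
    P165.pr t (edgesAt H (Λ.map φ.toEquiv.toEmbedding))
        (Esc (X.map φ.toEquiv.toEmbedding) (Λ.map φ.toEquiv.toEmbedding))
      = P165.pr t (edgesAt H Λ) (Esc X Λ) := by
  rw [← eAt_univ, eAt_map φ (X := Set.univ) (fun _ => by simp), eAt_univ, P165.pr_image]
  refine P165.pr_congr fun T _ => not_congr ?_
  constructor
  · intro h y hy
    have := h ((mem_cl_map φ X T y).2 hy)
    rw [Finset.mem_coe, show φ y = φ.toEquiv.toEmbedding y from rfl, Finset.mem_map'] at this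
    exact this
  · intro h y hy
    obtain ⟨z, rfl⟩ := φ.surjective y
    rw [Finset.mem_coe, show φ z = φ.toEquiv.toEmbedding z from rfl, Finset.mem_map']
    exact h ((mem_cl_map φ X T z).1 hy)

lemma exists_mem_ball (hH : H.Connected) (a x : W) : ∃ n, x ∈ ball H a n := by
  obtain ⟨q⟩ := hH.preconnected x a
  exact ⟨q.length, P165.mem_ball_of_walk q le_rfl⟩

/-- Large seeds leave every finite set. -/
theorem exists_escape [Countable W] (hH : H.Connected) (G : HeightMap H) (p : I)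
    (hθ : 0 < bondMeasure H p (infExists H)) {ε : ℝ} (hε : 0 < ε) :
    ∃ m₀, ∀ m, m₀ ≤ m → ∀ c ∈ G.Cen, ∀ Λ : Finset W,
      1 - ε < P165.pr (p : ℝ) (edgesAt H Λ) (Esc (ball H c m) Λ) := by
  obtain ⟨x, hx⟩ := exists_infAt_pos p hθ
  obtain ⟨m₀, hm₀⟩ := escape_of_infAt p hx (fun n => ball H G.o n) (P165.ball_mono G.o)
    (exists_mem_ball hH G.o) hε
  refine ⟨m₀, fun m hm c hc Λ => ?_⟩
  obtain ⟨φ, v, -, rfl⟩ := hc
  have h := hm₀ m hm (Λ.map φ.symm.toEquiv.toEmbedding)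
  have e : (Λ.map φ.symm.toEquiv.toEmbedding).map φ.toEquiv.toEmbedding = Λ := by
    ext y
    obtain ⟨z, rfl⟩ := φ.surjective y
    rw [show φ z = φ.toEquiv.toEmbedding z from rfl, Finset.mem_map']
    constructor
    · rintro hz
      obtain ⟨w, hw, rfl⟩ := Finset.mem_map.1 hz
      show φ (φ.symm w) ∈ Λ
      rwa [φ.apply_symm_apply]
    · intro hz
      exact Finset.mem_map.2 ⟨_, hz, φ.symm_apply_apply z⟩
  rw [← pr_esc_map _ φ, ball_map φ G.o m, e] at h
  exact h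

/-- A cluster that leaves a finite set does so inside the edges at that set. -/
lemma esc_trace {X Λ : Finset W} {η : Finset (Sym2 W)} (hη : ↑η ⊆ H.edgeSet)
    {U : Finset (Sym2 W)} (hU : edgesAt H Λ ⊆ U) :
    Esc X Λ (η ∩ U) ↔ Esc X Λ η := by
  refine ⟨esc_incr X Λ inter_subset_left, fun h hsub => h ?_⟩
  refine (cl_subset (subset_cl _ _) fun y z hy hyz => ?_).trans hsub
  refine cl_step hy (mem_inter.2 ⟨hyz, hU (mem_edgesAt.2 ⟨y, hsub hy, z, hη hyz, rfl⟩)⟩)

/-- Escape probabilities only depend on the edges at the set. -/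
lemma pr_esc_eq (t : ℝ) (X : Finset W) {Λ : Finset W} {U : Finset (Sym2 W)} (hU : ↑U ⊆ H.edgeSet)
    (h : edgesAt H Λ ⊆ U) : P165.pr t U (Esc X Λ) = P165.pr t (edgesAt H Λ) (Esc X Λ) := by
  rw [← P165.pr_marginal _ h]
  exact P165.pr_congr fun η hη => (esc_trace ((coe_subset.2 hη).trans hU) subset_rfl).symm

/-- Finite clusters of a seed rarely reach far. -/
theorem exists_tail [Countable W] (G : HeightMap H) (p : I) (m : ℕ) {ε : ℝ} (hε : 0 < ε) :
    ∃ n₁, ∀ c ∈ G.Cen, ∀ R, n₁ ≤ R →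
      P165.pr (p : ℝ) (edgesAt H (ball H c n₁)) (Esc (ball H c m) (ball H c n₁))
        - P165.pr (p : ℝ) (edgesAt H (ball H c R)) (Esc (ball H c m) (ball H c R)) ≤ ε := by
  set a : ℕ → ℝ := fun n =>
    P165.pr (p : ℝ) (edgesAt H (ball H G.o n)) (Esc (ball H G.o m) (ball H G.o n))
  have hanti : Antitone a := antitone_nat_of_succ_le fun n => by
    have hsub : edgesAt H (ball H G.o n) ⊆ edgesAt H (ball H G.o (n + 1)) :=
      biUnion_subset_biUnion_of_subset_left _ (P165.ball_mono G.o n.le_succ)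
    simp only [a]
    rw [← pr_esc_eq _ _ (edgesAt_subset _) hsub]
    exact P165.pr_mono p.2.1 p.2.2 fun η _ h hs =>
      h (hs.trans (coe_subset.2 (P165.ball_mono G.o n.le_succ)))
  have hbdd : BddBelow (Set.range a) := ⟨0, by
    rintro _ ⟨n, rfl⟩; exact P165.pr_nonneg p.2.1 p.2.2 _ _⟩
  obtain ⟨n₁, hn₁⟩ := exists_lt_of_ciInf_lt (show ⨅ n, a n < (⨅ n, a n) + ε by linarith)
  refine ⟨n₁, fun c hc R hR => ?_⟩
  obtain ⟨φ, v, -, rfl⟩ := hc
  rw [← ball_map φ G.o, ← ball_map φ G.o, ← ball_map φ G.o, pr_esc_map, pr_esc_map]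
  have h1 := ciInf_le hbdd R
  simp only [a] at hn₁ h1
  linarith

/-- Finite lower bounds give percolation. -/
theorem infExists_pos_of_lower [Countable W] (hH : H.Connected) (p : I) {c : ℝ} (hc : 0 < c)
    (a : W) (h : ∀ Λ : Finset W, ∃ U : Finset (Sym2 W), ↑U ⊆ H.edgeSet ∧
      c ≤ Fin.pr (fun _ => (p : ℝ)) U fun ω => ∃ y, y ∉ Λ ∧ y ∈ cl {a} ω) :
    0 < bondMeasure H p (infExists H) := by
  obtain ⟨x, -, hx⟩ := infAt_pos_of_lower p {a} (fun n => ball H a n) (P165.ball_mono a)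
    (exists_mem_ball hH a) hc fun N => by simpa using h (ball H a N)
  exact infExists_pos_of_infAt p hx

/-- A cluster leaving a ball has a vertex on every sphere below. -/
lemma card_le_of_esc {o : W} {m r : ℕ} {η : Finset (Sym2 W)} (hη : ↑η ⊆ H.edgeSet)
    (h : Esc (ball H o m) (ball H o r) η) :
    ∃ Y : Finset W, Y ⊆ ball H o r ∧ ↑Y ⊆ cl (↑(ball H o m) : Set W) η ∧ r - m ≤ Y.card := by
  classical
  set C := cl (↑(ball H o m) : Set W) η
  have hex : ∀ j ∈ Ioc m r, ∃ z, z ∈ C ∧ z ∈ ball H o j ∧ z ∉ ball H o (j - 1) := by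
    intro j hj
    rw [Finset.mem_Ioc] at hj
    by_contra hno
    push Not at hno
    refine h (fun y hy => P165.ball_mono o (show j - 1 ≤ r by omega) ?_)
    have key : C ⊆ {z | z ∈ C ∧ z ∈ ball H o (j - 1)} := by
      refine cl_subset (fun z hz => ⟨subset_cl _ _ hz,
        P165.ball_mono o (show m ≤ j - 1 by omega) hz⟩) fun a b ha hab => ?_
      have hb : b ∈ C := cl_step ha.1 hab
      refine ⟨hb, hno b hb ?_⟩
      have := P165.ball_adj ha.2 (show H.Adj a b from hη hab)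
      rwa [show j - 1 + 1 = j by omega] at this
    exact (key hy).2
  choose z hz1 hz2 hz3 using hex
  refine ⟨(Ioc m r).attach.image fun j => z j.1 j.2, fun y hy => ?_, fun y hy => ?_, ?_⟩
  · obtain ⟨j, -, rfl⟩ := mem_image.1 hy
    exact P165.ball_mono o (Finset.mem_Ioc.1 j.2).2 (hz2 _ _)
  · obtain ⟨j, -, rfl⟩ := mem_image.1 (Finset.mem_coe.1 hy)
    exact hz1 _ _
  · rw [card_image_of_injective, card_attach, Nat.card_Ioc]
    rintro ⟨i, hi⟩ ⟨j, hj⟩ e
    rw [Finset.mem_Ioc] at hi hj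
    simp only at e
    rw [Subtype.mk.injEq]
    by_contra hne
    rcases lt_or_gt_of_ne hne with hlt | hlt
    · exact hz3 j (Finset.mem_Ioc.2 hj) (e ▸ P165.ball_mono o (show i ≤ j - 1 by omega) (hz2 i _))
    · exact hz3 i (Finset.mem_Ioc.2 hi)
        (e.symm ▸ P165.ball_mono o (show j ≤ i - 1 by omega) (hz2 j _))

/-- Every shape containing a large ball is left at `K` points from a large seed. -/
theorem exists_total [Countable W] (hH : H.Connected) (B : Bounds G) (p : I) (hp0 : 0 < (p : ℝ))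
    (hp1 : (p : ℝ) < 1) (hθ : 0 < bondMeasure H p (infExists H)) {ε : ℝ} (hε : 0 < ε) :
    ∃ m₀, ∀ m, m₀ ≤ m → ∀ K, ∃ n₁, ∀ D : ℕ, ∃ R₀, ∀ (M : ℕ) (S : Shape),
      ↑(ball H G.o n₁) ⊆ B.Bl S M →
      (∀ x ∈ B.Near S, ∃ z, z ∉ B.Near S ∧ ∃ w : H.Walk x z, w.length ≤ D) →
      ∀ R, R₀ ≤ R → fail B (p : ℝ) m K S M G.o R (exit B S M) ≤ ε := by
  classical
  obtain ⟨m₀, hm₀⟩ := exists_escape hH G p hθ (half_pos hε)
  refine ⟨m₀, fun m hm K => ?_⟩
  set q : ℝ := (1 - (p : ℝ)) ^ (B.Δ * K) with hq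
  have hq0 : 0 < q := pow_pos (by linarith) _
  obtain ⟨n, hn⟩ := exists_tail G p m (show 0 < ε / 4 * q by positivity)
  refine ⟨max n m, fun D => ?_⟩
  set c : ℝ := ((D : ℝ) + 1) * (B.Δ + 1 : ℝ) ^ (D + 2)
  obtain ⟨N₀, hN₀⟩ := exists_nat_gt (c / ((p : ℝ) ^ (D + 1) * (ε / 4 * q)))
  refine ⟨max n m + D + m + N₀ + 2, fun M S hball hD R hR => ?_⟩
  set X := ball H G.o m
  set T := eAt H (B.Bl S M) (ball H G.o R)
  set R' := R - 1
  set U := T ∪ edgesAt H (ball H G.o R')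
  set Q : Finset (Sym2 W) → Prop := fun η =>
    ¬ HitsS (exit B S M) K (reach H m G.o η) ∧ Esc X (ball H G.o n) η
  have hT : ↑T ⊆ H.edgeSet := edgesAt_subset _
  have hU : ↑U ⊆ H.edgeSet := by
    rw [coe_union]; exact Set.union_subset hT (edgesAt_subset _)
  have hTn : edgesAt H (ball H G.o n) ⊆ T := by
    intro e he
    obtain ⟨x, hx, y, hxy, rfl⟩ := mem_edgesAt.1 he
    have hxB := hball (P165.ball_mono G.o (le_max_left n m) hx)
    exact mem_edgesAt.2 ⟨x, mem_filter.2 ⟨P165.ball_mono G.o (by omega) hx, hxB⟩, y, hxy, rfl⟩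
  have hXBl : ∀ x ∈ X, x ∈ B.Bl S M := fun x hx =>
    hball (P165.ball_mono G.o (le_max_right n m) hx)
  have hp : ∀ _e : Sym2 W, 0 ≤ (p : ℝ) := fun _ => hp0.le
  have hp' : ∀ _e : Sym2 W, (p : ℝ) ≤ 1 := fun _ => hp1.le
  -- the cluster leaves the ball of radius `n`
  have hesc : Fin.pr (fun _ => (p : ℝ)) T (fun η => ¬ Esc X (ball H G.o n) η) ≤ ε / 2 := by
    have h1 := hm₀ m hm G.o G.o_mem_cen (ball H G.o n)
    rw [← Fin.pr_eq_uniform] at h1
    have h2 := Fin.pr_compl (p := fun _ : Sym2 W => (p : ℝ)) (U := T) (Esc X (ball H G.o n))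
    have h3 : Fin.pr (fun _ => (p : ℝ)) T (fun η => Esc X (ball H G.o n) η) =
        Fin.pr (fun _ => (p : ℝ)) (edgesAt H (ball H G.o n)) (Esc X (ball H G.o n)) := by
      simp only [Fin.pr_eq_uniform]
      exact pr_esc_eq _ X hT hTn
    linarith
  -- closing
  have hcap : ∀ v, (v ∈ (↑X : Set W) ∨ ∃ e ∈ T, v ∈ e) → ∀ e ∈ U, e ∉ T → v ∈ e →
      v ∈ (ball H G.o R).filter fun x => x ∉ B.Bl S M := by
    rintro v - e he heT hve
    obtain ⟨x, hx, y, hxy, rfl⟩ := mem_edgesAt.1 ((mem_union.1 he).resolve_left heT)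
    have hxR : x ∈ ball H G.o R := P165.ball_mono G.o (Nat.sub_le R 1) hx
    have hyR : y ∈ ball H G.o R := by
      have := P165.ball_adj hx hxy
      rwa [show R' + 1 = R by omega] at this
    rcases Sym2.mem_iff.1 hve with rfl | rfl
    · exact mem_filter.2 ⟨hxR, fun hb => heT (mem_edgesAt.2
        ⟨v, mem_filter.2 ⟨hxR, hb⟩, y, hxy, rfl⟩)⟩
    · exact mem_filter.2 ⟨hyR, fun hb => heT (mem_edgesAt.2
        ⟨v, mem_filter.2 ⟨hyR, hb⟩, x, hxy.symm, Sym2.eq_swap⟩)⟩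
  have h1 := close_le hp0.le hp1.le B.deg (T := T) (U := U) subset_union_left hU (↑X : Set W)
    ((ball H G.o R).filter fun x => x ∉ B.Bl S M) K hcap Q
  -- confinement
  set Y := (ball H G.o (R' - D)).filter fun x => x ∈ B.Near S
  have hY : ∀ y ∈ Y, ∃ z ∈ (B.Near S)ᶜ, ∃ w : H.Walk y z, w.length ≤ D ∧ ∀ e ∈ w.edges, e ∈ U := by
    intro y hy
    obtain ⟨hy1, hy2⟩ := mem_filter.1 hy
    obtain ⟨z, hz, w, hw⟩ := hD y hy2
    refine ⟨z, hz, w, hw, fun e he => mem_union_right _ ?_⟩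
    obtain ⟨q, hq⟩ := exists_walk_of_mem_ball hy1
    induction e with
    | h a b =>
      have ha := w.fst_mem_support_of_mem_edges he
      refine mem_edgesAt.2 ⟨a, P165.mem_ball_of_walk ((w.takeUntil a ha).reverse.append q) ?_, b,
        w.adj_of_mem_edges he, rfl⟩
      rw [SimpleGraph.Walk.length_append, SimpleGraph.Walk.length_reverse]
      have := w.length_takeUntil_le_length ha
      omega
  have h2 := confine (Δ := B.Δ) hp0.le hp1.le B.deg (↑X : Set W) (B.Near S)ᶜ Y hY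
    (R' - D - m)
  set tailE : Finset (Sym2 W) → Prop := fun η =>
    Esc X (ball H G.o n) η ∧ ¬ Esc X (ball H G.o R') η
  have hnR : n ≤ R' := by omega
  have hsplit : Fin.pr (fun _ => (p : ℝ)) U (fun η => Q (η ∩ T) ∧
      ¬ HitsS ↑((ball H G.o R).filter fun x => x ∉ B.Bl S M) K (cl (↑X) (η ∩ T)) ∧
      cl (↑X : Set W) η = cl (↑X) (η ∩ T) ∧
      ∀ e ∈ η, e ∉ T → ∀ v ∈ e, v ∉ cl (↑X : Set W) (η ∩ T)) ≤
      Fin.pr (fun _ => (p : ℝ)) U tailE + Fin.pr (fun _ => (p : ℝ)) U (fun η =>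
        Disjoint (cl (↑X) η) (B.Near S)ᶜ ∧ HitsS ↑Y (R' - D - m) (cl (↑X) η)) := by
    refine (Fin.pr_mono hp hp' fun η hη h => ?_).trans
      (le_of_le_of_eq (le_add_of_nonneg_right (Fin.pr_nonneg hp hp'
        (fun η => tailE η ∧ (Disjoint (cl (↑X) η) (B.Near S)ᶜ ∧
          HitsS ↑Y (R' - D - m) (cl (↑X) η))))) (Fin.pr_or_and _ _))
    obtain ⟨⟨-, hesc'⟩, -, heq, -⟩ := h
    have hn' : Esc X (ball H G.o n) η := esc_incr _ _ inter_subset_left hesc'
    have hηE : ↑η ⊆ H.edgeSet := (coe_subset.2 hη).trans hU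
    have hnear : cl (↑X : Set W) η ⊆ B.Near S := by
      rw [heq]
      refine cl_subset (fun x hx => B.bl_subset_near S M (hXBl x hx)) fun a b _ hab => ?_
      obtain ⟨x, hx, y, hxy, he⟩ := mem_edgesAt.1 (mem_inter.1 hab).2
      rcases Sym2.eq_iff.1 he with ⟨rfl, rfl⟩ | ⟨rfl, rfl⟩
      · exact B.adj_mem_near S M (mem_filter.1 hx).2 hxy
      · exact B.bl_subset_near S M (mem_filter.1 hx).2
    by_cases hR' : Esc X (ball H G.o R') η
    · refine Or.inr ⟨Set.disjoint_left.2 fun x hx hx' => hx' (hnear hx), ?_⟩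
      have hfar : Esc X (ball H G.o (R' - D)) η := fun hsub =>
        hR' (hsub.trans (coe_subset.2 (P165.ball_mono G.o (Nat.sub_le _ _))))
      obtain ⟨Z, hZ1, hZ2, hZ3⟩ := card_le_of_esc hηE hfar
      exact ⟨Z, fun z hz => mem_filter.2 ⟨hZ1 hz, hnear (hZ2 hz)⟩, hZ2, hZ3⟩
    · exact Or.inl ⟨hn', hR'⟩
  have htail : Fin.pr (fun _ => (p : ℝ)) U tailE ≤ ε / 4 * q := by
    have hsubU : edgesAt H (ball H G.o R') ⊆ U := subset_union_right
    have hsub' : edgesAt H (ball H G.o n) ⊆ U := hTn.trans subset_union_left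
    have e : ∀ r, edgesAt H (ball H G.o r) ⊆ U →
        Fin.pr (fun _ => (p : ℝ)) U (Esc X (ball H G.o r)) =
          P165.pr (p : ℝ) (edgesAt H (ball H G.o r)) (Esc X (ball H G.o r)) := by
      intro r hr
      simp only [Fin.pr_eq_uniform]
      exact pr_esc_eq _ X hU hr
    have h3 : Fin.pr (fun _ => (p : ℝ)) U tailE +
        Fin.pr (fun _ => (p : ℝ)) U (Esc X (ball H G.o R')) ≤
        Fin.pr (fun _ => (p : ℝ)) U (Esc X (ball H G.o n)) := by
      rw [← Fin.pr_or_and]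
      have h0 : Fin.pr (fun _ => (p : ℝ)) U (fun η => tailE η ∧ Esc X (ball H G.o R') η) = 0 := by
        rw [Fin.pr_congr (R := fun _ => False) fun η _ => iff_false_intro fun h => h.1.2 h.2]
        simp [Fin.pr, Fin.ev, Fin.ind]
      rw [h0, add_zero]
      refine Fin.pr_mono hp hp' fun η _ h => h.elim And.left fun h hsub =>
        h (hsub.trans (coe_subset.2 (P165.ball_mono G.o hnR)))
    have := hn G.o G.o_mem_cen R' hnR
    rw [e n hsub', e R' hsubU] at h3
    linarith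
  have hconf : Fin.pr (fun _ => (p : ℝ)) U (fun η =>
      Disjoint (cl (↑X) η) (B.Near S)ᶜ ∧ HitsS ↑Y (R' - D - m) (cl (↑X) η)) ≤ ε / 4 * q := by
    have hN : (N₀ : ℝ) ≤ ((R' - D - m : ℕ) : ℝ) := by exact_mod_cast (show N₀ ≤ R' - D - m by omega)
    have hpp : 0 < (p : ℝ) ^ (D + 1) * (ε / 4 * q) := by positivity
    rw [div_lt_iff₀ hpp] at hN₀
    set P := Fin.pr (fun _ => (p : ℝ)) U (fun η =>
      Disjoint (cl (↑X) η) (B.Near S)ᶜ ∧ HitsS ↑Y (R' - D - m) (cl (↑X) η))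
    by_contra hlt
    push Not at hlt
    have h4 : ε / 4 * q * ((p : ℝ) ^ (D + 1) * N₀) ≤ P * ((p : ℝ) ^ (D + 1) * (R' - D - m : ℕ)) :=
      mul_le_mul hlt.le (mul_le_mul_of_nonneg_left hN (by positivity)) (by positivity)
        (le_trans (by positivity) hlt.le)
    linarith
  have hT1 : Fin.pr (fun _ => (p : ℝ)) T Q ≤ ε / 2 := by
    refine le_of_mul_le_mul_right ?_ hq0
    refine (mul_le_mul_of_nonneg_right (Fin.pr_mono hp hp' fun η _ h => ⟨h, fun hh => h.1 ?_⟩)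
      hq0.le).trans ((h1.trans hsplit).trans (by linarith))
    obtain ⟨Z, hZ1, hZ2, hZ3⟩ := hh
    exact ⟨Z, fun z hz => (mem_filter.1 (hZ1 hz)).2, hZ2, hZ3⟩
  calc fail B (p : ℝ) m K S M G.o R (exit B S M)
      ≤ Fin.pr (fun _ => (p : ℝ)) T Q +
        Fin.pr (fun _ => (p : ℝ)) T (fun η => ¬ Esc X (ball H G.o n) η) := by
        refine (Fin.pr_mono hp hp' fun η _ h => ?_).trans
          (le_of_le_of_eq (le_add_of_nonneg_right (Fin.pr_nonneg hp hp'
            (fun η => Q η ∧ ¬ Esc X (ball H G.o n) η))) (Fin.pr_or_and _ _))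
        by_cases he : Esc X (ball H G.o n) η
        · exact Or.inl ⟨h, he⟩
        · exact Or.inr he
    _ ≤ ε := by linarith

end Vale.Agent.P151.Height
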