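import Vale.Agent.P151.Height.Window
import Vale.Agent.P151.Height.Inputs
import Vale.Agent.P151.Height.Coarse
import Vale.Agent.P151.Height.Chain

/-!
No percolation at the threshold of a connected locally finite graph with a height map to `ℤ²`
whose threshold is below one.
-/

open Finset Filter MeasureTheory
open scoped unitInterval Topology

namespace Vale.Agent.P151.Height

open Vale.Agent.P165 (cl bondMeasure infAt pc)

attribute [local irreducible] Vale.Agent.P165.ball Geo.rad Geo.reachR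

variable {W : Type*} {H : SimpleGraph W}

/-- Percolation at a parameter below one persists at all nearby parameters. -/
theorem infExists_pos_eventually [DecidableEq W] [H.LocallyFinite] [Countable W]
    (hH : H.Connected) (G : HeightMap H) (p : I) (hp0 : 0 < (p : ℝ)) (hp1 : (p : ℝ) < 1)
    (hθ : 0 < bondMeasure H p (infExists H)) :
    ∀ᶠ t in 𝓝 (p : ℝ), ∀ ht : t ∈ Set.Icc (0 : ℝ) 1,
      0 < bondMeasure H ⟨t, ht⟩ (infExists H) := by
  obtain ⟨B⟩ := exists_bounds hH G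
  set Q₀ : ℝ := ((1 : ℝ) / 36) ^ 16 with hQ₀
  have hQ : 0 < Q₀ := by positivity
  have hQ1 : Q₀ ≤ 1 := pow_le_one₀ (by norm_num) (by norm_num)
  set g := Q₀ / 4
  set g₀ := g * Q₀ / 16
  have hg : 0 < g := by positivity
  have hg₀ : 0 < g₀ := by positivity
  obtain ⟨m, hm⟩ := exists_chain hH B p hp0 hp1 hθ hg₀
  set Bd := B.oBd m
  have hpc : 0 < ((p : ℝ) / 2) ^ Bd := by positivity
  obtain ⟨k, hk⟩ := exists_nat_gt (4 / (((p : ℝ) / 2) ^ Bd * (Q₀ / 4)))
  obtain ⟨St, hv, -, hev⟩ := hm ((k + 1) * (sepBd B m * (Bd + 1))) (Cmin B m)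
  filter_upwards [hev, eventually_gt_nhds (show (p : ℝ) / 2 < p by linarith)] with t hchain htp ht
  have t0 : 0 < t := lt_trans (by linarith) htp
  set Q : Geo := ⟨St, m⟩
  have hδ : 4 / (t ^ Bd * ((k + 1 : ℕ) : ℝ)) ≤ Q₀ / 4 := by
    have hle : ((p : ℝ) / 2) ^ Bd ≤ t ^ Bd := pow_le_pow_left₀ (by positivity) htp.le Bd
    rw [div_lt_iff₀ (by positivity)] at hk
    rw [div_le_iff₀ (by positivity)]
    calc (4 : ℝ) ≤ k * (((p : ℝ) / 2) ^ Bd * (Q₀ / 4)) := hk.le
      _ ≤ ((k + 1 : ℕ) : ℝ) * (t ^ Bd * (Q₀ / 4)) := mul_le_mul (by push_cast; linarith)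
          (mul_le_mul_of_nonneg_right hle (by positivity)) (by positivity) (by positivity)
      _ = Q₀ / 4 * (t ^ Bd * ((k + 1 : ℕ) : ℝ)) := by ring
  have hgg : g₀ / g = Q₀ / 16 := by
    rw [div_eq_iff hg.ne']
    simp only [g₀]
    ring
  refine infExists_pos_of_lower hH ⟨t, ht⟩ (c := t ^ Bd * (1 - 2 * (g₀ / g)) / 2) ?_
    (B.cenOut (Q.plane B 0) m G.o) fun Λ => ?_
  · rw [hgg]
    exact div_pos (mul_pos (pow_pos t0 _) (by linarith)) two_pos
  obtain ⟨M, hM0, hM⟩ : ∃ M : ℕ, 1 ≤ M ∧ ∀ y ∈ Λ, G.ht St.wF y < M :=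
    ⟨Λ.sup (fun y => (G.ht St.wF y).toNat) + 1, Nat.le_add_left _ _, fun y hy => by
      have := Finset.le_sup (f := fun y => (G.ht St.wF y).toNat) hy
      omega⟩
  refine ⟨(Q.window B M).U, window_U_edge, ?_⟩
  have h := coarse_reach (C := Q.window B M) t0 ht.2 hg hg₀.le (window_ok (Q := Q) hv le_rfl M)
    (Nat.succ_pos k) le_rfl hδ
    (show g + (4 * (g₀ / g) + Q₀ / 4) ≤ ((1 : ℝ) / 36) ^ 16 by rw [hgg, ← hQ₀]; linarith)
    (fun z T hT τ x hx => by
      have h := hchain z T τ (Q.rad B T) x hx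
      show Fin.pr (fun _ => t) (Q.tube B z T τ (Q.rad B T + Q.reachR B)) (fun η =>
        ¬ HitsS ↑(Q.gx B (z + (τ : ℤ)) (T + 1) (Q.rad B (T + 1))) _
          (cl {B.cenOut (Q.plane B T) m x} (B.oOut (Q.plane B T) m x ∪ η))) ≤ g₀
      rw [rad_succ hT]
      exact h)
    (o_mem_gx (Q := Q) hv le_rfl M)
  refine h.trans (Fin.pr_mono (fun _ => t0.le) (fun _ => ht.2) ?_)
  rintro ω - ⟨z, x, hx, hc⟩
  refine ⟨_, fun hmem => ?_, hc⟩
  have h1 := cen_high (Q := Q) hv le_rfl hx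
  have h2 := hM _ hmem
  have hN : (1 : ℤ) ≤ St.N := by exact_mod_cast hv.N_pos
  simp only [Geo.Lw, Q] at h1 h2
  have : (1 : ℤ) ≤ M := by exact_mod_cast hM0
  nlinarith

/-- At the threshold there is almost surely no infinite cluster. -/
theorem infExists_pc_null [DecidableEq W] [H.LocallyFinite] [Countable W] (hH : H.Connected)
    (G : HeightMap H) (hpc : pc H < 1) (p : I) (hp : (p : ℝ) = pc H) :
    bondMeasure H p (infExists H) = 0 := by
  refine infExists_pc_null_of_open p hp fun o hp0 ho => ?_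
  filter_upwards [infExists_pos_eventually hH G p hp0 (hp ▸ hpc) (infExists_pos_of_infAt p ho)]
    with t h ht
  exact exists_infAt_pos _ (h ht)

end Vale.Agent.P151.Height
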