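import Vale.Agent.P151.Base.ZeroOne

/-!
Graphs which are a line up to boundedly many vertices per level: no infinite cluster below one.
-/

open MeasureTheory ProbabilityTheory Finset
open scoped unitInterval ENNReal

namespace Vale.Agent.P151.Height

open Vale.Agent.P165

variable {W : Type*} {H : SimpleGraph W}

/-- A walk that rises above a level crosses it along an edge. -/
lemma exists_crossing {K : SimpleGraph W} (h : W → ℤ) (n : ℤ) {a b : W} (q : K.Walk a b)
    (ha : h a ≤ n) (hb : n < h b) : ∃ x y, K.Adj x y ∧ h x ≤ n ∧ n < h y := by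
  induction q with
  | nil => exact absurd hb (not_lt.2 ha)
  | @cons u v w huv q ih =>
    by_cases hv : n < h v
    · exact ⟨u, v, huv, ha, hv⟩
    · exact ih (not_lt.1 hv) hb

variable [DecidableEq W]

/-- Finitely many cut sets are met with small probability. -/
lemma pr_cuts_le {p : ℝ} (h0 : 0 ≤ p) (h1 : p ≤ 1) (E : ℕ → Finset (Sym2 W)) (M N : ℕ)
    (hdis : (↑(Finset.range M) : Set ℕ).PairwiseDisjoint E) (hN : ∀ j, (E j).card ≤ N) :
    pr p ((Finset.range M).biUnion E) (fun S => ∀ j ∈ Finset.range M, S ∩ E j ≠ ∅) ≤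
      (1 - (1 - p) ^ N) ^ M := by
  classical
  have h := pr_indep p (Finset.range M) E (fun _ S => S ≠ ∅) hdis ((Finset.range M).biUnion E) ∅
    (fun _ => True) (Finset.empty_subset _) (fun i hi => Finset.subset_biUnion_of_mem E hi)
    fun i _ => Finset.disjoint_empty_left _
  simp only [true_and, pr_true, one_mul] at h
  rw [h]
  refine (Finset.prod_le_prod (g := fun _ => 1 - (1 - p) ^ N)
    (fun j _ => pr_nonneg h0 h1 _ _) fun j _ => ?_).trans_eq (by simp)
  have hc := pr_compl p (E j) fun S => S = ∅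
  have he : pr p (E j) (fun S => S = ∅) = (1 - p) ^ (E j).card := by
    have h' := pr_closed p (Finset.Subset.refl (E j)) (fun _ => True)
    rw [pr_true, mul_one] at h'
    rw [← h']
    refine pr_congr fun S hS => ?_
    rw [inter_eq_left.2 hS]
    simp
  have hmono : (1 - p) ^ N ≤ (1 - p) ^ (E j).card :=
    pow_le_pow_of_le_one (by linarith) (by linarith) (hN j)
  have hsub : pr p (E j) (fun S => S ≠ ∅) ≤ 1 - (1 - p) ^ N := by linarith
  exact hsub

variable [Countable W] [H.LocallyFinite]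

/-- The cluster of a point rarely climbs through many levels. -/
lemma measure_climb_le (h : W → ℤ) {D : ℕ} (hlip : ∀ a b, H.Adj a b → h b - h a ≤ D) {C : ℕ}
    (hfib : ∀ n, ∃ F : Finset W, (∀ x, h x = n → x ∈ F) ∧ F.card ≤ C) (p : I) (o : W) (M : ℕ) :
    bondMeasure H p {ω | ∃ y, (openGraph H ω).Reachable o y ∧ h o + M * D < h y} ≤
      ENNReal.ofReal ((1 - (1 - (p : ℝ)) ^ (D * C * (D * C))) ^ M) := by
  classical
  choose F hF hFC using hfib
  let low : ℤ → Finset W := fun n => (Finset.Icc (n - D + 1) n).biUnion F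
  let high : ℤ → Finset W := fun n => (Finset.Icc (n + 1) (n + D)).biUnion F
  let E : ℕ → Finset (Sym2 W) := fun j =>
    (((low (h o + j * D)) ×ˢ (high (h o + j * D))).filter fun e => H.Adj e.1 e.2 ∧
      h e.1 ≤ h o + j * D ∧ h o + j * D < h e.2).image fun e => s(e.1, e.2)
  have hmem : ∀ (j : ℕ) (x y : W), H.Adj x y → h x ≤ h o + j * D → h o + j * D < h y → s(x, y) ∈ E j := by
    intro j x y hxy hx hy
    have hl := hlip x y hxy
    refine mem_image.2 ⟨(x, y), mem_filter.2 ⟨mem_product.2 ⟨?_, ?_⟩, hxy, hx, hy⟩, rfl⟩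
    · exact mem_biUnion.2 ⟨h x, mem_Icc.2 ⟨by linarith, hx⟩, hF _ x rfl⟩
    · exact mem_biUnion.2 ⟨h y, mem_Icc.2 ⟨hy, by linarith⟩, hF _ y rfl⟩
  have hcard : ∀ j, (E j).card ≤ D * C * (D * C) := by
    intro j
    refine card_image_le.trans ((card_filter_le _ _).trans ?_)
    rw [card_product]
    refine Nat.mul_le_mul ((card_biUnion_le_card_mul _ _ _ fun n _ => hFC n).trans ?_)
      ((card_biUnion_le_card_mul _ _ _ fun n _ => hFC n).trans ?_) <;>
    · rw [Int.card_Icc]
      exact Nat.mul_le_mul_right _ (by omega)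
  have hdis : (↑(Finset.range M) : Set ℕ).PairwiseDisjoint E := by
    intro i _ j _ hij
    refine Finset.disjoint_left.2 fun e hi hj => hij ?_
    obtain ⟨⟨a, b⟩, ha, rfl⟩ := mem_image.1 hi
    obtain ⟨⟨a', b'⟩, ha', he⟩ := mem_image.1 hj
    obtain ⟨-, hab, h1, h2⟩ := mem_filter.1 ha
    obtain ⟨-, -, h3, h4⟩ := mem_filter.1 ha'
    simp only at h1 h2 h3 h4 hab he
    rcases Sym2.eq_iff.1 he with ⟨rfl, rfl⟩ | ⟨rfl, rfl⟩
    · have hl := hlip _ _ hab
      rcases lt_trichotomy i j with hlt | heq | hlt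
      · exfalso
        have : ((i : ℤ) + 1) * D ≤ (j : ℤ) * D :=
          mul_le_mul_of_nonneg_right (by exact_mod_cast hlt) (Int.natCast_nonneg _)
        linarith
      · exact heq
      · exfalso
        have : ((j : ℤ) + 1) * D ≤ (i : ℤ) * D :=
          mul_le_mul_of_nonneg_right (by exact_mod_cast hlt) (Int.natCast_nonneg _)
        linarith
    · exfalso
      linarith
  have hU : ↑((Finset.range M).biUnion E) ⊆ H.edgeSet := by
    intro e he
    obtain ⟨j, -, hj⟩ := mem_biUnion.1 (Finset.mem_coe.1 he)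
    obtain ⟨⟨a, b⟩, ha, rfl⟩ := mem_image.1 hj
    exact (mem_filter.1 ha).2.1
  refine le_trans (measure_mono ?_) ((bond_pr_le p hU _).trans
    (ENNReal.ofReal_le_ofReal (pr_cuts_le p.2.1 p.2.2 E M _ hdis hcard)))
  rintro ω ⟨y, ⟨q⟩, hy⟩ j hj
  rw [Finset.mem_range] at hj
  have hjM : (j : ℤ) * D ≤ (M : ℤ) * D :=
    mul_le_mul_of_nonneg_right (by exact_mod_cast hj.le) (Int.natCast_nonneg _)
  have hj0 : 0 ≤ (j : ℤ) * D := mul_nonneg (Int.natCast_nonneg _) (Int.natCast_nonneg _)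
  obtain ⟨a, b, hab, ha, hb⟩ := exists_crossing h (h o + j * D) q (by linarith) (by linarith)
  rw [openGraph, SimpleGraph.inf_adj, SimpleGraph.fromEdgeSet_adj] at hab
  have hE := hmem j a b hab.1 ha hb
  refine Finset.nonempty_iff_ne_empty.1 ⟨s(a, b), mem_inter.2 ⟨mem_filter.2 ⟨?_, hab.2.1⟩, hE⟩⟩
  exact mem_biUnion.2 ⟨j, mem_range.2 hj, hE⟩

/-- A graph that is a line up to boundedly many vertices per level has no infinite cluster below
one. -/
theorem no_infinite_of_line (h : W → ℤ) {D : ℕ} (hlip : ∀ a b, H.Adj a b → h b - h a ≤ D) {C : ℕ}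
    (hfib : ∀ n, ∃ F : Finset W, (∀ x, h x = n → x ∈ F) ∧ F.card ≤ C) (p : I) (hp : (p : ℝ) < 1) :
    bondMeasure H p (infExists H) = 0 := by
  classical
  rw [infExists_eq]
  refine measure_iUnion_null fun o => ?_
  obtain ⟨N, hN⟩ : ∃ N, N = D * C * (D * C) := ⟨_, rfl⟩
  obtain ⟨q, hq⟩ : ∃ q, q = 1 - (1 - (p : ℝ)) ^ N := ⟨_, rfl⟩
  have hq0 : 0 ≤ q := by
    have := pow_le_one₀ (n := N) (sub_nonneg.2 p.2.2) (sub_le_self 1 p.2.1)
    linarith
  have hq1 : q < 1 := by
    have := pow_pos (sub_pos.2 hp) N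
    linarith
  have hfib' : ∀ n, ∃ F : Finset W, (∀ x, -h x = n → x ∈ F) ∧ F.card ≤ C := fun n => by
    obtain ⟨F, h1, h2⟩ := hfib (-n)
    exact ⟨F, fun x hx => h1 x (by omega), h2⟩
  have hlip' : ∀ a b, H.Adj a b → -h b - -h a ≤ (D : ℤ) := fun a b hab => by
    have := hlip b a hab.symm
    omega
  have hle : ∀ M : ℕ, bondMeasure H p (infAt H o) ≤ ENNReal.ofReal (2 * q ^ M) := by
    intro M
    rw [two_mul, ENNReal.ofReal_add (pow_nonneg hq0 M) (pow_nonneg hq0 M), hq, hN]
    refine le_trans ((measure_mono ?_).trans (measure_union_le _ _))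
      (add_le_add (measure_climb_le h hlip hfib p o M)
        (measure_climb_le (fun x => -h x) hlip' hfib' p o M))
    intro ω hω
    choose F hF _ using hfib
    obtain ⟨y, hy, hyF⟩ := Set.Infinite.exists_notMem_finset hω
      ((Finset.Icc (h o - M * D) (h o + M * D)).biUnion F)
    have hh : ¬ (h o - M * D ≤ h y ∧ h y ≤ h o + M * D) := fun hh =>
      hyF (mem_biUnion.2 ⟨h y, mem_Icc.2 hh, hF _ y rfl⟩)
    rcases le_or_gt (h y) (h o + M * D) with h1 | h1
    · refine Or.inr ⟨y, hy, ?_⟩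
      have := not_le.1 fun h2 => hh ⟨h2, h1⟩
      show -h o + M * D < -h y
      linarith
    · exact Or.inl ⟨y, hy, h1⟩
  have hlim := (tendsto_pow_atTop_nhds_zero_of_lt_one hq0 hq1).const_mul 2
  rw [mul_zero] at hlim
  have hlim' := ENNReal.tendsto_ofReal hlim
  rw [ENNReal.ofReal_zero] at hlim'
  exact nonpos_iff_eq_zero.1 (ge_of_tendsto' hlim' hle)

end Vale.Agent.P151.Height
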