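import Vale.Agent.P151.Height.CayleyMap
import Vale.Agent.P151.Height.LineCut

/-!
Virtually nilpotent groups: either a finite-index subgroup maps onto `ℤ²`, or the group is
virtually cyclic and then no Cayley graph percolates below one.
-/

open MeasureTheory ProbabilityTheory Finset
open scoped unitInterval ENNReal

namespace Vale.Agent.P151.Height

open Vale.Agent.P165

/-- A finite-index subgroup maps onto `ℤ²`, or a cyclic subgroup has finite index. -/
def SquareOrLine (G : Type*) [Group G] : Prop :=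
  (∃ (K : Subgroup G) (f : K →* Multiplicative (ℤ × ℤ)), K.FiniteIndex ∧ Function.Surjective f) ∨
    ∃ t : G, (Subgroup.zpowers t).FiniteIndex

variable {G : Type*} [Group G]

/-- The property passes up from a finite-index subgroup. -/
lemma squareOrLine_of_subgroup (L : Subgroup G) [L.FiniteIndex] (h : SquareOrLine L) :
    SquareOrLine G := by
  have key : ∀ K : Subgroup L, K.FiniteIndex → (K.map L.subtype).FiniteIndex := fun K hK => by
    constructor
    rw [Subgroup.index_map_subtype]
    exact mul_ne_zero hK.index_ne_zero Subgroup.FiniteIndex.index_ne_zero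
  rcases h with ⟨K, f, hK, hf⟩ | ⟨t, ht⟩
  · exact Or.inl ⟨K.map L.subtype,
      f.comp (K.equivMapOfInjective L.subtype L.subtype_injective).symm.toMonoidHom, key K hK,
      hf.comp (MulEquiv.surjective _)⟩
  · refine Or.inr ⟨(t : G), ?_⟩
    have := key _ ht
    rwa [MonoidHom.map_zpowers] at this

/-- A finitely generated abelian group. -/
lemma squareOrLine_of_comm (A : Type*) [CommGroup A] [Group.FG A] : SquareOrLine A := by
  classical
  obtain ⟨n, ι, _, q, hq, e, ⟨ψ⟩⟩ := AddCommGroup.equiv_free_prod_directSum_zmod (G := Additive A)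
  haveI : ∀ i, NeZero (q i ^ e i) := fun i => ⟨pow_ne_zero _ (hq i).ne_zero⟩
  haveI : Finite (DirectSum ι fun i => ZMod (q i ^ e i)) :=
    Finite.of_equiv (∀ i, ZMod (q i ^ e i)) (DirectSum.linearEquivFunOnFintype ℤ ι
      fun i => ZMod (q i ^ e i)).symm.toEquiv
  rcases le_or_gt 2 n with hn | hn
  · let i : Fin n := ⟨0, by omega⟩
    let j : Fin n := ⟨1, by omega⟩
    let f : (⊤ : Subgroup A) →* Multiplicative (ℤ × ℤ) :=
      { toFun := fun a => Multiplicative.ofAdd
          ((ψ (Additive.ofMul (a : A))).1 i, (ψ (Additive.ofMul (a : A))).1 j)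
        map_one' := by simp
        map_mul' := fun a b => by simp [← ofAdd_add] }
    refine Or.inl ⟨⊤, f, inferInstance, fun v => ?_⟩
    obtain ⟨⟨x, y⟩, rfl⟩ := Multiplicative.ofAdd.surjective v
    refine ⟨⟨Additive.toMul (ψ.symm (Finsupp.single i x + Finsupp.single j y, 0)), trivial⟩, ?_⟩
    have hij : i ≠ j := fun h => by simpa [i, j] using congrArg Fin.val h
    simp [f, hij, hij.symm]
  · obtain ⟨v, hv⟩ : ∃ v : Fin n →₀ ℤ, ∀ x, ∃ k : ℤ, x = k • v := by
      rcases Nat.eq_zero_or_pos n with rfl | hn0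
      · exact ⟨0, fun x => ⟨0, Subsingleton.elim _ _⟩⟩
      · obtain rfl : n = 1 := by omega
        refine ⟨Finsupp.single 0 1, fun x => ⟨x 0, ?_⟩⟩
        exact Finsupp.ext fun i => by rw [Subsingleton.elim i 0]; simp
    refine Or.inr ⟨Additive.toMul (ψ.symm (v, 0)), ?_⟩
    obtain ⟨t, ht⟩ : ∃ t, t = Additive.toMul (ψ.symm (v, 0)) := ⟨_, rfl⟩
    rw [← ht]
    haveI : Finite (A ⧸ Subgroup.zpowers t) := by
      refine Finite.of_surjective (fun s : DirectSum ι fun i => ZMod (q i ^ e i) =>
        (QuotientGroup.mk (Additive.toMul (ψ.symm (0, s))) : A ⧸ Subgroup.zpowers t)) fun a => ?_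
      obtain ⟨a, rfl⟩ := QuotientGroup.mk_surjective a
      obtain ⟨⟨x, s⟩, hxs⟩ : ∃ z, ψ (Additive.ofMul a) = z := ⟨_, rfl⟩
      obtain ⟨k, rfl⟩ := hv x
      refine ⟨s, QuotientGroup.eq.2 ?_⟩
      have ha : a = t ^ k * Additive.toMul (ψ.symm (0, s)) := by
        rw [ht, ← toMul_zsmul, ← toMul_add, ← map_zsmul, ← map_add, Prod.smul_mk, Prod.mk_add_mk,
          smul_zero, zero_add, add_zero, ← hxs, ψ.symm_apply_apply, toMul_ofMul]
      rw [ha, mul_comm (t ^ k), inv_mul_cancel_left]
      exact ⟨k, rfl⟩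
    exact Subgroup.finiteIndex_of_finite_quotient

/-- Every finitely generated nilpotent group. -/
lemma squareOrLine_of_nilpotent (N : Type*) [Group N] [Group.IsNilpotent N] :
    Group.FG N → SquareOrLine N := by
  refine Group.nilpotent_center_quotient_ind
    (P := fun G _ _ => Group.FG G → SquareOrLine G) N ?_ ?_
  · intro G _ _ _
    exact Or.inr ⟨1, Subgroup.finiteIndex_of_finite_quotient⟩
  · intro G _ _ ih hG
    obtain ⟨K, f, hK, hf⟩ | ⟨t, ht⟩ := ih inferInstance
    · refine Or.inl ⟨K.comap (QuotientGroup.mk' (Subgroup.center G)),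
        f.comp ((QuotientGroup.mk' (Subgroup.center G)).subgroupComap K), ?_, hf.comp ?_⟩
      · constructor
        rw [Subgroup.index_comap_of_surjective _ (QuotientGroup.mk'_surjective _)]
        exact hK.index_ne_zero
      · rintro ⟨x, hx⟩
        obtain ⟨g, rfl⟩ := QuotientGroup.mk'_surjective (Subgroup.center G) x
        exact ⟨⟨g, hx⟩, rfl⟩
    · obtain ⟨s, rfl⟩ := QuotientGroup.mk'_surjective (Subgroup.center G) t
      obtain ⟨L, hLd⟩ : ∃ L, L = (Subgroup.zpowers (QuotientGroup.mk' (Subgroup.center G) s)).comap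
          (QuotientGroup.mk' (Subgroup.center G)) := ⟨_, rfl⟩
      haveI : L.FiniteIndex := by
        constructor
        rw [hLd, Subgroup.index_comap_of_surjective _ (QuotientGroup.mk'_surjective _)]
        exact ht.index_ne_zero
      have hmem : ∀ a ∈ L, ∃ i : ℤ, ∃ z ∈ Subgroup.center G, a = s ^ i * z := by
        intro a ha
        rw [hLd, Subgroup.mem_comap] at ha
        obtain ⟨i, hi⟩ := ha
        refine ⟨i, (s ^ i)⁻¹ * a, ?_, by group⟩
        rw [← QuotientGroup.eq]
        simpa using hi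
      have hcomm : ∀ a b : L, a * b = b * a := by
        rintro ⟨a, ha⟩ ⟨b, hb⟩
        obtain ⟨i, z, hz, rfl⟩ := hmem a ha
        obtain ⟨j, w, hw, rfl⟩ := hmem b hb
        ext
        show s ^ i * z * (s ^ j * w) = s ^ j * w * (s ^ i * z)
        rw [Subgroup.mem_center_iff] at hz hw
        calc s ^ i * z * (s ^ j * w) = s ^ i * (z * s ^ j) * w := by group
          _ = s ^ i * (s ^ j * z) * w := by rw [← hz]
          _ = s ^ j * s ^ i * (z * w) := by group
          _ = s ^ j * s ^ i * (w * z) := by rw [hw z]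
          _ = s ^ j * (s ^ i * w) * z := by group
          _ = s ^ j * (w * s ^ i) * z := by rw [hw (s ^ i)]
          _ = s ^ j * w * (s ^ i * z) := by group
      haveI : Group.FG G := hG
      haveI : Group.FG L := inferInstance
      letI : CommGroup L := { (inferInstance : Group L) with mul_comm := hcomm }
      exact squareOrLine_of_subgroup L (squareOrLine_of_comm L)

/-- A finitely generated virtually nilpotent group. -/
theorem squareOrLine_of_virtuallyNilpotent [Group.FG G] (N : Subgroup G) [N.FiniteIndex]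
    [Group.IsNilpotent N] : SquareOrLine G :=
  squareOrLine_of_subgroup N (squareOrLine_of_nilpotent N inferInstance)

/-- The Cayley graph of a virtually cyclic group has no infinite cluster below one. -/
theorem no_infinite_of_zpowers [DecidableEq G] (S : Finset G)
    [(cayGraph S).LocallyFinite] (hS : Subgroup.closure (S : Set G) = ⊤) (t : G)
    [(Subgroup.zpowers t).FiniteIndex] (p : I) (hp : (p : ℝ) < 1) :
    bondMeasure (cayGraph S) p (infExists (cayGraph S)) = 0 := by
  classical
  haveI := countable_of_connected (cayGraph_connected S hS)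
  by_cases htor : IsOfFinOrder t
  · haveI : Finite (Subgroup.zpowers t) := htor.finite_zpowers.to_subtype
    haveI : Finite (G ⧸ Subgroup.zpowers t) := Subgroup.finite_quotient_of_finiteIndex
    haveI : Finite G := Finite.of_equiv _ (Subgroup.groupEquivQuotientProdSubgroup
      (s := Subgroup.zpowers t)).symm
    refine measure_mono_null (fun ω ⟨C, hC⟩ => ?_) measure_empty
    exact (hC (Set.toFinite _)).elim
  haveI : Finite (G ⧸ Subgroup.zpowers t) := Subgroup.finite_quotient_of_finiteIndex
  haveI := Fintype.ofFinite (G ⧸ Subgroup.zpowers t)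
  have hco : ∀ g : G, ∃ n : ℤ, g⁻¹ = (QuotientGroup.mk g⁻¹ : G ⧸ Subgroup.zpowers t).out * t ^ n := by
    intro g
    obtain ⟨⟨k, n, rfl⟩, hk⟩ := QuotientGroup.mk_out_eq_mul (Subgroup.zpowers t) g⁻¹
    exact ⟨-n, by rw [hk]; group⟩
  choose h hh using hco
  have hfib : ∀ n : ℤ, ∃ F : Finset G, (∀ x, h x = n → x ∈ F) ∧
      F.card ≤ Fintype.card (G ⧸ Subgroup.zpowers t) := by
    intro n
    refine ⟨Finset.univ.image fun c : G ⧸ Subgroup.zpowers t => (c.out * t ^ n)⁻¹, fun x hx => ?_,
      card_image_le⟩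
    exact mem_image.2 ⟨_, mem_univ _, by rw [← hx, ← hh x, inv_inv]⟩
  have hinj : Function.Injective fun n : ℤ => t ^ n := injective_zpow_iff_not_isOfFinOrder.2 htor
  have hshift : ∀ (m : ℤ) (g : G), h (t ^ m * g) = h g - m := by
    intro m g
    have e : (QuotientGroup.mk (t ^ m * g)⁻¹ : G ⧸ Subgroup.zpowers t) = QuotientGroup.mk g⁻¹ := by
      refine QuotientGroup.eq.2 ⟨m, ?_⟩
      group
    have h1 := hh (t ^ m * g)
    have h2 := hh g
    rw [e, mul_inv_rev] at h1
    generalize (QuotientGroup.mk g⁻¹ : G ⧸ Subgroup.zpowers t).out = c at h1 h2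
    rw [h2, ← zpow_neg, mul_assoc, ← zpow_add, mul_right_inj] at h1
    have := hinj h1
    linarith
  let R : Finset G := Finset.univ.image fun c : G ⧸ Subgroup.zpowers t => c.out⁻¹
  let D : ℕ := (R ×ˢ (S ∪ S.image fun s => s⁻¹)).sup fun a => (h (a.1 * a.2) - h a.1).natAbs
  refine no_infinite_of_line (H := cayGraph S) h (D := D) (fun a b hab => ?_) hfib p hp
  obtain ⟨s, hs, rfl⟩ : ∃ s ∈ S ∪ S.image (fun s => s⁻¹), b = a * s := by
    refine ⟨a⁻¹ * b, ?_, by group⟩
    simp only [cayGraph, SimpleGraph.fromRel_adj] at hab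
    rcases hab.2 with h1 | h1
    · exact mem_union_left _ h1
    · exact mem_union_right _ (mem_image.2 ⟨_, h1, by group⟩)
  obtain ⟨r, hr⟩ : ∃ r, r = (QuotientGroup.mk a⁻¹ : G ⧸ Subgroup.zpowers t).out⁻¹ := ⟨_, rfl⟩
  have ha : a = t ^ (-h a) * r := by
    rw [hr, zpow_neg, ← mul_inv_rev, ← hh a, inv_inv]
  have hrR : r ∈ R := mem_image.2 ⟨_, mem_univ _, hr.symm⟩
  have hle := Finset.le_sup (f := fun a : G × G => (h (a.1 * a.2) - h a.1).natAbs)
    (show (r, s) ∈ R ×ˢ (S ∪ S.image fun s => s⁻¹) from mem_product.2 ⟨hrR, hs⟩)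
  simp only at hle
  calc h (a * s) - h a = h (r * s) - h r := by
        conv_lhs => rw [ha, mul_assoc, hshift, hshift]
        ring
    _ ≤ ((h (r * s) - h r).natAbs : ℤ) := Int.le_natAbs
    _ ≤ (D : ℤ) := by exact_mod_cast hle

/-- A virtually nilpotent group either has a height map or does not percolate below one. -/
theorem nilpotent_alternative [DecidableEq G] (S : Finset G)
    [(cayGraph S).LocallyFinite] (hS : Subgroup.closure (S : Set G) = ⊤) (N : Subgroup G)
    [N.FiniteIndex] [Group.IsNilpotent N] :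
    (∃ (K : Subgroup G) (f : K →* Multiplicative (ℤ × ℤ)), K.FiniteIndex ∧ Function.Surjective f) ∨
      ∀ p : I, (p : ℝ) < 1 → bondMeasure (cayGraph S) p (infExists (cayGraph S)) = 0 := by
  haveI : Group.FG G := Group.fg_iff.2 ⟨_, hS, S.finite_toSet⟩
  rcases squareOrLine_of_virtuallyNilpotent N with h | ⟨t, ht⟩
  · exact Or.inl h
  · exact Or.inr fun p hp => no_infinite_of_zpowers S hS t p hp

end Vale.Agent.P151.Height
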