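import Vale.Agent.P151.Height.Inputs
import Vale.Agent.P151.Growth.Basic

/-!
Elementary facts used by the steering: failures are monotone and submultiplicative, clusters stay
near their shape and fill balls, and walks climb any functional.
-/

open Finset
open scoped unitInterval

namespace Vale.Agent.P151.Height

open Vale.Agent.P165 (cl ball hull edgesAt inEdges cl_subset subset_cl)

variable {W : Type*} [DecidableEq W] {H : SimpleGraph W} [H.LocallyFinite] {G : HeightMap H}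

lemma hitsS_mono {X X' : Set W} {K K' : ℕ} {C C' : Set W} (hX : X ⊆ X') (hK : K' ≤ K)
    (hC : C ⊆ C') (h : HitsS X K C) : HitsS X' K' C' := by
  obtain ⟨Y, a, b, c⟩ := h
  exact ⟨Y, a.trans hX, b.trans hC, hK.trans c⟩

lemma reach_mono (m : ℕ) (c : W) {η η' : Finset (Sym2 W)} (h : η ⊆ η') :
    reach H m c η ⊆ reach H m c η' :=
  P165.cl_mono subset_rfl h

lemma eAt_mono {X X' : Set W} {Λ Λ' : Finset W} (hX : X ⊆ X') (hΛ : Λ ⊆ Λ') :
    eAt H X Λ ⊆ eAt H X' Λ' := by
  classical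
  unfold eAt
  intro e he
  obtain ⟨a, ha, b, hab, rfl⟩ := mem_edgesAt.1 he
  rw [mem_filter] at ha
  exact mem_edgesAt.2 ⟨a, mem_filter.2 ⟨hΛ ha.1, hX ha.2⟩, b, hab, rfl⟩

lemma eAt_adj {X : Set W} {Λ : Finset W} {x y : W} (h : s(x, y) ∈ eAt H X Λ) :
    H.Adj x y ∧ ((x ∈ Λ ∧ x ∈ X) ∨ (y ∈ Λ ∧ y ∈ X)) := by
  classical
  unfold eAt at h
  obtain ⟨a, ha, b, hab, he⟩ := mem_edgesAt.1 h
  rw [mem_filter] at ha
  rcases Sym2.eq_iff.1 he with ⟨rfl, rfl⟩ | ⟨rfl, rfl⟩
  · exact ⟨hab, Or.inl ha⟩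
  · exact ⟨hab.symm, Or.inr ha⟩

lemma eAt_subset (X : Set W) (Λ : Finset W) : ↑(eAt H X Λ) ⊆ H.edgeSet := by
  classical
  unfold eAt
  intro e he
  obtain ⟨a, -, b, hab, rfl⟩ := mem_edgesAt.1 (Finset.mem_coe.1 he)
  exact hab

/-- What is reached inside a shape is trapped or next to a trapped vertex. -/
lemma reach_adj (B : Bounds G) {S : Shape} {M m : ℕ} {c : W} {Λ : Finset W}
    (hc : ↑(ball H c m) ⊆ B.Bl S M) {η : Finset (Sym2 W)} (hη : η ⊆ eAt H (B.Bl S M) Λ) :
    reach H m c η ⊆ {x | x ∈ B.Bl S M ∨ ∃ y ∈ B.Bl S M, H.Adj y x} := by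
  refine cl_subset (fun x hx => Or.inl (hc hx)) fun y z _ hyz => ?_
  obtain ⟨hadj, ⟨-, hy⟩ | ⟨-, hz⟩⟩ := eAt_adj (hη hyz)
  · exact Or.inr ⟨y, hy, hadj⟩
  · exact Or.inl hz

lemma reach_near (B : Bounds G) {S : Shape} {M m : ℕ} {c : W} {Λ : Finset W}
    (hc : ↑(ball H c m) ⊆ B.Bl S M) {η : Finset (Sym2 W)} (hη : η ⊆ eAt H (B.Bl S M) Λ) :
    reach H m c η ⊆ B.Near S := by
  intro x hx
  rcases reach_adj B hc hη hx with h | ⟨y, hy, hyx⟩
  · exact B.bl_subset_near S M h
  · exact B.adj_mem_near S M hy hyx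

/-- What is reached inside a window lies within one step of it. -/
lemma reach_ball {X : Set W} {m R : ℕ} {c : W} (hm : m ≤ R + 1) {η : Finset (Sym2 W)}
    (hη : η ⊆ eAt H X (ball H c R)) : reach H m c η ⊆ ↑(ball H c (R + 1)) := by
  refine cl_subset (Finset.coe_subset.2 (P165.ball_mono c hm)) fun y z _ hyz => ?_
  obtain ⟨hadj, ⟨hy, -⟩ | ⟨hz, -⟩⟩ := eAt_adj (hη hyz)
  · exact P165.ball_adj hy hadj
  · exact P165.ball_mono c (Nat.le_succ R) hz

variable {t : ℝ}

/-- A larger trapped region fails less. -/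
lemma fail_mono_shape (B : Bounds G) (h0 : 0 ≤ t) (h1 : t ≤ 1) {m K : ℕ} {S S' : Shape} {M : ℕ}
    {c : W} {R : ℕ} {X : Set W} (h : B.Bl S M ⊆ B.Bl S' M) :
    fail B t m K S' M c R X ≤ fail B t m K S M c R X := by
  have hT := eAt_mono (H := H) h (subset_refl (ball H c R))
  rw [fail, fail, Fin.pr, Fin.pr, ← Fin.ev_marginal hT]
  refine Fin.ev_mono (fun _ => h0) (fun _ => h1) fun η _ => Fin.ind_mono fun hn hh => hn ?_
  exact hitsS_mono subset_rfl le_rfl (reach_mono m c inter_subset_left) hh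

/-- Fewer requirements fail less, judged on what can be reached. -/
lemma fail_mono (B : Bounds G) (h0 : 0 ≤ t) (h1 : t ≤ 1) {m K K' : ℕ} {S : Shape} {M : ℕ}
    {c : W} {R : ℕ} {X X' : Set W}
    (h : ∀ η, η ⊆ eAt H (B.Bl S M) (ball H c R) → HitsS X K (reach H m c η) →
      HitsS X' K' (reach H m c η)) :
    fail B t m K' S M c R X' ≤ fail B t m K S M c R X :=
  Fin.pr_mono (fun _ => h0) (fun _ => h1) fun η hη hn hh => hn (h η hη hh)

lemma fail_nonneg (B : Bounds G) (h0 : 0 ≤ t) (h1 : t ≤ 1) (m K : ℕ) (S : Shape) (M : ℕ) (c : W)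
    (R : ℕ) (X : Set W) : 0 ≤ fail B t m K S M c R X :=
  Fin.pr_nonneg (fun _ => h0) (fun _ => h1) _

lemma continuous_fail (B : Bounds G) (m K : ℕ) (S : Shape) (M : ℕ) (c : W) (R : ℕ) (X : Set W) :
    Continuous fun t => fail B t m K S M c R X := by
  simp only [fail, Fin.pr_eq_uniform]
  exact continuous_pr _ _

/-- Decreasing events are positively correlated. -/
lemma pr_not_and_ge {α : Type*} [DecidableEq α] {p : α → ℝ} (h0 : ∀ e, 0 ≤ p e)
    (h1 : ∀ e, p e ≤ 1) (U : Finset α) {A B : Finset α → Prop}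
    (hA : ∀ S T, S ⊆ T → A S → A T) (hB : ∀ S T, S ⊆ T → B S → B T) :
    Fin.pr p U (fun S => ¬ A S) * Fin.pr p U (fun S => ¬ B S) ≤
      Fin.pr p U fun S => ¬ A S ∧ ¬ B S := by
  have hand := Fin.pr_and_ge h0 h1 U hA hB
  have hor := Fin.pr_or_and (p := p) (U := U) A B
  have hc := Fin.pr_compl (p := p) (U := U) fun S => A S ∨ B S
  have ha := Fin.pr_compl (p := p) (U := U) A
  have hb := Fin.pr_compl (p := p) (U := U) B
  have e : Fin.pr p U (fun S => ¬ A S ∧ ¬ B S) = Fin.pr p U (fun S => ¬ (A S ∨ B S)) :=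
    Fin.pr_congr fun S _ => not_or.symm
  rw [e]
  rw [show Fin.pr p U (fun S => ¬ A S) = 1 - Fin.pr p U A by linarith,
    show Fin.pr p U (fun S => ¬ B S) = 1 - Fin.pr p U B by linarith,
    show Fin.pr p U (fun S => ¬ (A S ∨ B S)) = 1 - Fin.pr p U (fun S => A S ∨ B S) by linarith]
  nlinarith

lemma hitsS_union {X Y : Set W} {K₁ K₂ : ℕ} {C : Set W} (h : HitsS (X ∪ Y) (K₁ + K₂) C) :
    HitsS X K₁ C ∨ HitsS Y K₂ C := by
  classical
  obtain ⟨Z, hZ, hZC, hK⟩ := h
  have hs := card_filter_add_card_filter_not (s := Z) (fun z => z ∈ X)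
  by_cases h : K₁ ≤ (Z.filter fun z => z ∈ X).card
  · exact Or.inl ⟨_, fun z hz => (mem_filter.1 hz).2,
      fun z hz => hZC (mem_filter.1 hz).1, h⟩
  · refine Or.inr ⟨Z.filter fun z => ¬ z ∈ X, fun z hz => ?_,
      fun z hz => hZC (mem_filter.1 hz).1, by omega⟩
    obtain ⟨hz, hzX⟩ := mem_filter.1 hz
    exact (hZ hz).resolve_left hzX

/-- Failing at each of two exits is at most failing at their union. -/
lemma fail_mul_le (B : Bounds G) (h0 : 0 ≤ t) (h1 : t ≤ 1) {m K₁ K₂ : ℕ} {S : Shape} {M : ℕ}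
    {c : W} {R : ℕ} {X Y : Set W} :
    fail B t m K₁ S M c R X * fail B t m K₂ S M c R Y ≤
      fail B t m (K₁ + K₂) S M c R (X ∪ Y) := by
  refine (pr_not_and_ge (fun _ => h0) (fun _ => h1) _
    (fun η η' h => hitsS_mono subset_rfl le_rfl (reach_mono m c h))
    (fun η η' h => hitsS_mono subset_rfl le_rfl (reach_mono m c h))).trans ?_
  exact Fin.pr_mono (fun _ => h0) (fun _ => h1) fun η _ h hh => (hitsS_union hh).elim h.1 h.2

/-- If the union of the pieces rarely fails then some piece rarely fails. -/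
lemma exists_piece {ι : Type*} (B : Bounds G) (h0 : 0 ≤ t) (h1 : t ≤ 1) {m K : ℕ} {S : Shape}
    {M : ℕ} {c : W} {R : ℕ} (s : Finset ι) (hs : s.Nonempty) (X : ι → Set W) {r : ℝ} (hr : 0 ≤ r)
    (h : fail B t m (s.card * K) S M c R (⋃ i ∈ s, X i) ≤ r ^ s.card) :
    ∃ i ∈ s, fail B t m K S M c R (X i) ≤ r := by
  classical
  have prod : ∀ u : Finset ι, u.Nonempty →
      ∏ i ∈ u, fail B t m K S M c R (X i) ≤ fail B t m (u.card * K) S M c R (⋃ i ∈ u, X i) := by
    intro u hu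
    induction hu using Finset.Nonempty.cons_induction with
    | singleton a => simp
    | cons a u ha hu ih =>
      rw [prod_cons, card_cons, Nat.succ_mul, Nat.add_comm]
      refine (mul_le_mul_of_nonneg_left ih (fail_nonneg B h0 h1 ..)).trans
        ((fail_mul_le B h0 h1).trans (le_of_eq ?_))
      congr 1
      ext x
      simp
  by_contra hno
  push Not at hno
  have hlt : r ^ s.card < ∏ i ∈ s, fail B t m K S M c R (X i) := by
    obtain ⟨j, hj⟩ := hs
    rcases eq_or_lt_of_le hr with h' | h'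
    · subst h'
      rw [zero_pow (card_ne_zero.2 ⟨j, hj⟩)]
      exact prod_pos fun i hi => hno i hi
    · rw [← prod_const]
      exact prod_lt_prod (fun _ _ => h') (fun i hi => (hno i hi).le) ⟨j, hj, hno j hj⟩
  linarith [prod s hs]

/-- A cluster that leaves a ball has many points in it. -/
lemma hits_ball {c : W} {m k : ℕ} (hmk : m ≤ k) {η : Finset (Sym2 W)}
    (hη : ↑η ⊆ H.edgeSet) (h : ¬ reach H m c η ⊆ ↑(ball H c k)) :
    HitsS (↑(ball H c k) : Set W) (k - m) (reach H m c η) := by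
  classical
  have key : ∀ j, m + j ≤ k → ∃ Y : Finset W, ↑Y ⊆ reach H m c η ∧
      Y ⊆ ball H c (m + j) ∧ j ≤ Y.card := by
    intro j
    induction j with
    | zero => exact fun _ => ⟨∅, by simp, by simp, le_rfl⟩
    | succ j ih =>
      intro hj
      obtain ⟨Y, hYC, hYb, hYc⟩ := ih (by omega)
      have hout : ∃ z ∈ reach H m c η, z ∈ ball H c (m + j + 1) ∧ z ∉ ball H c (m + j) := by
        by_contra hno
        push Not at hno
        refine h (fun x hx => Finset.mem_coe.2 (P165.ball_mono c (show m + j ≤ k by omega) ?_))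
        have : reach H m c η ⊆ {x | x ∈ reach H m c η ∧ x ∈ ball H c (m + j)} := by
          refine cl_subset (fun x hx => ⟨subset_cl _ _ hx,
            P165.ball_mono c (by omega) (Finset.mem_coe.1 hx)⟩) fun y z hy hyz => ?_
          have hz : z ∈ reach H m c η := P165.cl_step hy.1 hyz
          exact ⟨hz, hno z hz (P165.ball_adj hy.2 (hη hyz))⟩
        exact (this hx).2
      obtain ⟨z, hzC, hzb, hzn⟩ := hout
      refine ⟨insert z Y, ?_, ?_, ?_⟩
      · rw [coe_insert]; exact Set.insert_subset hzC hYC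
      · exact insert_subset hzb fun y hy => P165.ball_mono c (Nat.le_succ _) (hYb hy)
      · rw [card_insert_of_notMem fun hz => hzn (hYb hz)]; omega
  obtain ⟨Y, hYC, hYb, hYc⟩ := key (k - m) (by omega)
  refine ⟨Y, fun y hy => ?_, hYC, hYc⟩
  have := hYb (Finset.mem_coe.1 hy)
  rwa [Nat.add_sub_cancel' hmk] at this

/-- Walks of length `k ℓ₀` climb a functional by at least `k nrm u / 2`. -/
lemma exists_rise (B : Bounds G) (u : ℤ × ℤ) (x : W) (k : ℕ) :
    ∃ z, ∃ w : H.Walk x z, w.length ≤ k * B.ℓ₀ ∧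
      2 * G.ht u x + k * nrm u ≤ 2 * G.ht u z := by
  obtain ⟨v, hv, hgain⟩ : ∃ v : ℤ × ℤ, |v.1| + |v.2| = 1 ∧ nrm u ≤ 2 * dot u v := by
    rcases le_total |u.2| |u.1| with h | h
    · rcases le_total 0 u.1 with h' | h'
      · refine ⟨(1, 0), by simp, ?_⟩; simp [dot, nrm]; rw [abs_of_nonneg h'] at h ⊢; linarith
      · refine ⟨(-1, 0), by simp, ?_⟩; simp [dot, nrm]; rw [abs_of_nonpos h'] at h ⊢; linarith
    · rcases le_total 0 u.2 with h' | h'
      · refine ⟨(0, 1), by simp, ?_⟩; simp [dot, nrm]; rw [abs_of_nonneg h'] at h ⊢; linarith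
      · refine ⟨(0, -1), by simp, ?_⟩; simp [dot, nrm]; rw [abs_of_nonpos h'] at h ⊢; linarith
  induction k with
  | zero => exact ⟨x, .nil, by simp, by simp⟩
  | succ k ih =>
    obtain ⟨y, w, hw, hy⟩ := ih
    obtain ⟨z, w', hw', hz⟩ := B.step y v hv
    refine ⟨z, w.append w', ?_, ?_⟩
    · rw [SimpleGraph.Walk.length_append, Nat.succ_mul]; omega
    · have : G.ht u z = G.ht u y + dot u v := by
        simp only [HeightMap.ht, hz, dot, Prod.fst_add, Prod.snd_add]; ring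
      push_cast
      linarith

end Vale.Agent.P151.Height
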