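import Vale.Agent.P151.Height.SteerBasic

/-!
Sheared parallelograms and the thin strip: a narrow strip is left through its long sides.
-/

open Finset
open scoped unitInterval

namespace Vale.Agent.P151.Height

open Vale.Agent.P165 (cl ball hull edgesAt inEdges)

variable {W : Type*} [DecidableEq W] {H : SimpleGraph W} [H.LocallyFinite] {G : HeightMap H}

/-- The end of a parallelogram on the side `s`. -/
def endK (n : ℕ) (s : ℤˣ) : Cons := (((s : ℤ), 0), (n : ℤ))

/-- The long side of a parallelogram. -/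
def sideK (n : ℕ) (j : ℤ) (b : ℕ) (s : ℤˣ) : Cons :=
  ((-((s : ℤ) * j), (s : ℤ) * n), (n : ℤ) * b)

/-- The parallelogram `|x| ≤ n`, `|n y - j x| ≤ n b`. -/
def para (n : ℕ) (j : ℤ) (b : ℕ) : Shape :=
  [endK n 1, endK n (-1), sideK n j b 1, sideK n j b (-1)]

lemma unit_cases (s : ℤˣ) : (s : ℤ) = 1 ∨ (s : ℤ) = -1 := by
  rcases Int.units_eq_one_or s with rfl | rfl <;> simp

lemma abs_le_of_units {a b : ℤ} (h : ∀ s : ℤˣ, (s : ℤ) * a ≤ b) : |a| ≤ b := by
  have h1 := h 1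
  have h2 := h (-1)
  simp at h1 h2
  exact abs_le.2 ⟨by linarith, h1⟩

lemma endK_mem (n : ℕ) (j : ℤ) (b : ℕ) (s : ℤˣ) : endK n s ∈ para n j b := by
  rcases Int.units_eq_one_or s with rfl | rfl <;> simp [para]

lemma sideK_mem (n : ℕ) (j : ℤ) (b : ℕ) (s : ℤˣ) : sideK n j b s ∈ para n j b := by
  rcases Int.units_eq_one_or s with rfl | rfl <;> simp [para]

lemma nrm_endK (n : ℕ) (s : ℤˣ) : nrm (endK n s).1 = 1 := by
  rcases Int.units_eq_one_or s with rfl | rfl <;> simp [endK, nrm]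

lemma nrm_sideK (n : ℕ) (j : ℤ) (b : ℕ) (s : ℤˣ) : nrm (sideK n j b s).1 = |j| + n := by
  rcases Int.units_eq_one_or s with rfl | rfl <;> simp [sideK, nrm]

/-- The horizontal height. -/
def hX (G : HeightMap H) (x : W) : ℤ := (G.π x).1

/-- The sheared height. -/
def hV (G : HeightMap H) (n : ℕ) (j : ℤ) (x : W) : ℤ := n * (G.π x).2 - j * (G.π x).1

omit [DecidableEq W] [H.LocallyFinite] in
lemma ht_endK (n : ℕ) (s : ℤˣ) (x : W) : G.ht (endK n s).1 x = (s : ℤ) * hX G x := by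
  simp [endK, HeightMap.ht, dot, hX]

omit [DecidableEq W] [H.LocallyFinite] in
lemma ht_sideK (n : ℕ) (j : ℤ) (b : ℕ) (s : ℤˣ) (x : W) :
    G.ht (sideK n j b s).1 x = (s : ℤ) * hV G n j x := by
  simp [sideK, HeightMap.ht, dot, hV]
  ring

lemma mem_near_para (B : Bounds G) {n b : ℕ} {j : ℤ} {x : W} (h : x ∈ B.Near (para n j b)) :
    |hX G x| ≤ n + (B.c₀ + B.D₀) ∧
      |hV G n j x| ≤ n * b + (B.c₀ + B.D₀) * (|j| + n) := by
  refine ⟨abs_le_of_units fun s => ?_, abs_le_of_units fun s => ?_⟩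
  · have := h _ (endK_mem n j b s)
    rw [ht_endK, nrm_endK, mul_one] at this
    simpa [endK] using this
  · have := h _ (sideK_mem n j b s)
    rw [ht_sideK, nrm_sideK] at this
    simpa [sideK] using this

lemma mem_bl_para (B : Bounds G) {n b M : ℕ} {j : ℤ} {x : W} :
    x ∈ B.Bl (para n j b) M ↔
      ∀ s : ℤˣ, x ∉ B.Out (endK n s) M ∧ x ∉ B.Out (sideK n j b s) M := by
  constructor
  · exact fun h s => ⟨h _ (endK_mem n j b s), h _ (sideK_mem n j b s)⟩
  · intro h k hk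
    simp only [para, List.mem_cons, List.not_mem_nil, or_false] at hk
    rcases hk with rfl | rfl | rfl | rfl
    exacts [(h 1).1, (h (-1)).1, (h 1).2, (h (-1)).2]

lemma bl_para_of_le (B : Bounds G) {n b M : ℕ} {j : ℤ} {x : W} (h1 : |hX G x| ≤ n)
    (h2 : |hV G n j x| ≤ n * b) : x ∈ B.Bl (para n j b) M := by
  refine (mem_bl_para B).2 fun s => ⟨fun h => ?_, fun h => ?_⟩
  · have := B.out_gt h
    rw [ht_endK] at this
    rcases unit_cases s with e | e <;> rw [e] at this <;> simp [endK] at this <;>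
      cases abs_le.1 h1 <;> linarith
  · have := B.out_gt h
    rw [ht_sideK] at this
    rcases unit_cases s with e | e <;> rw [e] at this <;> simp [sideK] at this <;>
      cases abs_le.1 h2 <;> linarith

lemma bl_para_mono (B : Bounds G) {n b b' M : ℕ} {j : ℤ} (h : b ≤ b') :
    B.Bl (para n j b) M ⊆ B.Bl (para n j b') M := by
  intro x hx
  refine (mem_bl_para B).2 fun s => ⟨((mem_bl_para B).1 hx s).1, fun hs => ?_⟩
  refine ((mem_bl_para B).1 hx s).2 ?_
  exact B.out_anti (u := (sideK n j b s).1) (by gcongr) hs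

/-- The two ends. -/
def endSet (B : Bounds G) (n M : ℕ) : Set W := {x | ∃ s : ℤˣ, x ∈ B.Out (endK n s) M}

/-- The two long sides. -/
def sideSet (B : Bounds G) (n : ℕ) (j : ℤ) (b M : ℕ) : Set W :=
  {x | ∃ s : ℤˣ, x ∈ B.Out (sideK n j b s) M}

lemma exit_para (B : Bounds G) (n : ℕ) (j : ℤ) (b M : ℕ) :
    exit B (para n j b) M = endSet B n M ∪ sideSet B n j b M := by
  ext x
  simp only [exit, Set.mem_compl_iff, mem_bl_para, endSet, sideSet, Set.mem_union,
    Set.mem_ofPred_eq, not_forall, not_and_or, not_not]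
  exact exists_or

/-- A shape with both ends has short walks out of it. -/
lemma walk_out_para (B : Bounds G) (n : ℕ) {j : ℤ} {b : ℕ} {x : W}
    (hx : x ∈ B.Near (para n j b)) :
    ∃ z, z ∉ B.Near (para n j b) ∧
      ∃ w : H.Walk x z, w.length ≤ (4 * (n + B.c₀ + B.D₀) + 1) * B.ℓ₀ := by
  obtain ⟨z, w, hw, hz⟩ := exists_rise B (1, 0) x (4 * (n + B.c₀ + B.D₀) + 1)
  refine ⟨z, fun hN => ?_, w, hw⟩
  have h1 := abs_le.1 (mem_near_para B hx).1
  have h2 := abs_le.1 (mem_near_para B hN).1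
  simp [HeightMap.ht, dot, nrm] at hz
  simp [hX] at h1 h2
  push_cast at hz
  linarith

/-- A long thin strip is left through many points of its long sides. -/
lemma thin_side (B : Bounds G) {p : ℝ} (hp0 : 0 < p) (hp1 : p < 1) (m : ℕ) (K B₀ : ℕ) {η : ℝ}
    (hη : 0 < η) :
    ∃ N₀, ∀ n, N₀ ≤ n → ∀ (M : ℕ) (j : ℤ) (b R : ℕ), N₀ ≤ R → n ≤ R →
      ↑(ball H G.o (m + 1)) ⊆ B.Bl (para n j b) M → (n : ℤ) * b ≤ B₀ * (|j| + n) →
      Fin.pr (fun _ => p) (eAt H (B.Bl (para n j b) M) (ball H G.o R)) (fun ω =>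
        ¬ HitsS (sideSet B n j b M) K (reach H m G.o ω) ∧
          HitsS (endSet B n M) 1 (reach H m G.o ω)) ≤ η := by
  classical
  set D := (4 * (B₀ + B.c₀ + B.D₀) + 1) * B.ℓ₀ with hD
  set cst : ℝ := (D + 1) * (B.Δ + 1 : ℝ) ^ (D + 2)
  have hq : 0 < (1 - p) ^ (B.Δ * K) := pow_pos (by linarith) _
  have hpD : 0 < p ^ (D + 1) := pow_pos hp0 _
  obtain ⟨Nk, hNk⟩ := exists_nat_gt (cst / (η * ((1 - p) ^ (B.Δ * K) * p ^ (D + 1))))
  set k := Nk + m with hk
  refine ⟨4 * ((k + D + 2) * B.D₀) + 4 * (k + D + 2), fun n hn M j b R hR hnR hin hb => ?_⟩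
  set S := para n j b
  set T := eAt H (B.Bl S M) (ball H G.o R)
  set Z : Set W := {x | (n : ℤ) * b + (B.c₀ + B.D₀) * (|j| + n) < |hV G n j x|}
  set Y := ball H G.o k
  set Bx := (ball H G.o R).filter fun x => 4 * |hX G x| ≤ 3 * n
  set U := T ∪ inEdges H Bx
  set Cap := (ball H G.o R).filter fun x => x ∈ sideSet B n j b M
  have h0 : ∀ (e : Sym2 W), (0 : ℝ) ≤ (fun _ => p) e := fun _ => hp0.le
  have h1 : ∀ (e : Sym2 W), (fun _ => p) e ≤ 1 := fun _ => hp1.le
  have hm1 : ↑(ball H G.o m) ⊆ B.Bl S M :=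
    (Finset.coe_subset.2 (P165.ball_mono G.o (Nat.le_succ m))).trans hin
  have hD0 : 1 ≤ B.D₀ := B.D₀_pos
  have hball : ∀ x r, r ≤ k + D → x ∈ ball H G.o r → 4 * |hX G x| ≤ 3 * n := by
    intro x r hr hx
    have := ht_ball B (1, 0) hx
    simp [HeightMap.ht, dot, nrm, G.π_o] at this
    simp only [hX]
    have hr' : (r : ℤ) * B.D₀ ≤ (k + D + 2 : ℕ) * B.D₀ := by
      gcongr; omega
    have : (4 * ((k + D + 2) * B.D₀) : ℕ) ≤ (n : ℤ) := by exact_mod_cast by omega
    push_cast at *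
    linarith
  have hY : ∀ y ∈ Y, ∃ z ∈ Z, ∃ w : H.Walk y z, w.length ≤ D ∧ ∀ e ∈ w.edges, e ∈ U := by
    intro y hy
    set u : ℤ × ℤ := if 0 ≤ hV G n j y then (-j, (n : ℤ)) else (j, -(n : ℤ))
    obtain ⟨z, w, hw, hz⟩ := exists_rise B u y (4 * (B₀ + B.c₀ + B.D₀) + 1)
    refine ⟨z, ?_, w, hw, fun e he => ?_⟩
    · have hj0 : 0 < |j| + (n : ℤ) := by
        have : 0 < n := by omega
        positivity
      have hb0 : (0 : ℤ) ≤ (n : ℤ) * b := by positivity
      simp only [Z, Set.mem_ofPred_eq]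
      by_cases hv : 0 ≤ hV G n j y
      · simp only [u, if_pos hv, HeightMap.ht, dot, nrm, hV, abs_neg, Nat.abs_cast] at hz hv ⊢
        push_cast at hz
        exact lt_of_lt_of_le (by nlinarith) (le_abs_self _)
      · simp only [u, if_neg hv, HeightMap.ht, dot, nrm, hV, abs_neg, Nat.abs_cast] at hz hv ⊢
        push_cast at hz
        exact lt_of_lt_of_le (by nlinarith [not_le.1 hv]) (neg_le_abs _)
    · induction e using Sym2.ind with
      | h a c =>
        have hsup : ∀ v ∈ w.support, v ∈ Bx := fun v hv => by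
          have hvb : v ∈ ball H G.o (k + D) := by
            refine (Growth.ball_add G.o k D v).2 ⟨y, hy, Growth.ball_symm ?_⟩
            exact P165.mem_ball_of_walk (w.takeUntil v hv)
              ((w.length_takeUntil_le_length hv).trans hw)
          exact mem_filter.2 ⟨P165.ball_mono G.o (show k + D ≤ R by omega) hvb,
            hball v _ le_rfl hvb⟩
        exact mem_union_right _ (P165.mem_inEdges.2 ⟨w.adj_of_mem_edges he,
          hsup a (w.fst_mem_support_of_mem_edges he), hsup c (w.snd_mem_support_of_mem_edges he)⟩)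
  have hcap : ∀ v, (v ∈ (↑(ball H G.o m) : Set W) ∨ ∃ e ∈ T, v ∈ e) → ∀ e ∈ U, e ∉ T → v ∈ e →
      v ∈ Cap := by
    intro v _ e he heT hve
    have heB : e ∈ inEdges H Bx := (mem_union.1 he).resolve_left heT
    obtain ⟨c, rfl⟩ := Sym2.mem_iff_exists.1 hve
    obtain ⟨hadj, hv, -⟩ := P165.mem_inEdges.1 heB
    obtain ⟨hvR, hvx⟩ := mem_filter.1 hv
    refine mem_filter.2 ⟨hvR, ?_⟩
    have hnb : v ∉ B.Bl S M := fun h => heT (mem_edgesAt.2
      ⟨v, mem_filter.2 ⟨hvR, h⟩, c, hadj, rfl⟩)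
    simp only [S, mem_bl_para, not_forall, not_and_or, not_not] at hnb
    obtain ⟨s, hs | hs⟩ := hnb
    · exfalso
      have := B.out_gt hs
      rw [ht_endK] at this
      cases abs_le.1 (show |hX G v| ≤ n by linarith [abs_nonneg (hX G v)])
      rcases unit_cases s with e | e <;> rw [e] at this <;> simp [endK] at this <;> linarith
    · exact ⟨s, hs⟩
  have hclose := close_le (S := (↑(ball H G.o m) : Set W)) hp0.le hp1.le B.deg
    (subset_union_left : T ⊆ U)
    (fun e he => by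
      rcases mem_union.1 (Finset.mem_coe.1 he) with h | h
      · exact eAt_subset _ _ h
      · exact P165.inEdges_edge _ h) Cap K hcap
    (fun ω => HitsS (endSet B n M) 1 (reach H m G.o ω))
  have hmain : Fin.pr (fun _ => p) U (fun ω => HitsS (endSet B n M) 1 (reach H m G.o (ω ∩ T)) ∧
      ¬ HitsS ↑Cap K (cl (↑(ball H G.o m) : Set W) (ω ∩ T)) ∧
      cl (↑(ball H G.o m) : Set W) ω = cl (↑(ball H G.o m) : Set W) (ω ∩ T) ∧
      ∀ e ∈ ω, e ∉ T → ∀ v ∈ e, v ∉ cl (↑(ball H G.o m) : Set W) (ω ∩ T)) ≤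
      Fin.pr (fun _ => p) U (fun ω => Disjoint (cl (↑(ball H G.o m) : Set W) ω) Z ∧
        HitsS (↑Y : Set W) Nk (cl (↑(ball H G.o m) : Set W) ω)) := by
    refine Fin.pr_mono h0 h1 fun ω _ hh => ?_
    obtain ⟨hend, -, heq, -⟩ := hh
    rw [heq]
    refine ⟨Set.disjoint_left.2 fun x hx hxZ => ?_, ?_⟩
    · exact absurd (mem_near_para B (reach_near B hm1 inter_subset_right hx)).2 (not_le.2 hxZ)
    · have hout : ¬ reach H m G.o (ω ∩ T) ⊆ ↑(ball H G.o k) := fun hsub => by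
        obtain ⟨Y', hY', hYC, hY1⟩ := hend
        obtain ⟨x, hx⟩ := card_pos.1 hY1
        obtain ⟨s, hs⟩ := hY' hx
        have := B.out_gt hs
        rw [ht_endK] at this
        have h4 := hball x k (by omega) (Finset.mem_coe.1 (hsub (hYC hx)))
        cases abs_le.1 (show |hX G x| ≤ n by linarith [abs_nonneg (hX G x)])
        rcases unit_cases s with e | e <;> rw [e] at this <;> simp [endK] at this <;> linarith
      have := hits_ball (show m ≤ k by omega) (fun e he => eAt_subset _ _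
        (Finset.mem_coe.2 (inter_subset_right (Finset.mem_coe.1 he)))) hout
      simpa [hk, reach, Y] using this
  have hconf := confine hp0.le hp1.le B.deg (U := U) (↑(ball H G.o m) : Set W) Z Y hY Nk
  have hmono : Fin.pr (fun _ => p) T (fun ω => ¬ HitsS (sideSet B n j b M) K (reach H m G.o ω) ∧
      HitsS (endSet B n M) 1 (reach H m G.o ω)) ≤
      Fin.pr (fun _ => p) T (fun ω => HitsS (endSet B n M) 1 (reach H m G.o ω) ∧
        ¬ HitsS ↑Cap K (cl (↑(ball H G.o m) : Set W) ω)) := by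
    refine Fin.pr_mono h0 h1 fun ω _ hh => ⟨hh.2, fun h => hh.1 ?_⟩
    exact hitsS_mono (fun x hx => (mem_filter.1 (Finset.mem_coe.1 hx)).2) le_rfl subset_rfl h
  have hNk0 : (0 : ℝ) < Nk := lt_of_le_of_lt (by positivity) hNk
  rw [div_lt_iff₀ (by positivity)] at hNk
  set P := Fin.pr (fun _ => p) T (fun ω => ¬ HitsS (sideSet B n j b M) K (reach H m G.o ω) ∧
    HitsS (endSet B n M) 1 (reach H m G.o ω))
  have : P * ((1 - p) ^ (B.Δ * K) * (p ^ (D + 1) * Nk)) ≤ cst := by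
    calc P * ((1 - p) ^ (B.Δ * K) * (p ^ (D + 1) * Nk))
        = P * (1 - p) ^ (B.Δ * K) * (p ^ (D + 1) * Nk) := by ring
      _ ≤ _ := mul_le_mul_of_nonneg_right
        (((mul_le_mul_of_nonneg_right hmono hq.le).trans hclose).trans hmain) (by positivity)
      _ ≤ cst := hconf
  by_contra hcon
  push Not at hcon
  have hpos : 0 < (1 - p) ^ (B.Δ * K) * (p ^ (D + 1) * Nk) := by positivity
  nlinarith [mul_lt_mul_of_pos_right hcon hpos]

end Vale.Agent.P151.Height
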