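import Vale.Agent.P151.Height.SteerShapes

/-!
The geometry of the two hops built from the narrowest parallelogram with good ends.
-/

open Finset

namespace Vale.Agent.P151.Height

open Vale.Agent.P165 (ball)

variable {W : Type*} [DecidableEq W] {H : SimpleGraph W} [H.LocallyFinite] {G : HeightMap H}

/-- The data of a steering. -/
structure Pick where
  /-- radius of the seeds -/
  M : ℕ
  /-- half length -/
  n : ℕ
  /-- window radius -/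
  R : ℕ
  /-- least slope -/
  j₀ : ℤ
  /-- least width -/
  b₀ : ℕ
  /-- width of the second hop -/
  b₁ : ℕ
  /-- width of the first shape -/
  b₂ : ℕ
  /-- the end of the first hop -/
  sA : ℤˣ
  /-- the piece of the end -/
  i : ℤ
  /-- the side of the second hop -/
  sB : ℤˣ

namespace Pick

variable (P : Pick)

/-- The shift of the slope. -/
def μ : ℤ := P.i * P.b₀ / 8

/-- The slope through the good piece. -/
def j₁ : ℤ := P.j₀ + (P.sA : ℤ) * P.μ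

/-- The exit piece of the first hop. -/
def endPiece : Piece :=
  ⟨endK P.n P.sA, (-(8 * P.j₀), 8 * (P.n : ℤ)), (P.i - 1) * (P.n * P.b₀),
    (P.i + 1) * (P.n * P.b₀)⟩

/-- The steering given by the data. -/
def steer : Steer where
  M := P.M
  N := P.n * P.b₀
  R := P.R
  wF := ((P.sA : ℤ) * P.b₀ - 2 * (P.sB : ℤ) * P.j₁, 2 * (P.sB : ℤ) * P.n)
  zF := (-((P.sA : ℤ) * P.b₀) - 2 * (P.sB : ℤ) * P.j₁, 2 * (P.sB : ℤ) * P.n)
  shA := para P.n P.j₀ P.b₀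
  shB := para P.n P.j₁ P.b₁
  sh0 := para P.n P.j₁ P.b₂
  pA := P.endPiece
  pB := ⟨sideK P.n P.j₁ P.b₁ P.sB, 0, 0, 0⟩

/-- The sizes needed for the geometry. -/
structure Fits (B : Bounds G) (C B₀ : ℕ) : Prop where
  hC : 100 * (C + 1) * (B.D₀ + 1) ≤ B₀
  hc : 100 * (B.c₀ + B.D₀ + 1) ≤ B₀
  hn : 100 * B₀ ≤ P.n
  hR : C ≤ P.R
  h0 : (B₀ : ℤ) * (|P.j₀| + P.n) ≤ P.n * P.b₀
  h1 : (B₀ : ℤ) * (|P.j₁| + P.n) ≤ P.n * P.b₁
  hi : |P.i| ≤ 8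
  h01 : P.b₀ ≤ P.b₁ + 1
  h12 : P.b₁ ≤ P.b₂
  h2 : 4 * P.b₂ ≤ 9 * P.b₀

variable {P}

lemma abs_μ (hi : |P.i| ≤ 8) :
    |P.μ| ≤ P.b₀ + 1 ∧ |8 * P.μ - P.i * P.b₀| ≤ 8 := by
  have h1 : 8 * P.μ ≤ P.i * P.b₀ := by
    have := Int.ediv_mul_le (P.i * P.b₀) (b := 8) (by norm_num)
    rw [μ]; linarith
  have h2 : P.i * P.b₀ < 8 * P.μ + 8 := by
    have := Int.lt_ediv_add_one_mul_self (P.i * P.b₀) (b := 8) (by norm_num)
    rw [μ]; linarith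
  obtain ⟨a, b⟩ := abs_le.1 hi
  have hb : (0 : ℤ) ≤ P.b₀ := Int.natCast_nonneg _
  exact ⟨abs_le.2 ⟨by nlinarith, by nlinarith⟩, abs_le.2 ⟨by linarith, by linarith⟩⟩

lemma hV_j₁ (x : W) :
    hV G P.n P.j₁ x = hV G P.n P.j₀ x - (P.sA : ℤ) * P.μ * hX G x := by
  simp [hV, hX, j₁]; ring

lemma ht_wF (x : W) : G.ht P.steer.wF x
    = (P.sA : ℤ) * P.b₀ * hX G x + 2 * (P.sB : ℤ) * hV G P.n P.j₁ x := by
  simp [steer, HeightMap.ht, dot, hV, hX]; ring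

lemma ht_zF (x : W) : G.ht P.steer.zF x
    = -((P.sA : ℤ) * P.b₀ * hX G x) + 2 * (P.sB : ℤ) * hV G P.n P.j₁ x := by
  simp [steer, HeightMap.ht, dot, hV, hX]; ring

lemma abs_unit_mul (s : ℤˣ) (a : ℤ) : |(s : ℤ) * a| = |a| := by
  rw [abs_mul]; rcases unit_cases s with h | h <;> simp [h]

variable {B : Bounds G} {C B₀ : ℕ}

/-- The numerical facts used by the geometry. -/
structure Nums (P : Pick) (B : Bounds G) (C B₀ : ℕ) : Prop where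
  npos : (0 : ℤ) < P.n
  bbig : (100 : ℤ) ≤ P.b₀
  cb : 100 * ((B.c₀ : ℤ) + B.D₀) * P.b₀ ≤ P.n * P.b₀
  cj : 100 * ((B.c₀ : ℤ) + B.D₀) * (|P.j₀| + P.n) ≤ P.n * P.b₀
  cj1 : 100 * ((B.c₀ : ℤ) + B.D₀) * (|P.j₁| + P.n) ≤ 3 * ((P.n : ℤ) * P.b₀)
  nb : 100 * (P.n : ℤ) ≤ P.n * P.b₀
  b1lo : (P.n : ℤ) * P.b₀ - P.n ≤ P.n * P.b₁
  b1hi : 4 * ((P.n : ℤ) * P.b₁) ≤ 9 * ((P.n : ℤ) * P.b₀)
  b2hi : 4 * ((P.n : ℤ) * P.b₂) ≤ 9 * ((P.n : ℤ) * P.b₀)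
  slack : (C : ℤ) * (P.b₀ + 2 * (|P.j₁| + P.n)) ≤ P.n * P.b₀
  CD : (C : ℤ) * B.D₀ ≤ B₀
  CDn : (C : ℤ) * B.D₀ ≤ P.n

lemma nums (F : P.Fits B C B₀) : P.Nums B C B₀ := by
  obtain ⟨hC, hc, hn, hR, h0, h1, hi, h01, h12, h2⟩ := F
  obtain ⟨hμ, -⟩ := abs_μ (P := P) hi
  have Bz : 100 * ((B.c₀ : ℤ) + B.D₀ + 1) ≤ (B₀ : ℤ) := by exact_mod_cast hc
  have Cz : 100 * ((C : ℤ) + 1) * ((B.D₀ : ℤ) + 1) ≤ B₀ := by exact_mod_cast hC
  have nz : 100 * (B₀ : ℤ) ≤ P.n := by exact_mod_cast hn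
  have hc0 : (0 : ℤ) ≤ (B.c₀ : ℤ) + B.D₀ := by positivity
  have hn0 : (0 : ℤ) < P.n := by linarith
  have hjn : (P.n : ℤ) ≤ |P.j₀| + P.n := le_add_of_nonneg_left (abs_nonneg _)
  have hb0 : (0 : ℤ) ≤ P.b₀ := Int.natCast_nonneg _
  have b_big : (B₀ : ℤ) ≤ P.b₀ := by
    refine le_of_mul_le_mul_right ?_ hn0
    linarith [(mul_le_mul_of_nonneg_left hjn (Int.natCast_nonneg B₀)).trans h0]
  have hj1 : |P.j₁| ≤ |P.j₀| + (P.b₀ + 1) := by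
    have h : |P.j₁| ≤ |P.j₀| + |(P.sA : ℤ) * P.μ| := abs_add_le _ _
    rw [abs_mul] at h
    rcases unit_cases P.sA with e | e <;> simp [e] at h <;> linarith
  have c3 : 100 * ((C : ℤ) + 1) ≤ B₀ := by
    refine le_trans ?_ Cz
    exact le_mul_of_one_le_right (by positivity) (by linarith [Int.natCast_nonneg B.D₀])
  have scale : ∀ a : ℤ, 0 ≤ a → 100 * a ≤ B₀ →
      100 * a * P.b₀ ≤ P.n * P.b₀ ∧ 100 * a * (|P.j₀| + P.n) ≤ P.n * P.b₀ ∧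
      100 * a * (|P.j₁| + P.n) ≤ 3 * ((P.n : ℤ) * P.b₀) := by
    intro a ha haB
    have s1 : 100 * a * (|P.j₀| + P.n) ≤ P.n * P.b₀ :=
      (mul_le_mul_of_nonneg_right haB (by linarith)).trans h0
    have s2 : 100 * a * P.b₀ ≤ P.n * P.b₀ := mul_le_mul_of_nonneg_right (by linarith) hb0
    have s3 : 100 * a * (|P.j₁| + P.n) ≤ 100 * a * (|P.j₀| + P.n + (P.b₀ + 1)) :=
      mul_le_mul_of_nonneg_left (by linarith) (by linarith)
    have s4 : 100 * a * 1 ≤ 100 * a * P.b₀ :=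
      mul_le_mul_of_nonneg_left (by linarith) (by linarith)
    exact ⟨s2, s1, by linarith⟩
  obtain ⟨k1, k2, k3⟩ := scale _ hc0 (by linarith)
  obtain ⟨l1, -, l3⟩ := scale (C : ℤ) (Int.natCast_nonneg _) (by linarith)
  have hCD : (C : ℤ) * B.D₀ ≤ B₀ := by
    have : (C : ℤ) * B.D₀ ≤ ((C : ℤ) + 1) * ((B.D₀ : ℤ) + 1) :=
      mul_le_mul (by linarith) (by linarith) (by positivity) (by positivity)
    have : (0 : ℤ) ≤ ((C : ℤ) + 1) * ((B.D₀ : ℤ) + 1) := by positivity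
    linarith
  refine ⟨hn0, by linarith, k1, k2, k3, ?_, ?_, ?_, ?_, ?_, hCD, by linarith⟩
  · linarith [mul_le_mul_of_nonneg_left (show (100 : ℤ) ≤ P.b₀ by linarith) hn0.le]
  · have : (P.b₀ : ℤ) ≤ P.b₁ + 1 := by exact_mod_cast h01
    linarith [mul_le_mul_of_nonneg_left this hn0.le]
  · have : 4 * (P.b₁ : ℤ) ≤ 9 * P.b₀ := by exact_mod_cast (by omega : 4 * P.b₁ ≤ 9 * P.b₀)
    linarith [mul_le_mul_of_nonneg_left this hn0.le]
  · have : 4 * (P.b₂ : ℤ) ≤ 9 * P.b₀ := by exact_mod_cast h2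
    linarith [mul_le_mul_of_nonneg_left this hn0.le]
  · linarith [mul_nonneg hn0.le hb0]

lemma N_cast : ((P.steer.N : ℕ) : ℤ) = (P.n : ℤ) * P.b₀ := by simp [steer]

lemma abs_hX_le {x : W} {a : ℤ} (h : |hX G x| ≤ P.n + a) :
    |(P.sA : ℤ) * P.b₀ * hX G x| ≤ P.n * P.b₀ + a * P.b₀ := by
  rw [mul_assoc, abs_mul, abs_mul]
  have : |(P.sA : ℤ)| = 1 := by rcases unit_cases P.sA with e | e <;> simp [e]
  rw [this, one_mul, abs_of_nonneg (Int.natCast_nonneg _)]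
  linarith [mul_le_mul_of_nonneg_left h (Int.natCast_nonneg P.b₀)]

lemma abs_sB (a : ℤ) : |2 * (P.sB : ℤ) * a| = 2 * |a| := by
  rcases unit_cases P.sB with e | e <;> simp [e, abs_mul]

lemma slack_le (N : P.Nums B C B₀) :
    (C : ℤ) * nrm P.steer.wF ≤ P.steer.N ∧ (C : ℤ) * nrm P.steer.zF ≤ P.steer.N := by
  have e1 : |(P.sA : ℤ) * P.b₀| = P.b₀ := by rw [abs_unit_mul]; simp
  have e2 := abs_sB (P := P) P.j₁
  have e3 : |2 * (P.sB : ℤ) * P.n| = 2 * P.n := by rw [abs_sB]; simp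
  rw [N_cast]
  constructor <;> refine le_trans (mul_le_mul_of_nonneg_left ?_ (Int.natCast_nonneg _)) N.slack <;>
    simp only [nrm, steer]
  · linarith [abs_sub ((P.sA : ℤ) * P.b₀) (2 * (P.sB : ℤ) * P.j₁)]
  · have := abs_sub (-((P.sA : ℤ) * P.b₀)) (2 * (P.sB : ℤ) * P.j₁)
    rw [abs_neg] at this
    linarith

lemma inner_le (F : P.Fits B C B₀) (N : P.Nums B C B₀) :
    ∀ S ∈ [P.steer.shA, P.steer.shB, P.steer.sh0], ↑(ball H G.o C) ⊆ B.Bl S P.steer.M := by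
  intro S hS x hx
  have hx1 := ht_ball B (1, 0) (Finset.mem_coe.1 hx)
  have gen : ∀ (jj : ℤ) (bb : ℕ), (B₀ : ℤ) * (|jj| + P.n) ≤ P.n * bb →
      x ∈ B.Bl (para P.n jj bb) P.steer.M := by
    intro jj bb hbb
    have hV' := ht_ball B (-jj, (P.n : ℤ)) (Finset.mem_coe.1 hx)
    simp [HeightMap.ht, dot, nrm, G.π_o] at hx1 hV'
    refine bl_para_of_le B ?_ (le_trans ?_ hbb)
    · simp only [hX]; linarith [N.CDn]
    · refine le_trans (le_of_eq_of_le ?_ hV')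
        (mul_le_mul_of_nonneg_right N.CD (add_nonneg (abs_nonneg _) (Int.natCast_nonneg _)))
      congr 1
      simp [hV]; ring
  simp only [steer, List.mem_cons, List.not_mem_nil, or_false] at hS
  rcases hS with rfl | rfl | rfl
  · exact gen _ _ F.h0
  · exact gen _ _ F.h1
  · exact gen _ _ (F.h1.trans
      (mul_le_mul_of_nonneg_left (by exact_mod_cast F.h12) (Int.natCast_nonneg _)))

lemma region_le (F : P.Fits B C B₀) (N : P.Nums B C B₀) :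
    ∀ S ∈ [P.steer.shA, P.steer.shB, P.steer.sh0], ∀ x ∈ B.Bl S P.steer.M,
      |G.ht P.steer.wF x| ≤ 7 * P.steer.N ∧ |G.ht P.steer.zF x| ≤ 7 * P.steer.N := by
  intro S hS x hx
  obtain ⟨hn0, hb100, k1, k2, k3, k4, -, b1hi, b2hi, -, -, -⟩ := N
  have hN : x ∈ B.Near S := B.bl_subset_near S _ hx
  rw [N_cast, ht_wF, ht_zF]
  have hc0 : (0 : ℤ) ≤ (B.c₀ : ℤ) + B.D₀ := by positivity
  have hnb : (0 : ℤ) ≤ (P.n : ℤ) * P.b₀ := by positivity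
  have hv : |hX G x| ≤ P.n + ((B.c₀ : ℤ) + B.D₀) ∧
      4 * |hV G P.n P.j₁ x| ≤ 10 * ((P.n : ℤ) * P.b₀) := by
    simp only [steer, List.mem_cons, List.not_mem_nil, or_false] at hS
    rcases hS with rfl | rfl | rfl <;> obtain ⟨a1, a2⟩ := mem_near_para B hN <;> refine ⟨a1, ?_⟩
    · have h : |hV G P.n P.j₁ x| ≤ |hV G P.n P.j₀ x| + |P.μ| * |hX G x| := by
        rw [hV_j₁, ← abs_unit_mul P.sA P.μ, ← abs_mul]; exact abs_sub _ _
      have h' : |P.μ| * |hX G x| ≤ ((P.b₀ : ℤ) + 1) * (P.n + ((B.c₀ : ℤ) + B.D₀)) :=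
        mul_le_mul (abs_μ F.hi).1 a1 (abs_nonneg _) (by linarith)
      have s4 : 100 * ((B.c₀ : ℤ) + B.D₀) * 1 ≤ 100 * ((B.c₀ : ℤ) + B.D₀) * P.b₀ :=
        mul_le_mul_of_nonneg_left (by linarith) (by linarith)
      linarith
    · linarith
    · linarith
  have h3 := abs_hX_le (P := P) hv.1
  have h4 := abs_sB (P := P) (hV G P.n P.j₁ x)
  have t1 := abs_add_le ((P.sA : ℤ) * P.b₀ * hX G x) (2 * (P.sB : ℤ) * hV G P.n P.j₁ x)
  have t2 := abs_add_le (-((P.sA : ℤ) * P.b₀ * hX G x)) (2 * (P.sB : ℤ) * hV G P.n P.j₁ x)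
  rw [abs_neg] at t2
  exact ⟨by linarith, by linarith⟩

lemma dispA_le (F : P.Fits B C B₀) (N : P.Nums B C B₀) : ∀ x ∈ B.pset P.steer.pA P.steer.M,
    (∃ y ∈ B.Bl P.steer.shA P.steer.M, H.Adj y x) →
    (P.steer.N : ℤ) ≤ 2 * G.ht P.steer.wF x ∧ G.ht P.steer.wF x ≤ 6 * P.steer.N ∧
      -(6 * (P.steer.N : ℤ)) ≤ G.ht P.steer.zF x ∧
      2 * G.ht P.steer.zF x ≤ -(P.steer.N : ℤ) := by
  rintro x ⟨hout, hlo, hhi⟩ ⟨z, hz, hzx⟩
  obtain ⟨hn0, hb100, k1, k2, -, k4, -, -, -, -, -, -⟩ := N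
  obtain ⟨hμ, hμ8⟩ := abs_μ (P := P) F.hi
  obtain ⟨a1, a2⟩ := mem_near_para B (B.adj_mem_near _ _ hz hzx)
  have hs := B.out_gt hout
  simp only [steer, endPiece, ht_endK] at hs hlo hhi
  set y := (P.sA : ℤ) * hX G x with hy'
  have hs' : (P.n : ℤ) < y := by simpa [endK] using hs
  have hy1 : y ≤ P.n + ((B.c₀ : ℤ) + B.D₀) := by
    have := le_abs_self y
    rw [hy', abs_unit_mul] at this; linarith
  have e8 : G.ht (-(8 * P.j₀), 8 * (P.n : ℤ)) x = 8 * hV G P.n P.j₀ x := by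
    simp [HeightMap.ht, dot, hV]; ring
  rw [e8] at hlo hhi
  have hc0 : (0 : ℤ) ≤ (B.c₀ : ℤ) + B.D₀ := by positivity
  have e : 8 * hV G P.n P.j₁ x
      = (8 * hV G P.n P.j₀ x - P.i * ((P.n : ℤ) * P.b₀)) + (P.n : ℤ) * (P.i * P.b₀ - 8 * P.μ)
        - 8 * (P.μ * (y - P.n)) := by
    rw [hV_j₁, hy']; ring
  have r2 : |(P.n : ℤ) * (P.i * P.b₀ - 8 * P.μ)| ≤ P.n * 8 := by
    rw [abs_mul, abs_of_pos hn0, abs_sub_comm]
    exact mul_le_mul_of_nonneg_left hμ8 hn0.le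
  have r3 : |P.μ * (y - P.n)| ≤ ((P.b₀ : ℤ) + 1) * ((B.c₀ : ℤ) + B.D₀) := by
    rw [abs_mul, abs_of_nonneg (by linarith : 0 ≤ y - (P.n : ℤ))]
    exact mul_le_mul hμ (by linarith) (by linarith) (by linarith)
  have s4 : 100 * ((B.c₀ : ℤ) + B.D₀) * 1 ≤ 100 * ((B.c₀ : ℤ) + B.D₀) * P.b₀ :=
    mul_le_mul_of_nonneg_left (by linarith) (by linarith)
  obtain ⟨r2a, r2b⟩ := abs_le.1 r2
  obtain ⟨r3a, r3b⟩ := abs_le.1 r3
  have hV1 : |hV G P.n P.j₁ x| * 4 ≤ (P.n : ℤ) * P.b₀ := by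
    rcases abs_choice (hV G P.n P.j₁ x) with h | h <;> rw [h] <;> linarith
  have hu1 : (P.n : ℤ) * P.b₀ ≤ P.b₀ * y := by
    linarith [mul_le_mul_of_nonneg_left hs'.le (Int.natCast_nonneg P.b₀)]
  have hu2 : (P.b₀ : ℤ) * y ≤ P.n * P.b₀ + ((B.c₀ : ℤ) + B.D₀) * P.b₀ := by
    linarith [mul_le_mul_of_nonneg_left hy1 (Int.natCast_nonneg P.b₀)]
  have hUy : (P.sA : ℤ) * P.b₀ * hX G x = P.b₀ * y := by rw [hy']; ring
  obtain ⟨v1, v2⟩ := abs_le.1 (le_of_eq (abs_sB (P := P) (hV G P.n P.j₁ x)))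
  rw [N_cast, ht_wF, ht_zF, hUy]
  exact ⟨by linarith, by linarith, by linarith, by linarith⟩

lemma dispB_le (N : P.Nums B C B₀) : ∀ x ∈ B.pset P.steer.pB P.steer.M,
    (∃ y ∈ B.Bl P.steer.shB P.steer.M, H.Adj y x) →
    (P.steer.N : ℤ) ≤ 2 * G.ht P.steer.wF x ∧ G.ht P.steer.wF x ≤ 6 * P.steer.N ∧
      (P.steer.N : ℤ) ≤ 2 * G.ht P.steer.zF x ∧ G.ht P.steer.zF x ≤ 6 * P.steer.N := by
  rintro x ⟨hout, -, -⟩ ⟨y, hy, hyx⟩
  obtain ⟨hn0, hb100, k1, -, k3, k4, b1lo, b1hi, -, -, -, -⟩ := N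
  obtain ⟨a1, a2⟩ := mem_near_para B (B.adj_mem_near _ _ hy hyx)
  have hs := B.out_gt hout
  simp only [steer, ht_sideK] at hs
  have hs' : (P.n : ℤ) * P.b₁ < (P.sB : ℤ) * hV G P.n P.j₁ x := by simpa [sideK] using hs
  have hv2 := le_abs_self ((P.sB : ℤ) * hV G P.n P.j₁ x)
  rw [abs_unit_mul] at hv2
  obtain ⟨u1, u2⟩ := abs_le.1 (abs_hX_le (P := P) a1)
  have hnb : (0 : ℤ) ≤ (P.n : ℤ) * P.b₀ := by positivity
  rw [N_cast, ht_wF, ht_zF]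
  exact ⟨by linarith, by linarith, by linarith, by linarith⟩

/-- The geometry. -/
theorem valid (F : P.Fits B C B₀) : P.steer.Valid B C := by
  have N := nums F
  refine ⟨?_, F.hR, ?_, ?_, (slack_le N).1, (slack_le N).2, inner_le F N, region_le F N,
    endK_mem _ _ _ _, sideK_mem _ _ _ _, dispA_le F N, dispB_le N⟩
  · have h1 := N.npos
    have h2 := N.bbig
    exact Nat.mul_pos (by omega) (by omega)
  · intro h
    have := congrArg Prod.snd h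
    have := N.npos
    rcases unit_cases P.sB with e | e <;> simp [steer, e] at * <;> omega
  · intro h
    have := congrArg Prod.snd h
    have := N.npos
    rcases unit_cases P.sB with e | e <;> simp [steer, e] at * <;> omega

end Pick

end Vale.Agent.P151.Height
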