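import Vale.Agent.P151.Height.Trap
import Vale.Agent.P151.Height.Cells
import Vale.Agent.P151.Growth.Basic

/-!
A finite window for the coarse construction of a height map: cells cut out by balls of linearly
growing radius have all the required nesting, disjointness and separation.
-/

open Finset

namespace Vale.Agent.P151.Height

open Vale.Agent.P165 (cl ball hull edgesAt inEdges)
open Vale.Agent.P151.Reduction (Bond Cell tri mem_tri)

variable {W : Type*} [DecidableEq W] {H : SimpleGraph W} [H.LocallyFinite] {G : HeightMap H}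

/-- How large the scale of the hops must be compared with the seeds on the planes. -/
def Cmin (B : Bounds G) (m : ℕ) : ℕ := 4 * (B.L m + m + B.c₀ + 2) * (B.D₀ + 1)

/-- The separation factor of seeds on the planes. -/
def sepBd (B : Bounds G) (m : ℕ) : ℕ := B.ballBd (2 * (B.L m + m))

/-- The radius of the window of time `T`. -/
def Geo.rad (Q : Geo) (B : Bounds G) (T : ℤ) : ℕ := (T.toNat + 1) * (Q.reachR B + 1)

/-- The cells up to level `M`. -/
noncomputable def Geo.window (Q : Geo) (B : Bounds G) (M : ℕ) : Cells W where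
  U := edgesAt H (Vale.Agent.P165.ball H G.o (Q.rad B ((M : ℤ) + 2)))
  gx z T := Q.gx B z T (Q.rad B T)
  cen T x := B.cenOut (Q.plane B T) Q.m x
  O T x := B.oOut (Q.plane B T) Q.m x
  tube z T σ := Q.tube B z T σ (Q.rad B T + Q.reachR B)
  ball z T := open scoped Classical in
    (eAt H {x | T * Q.Lw - 30 * Q.St.N ≤ G.ht Q.St.wF x ∧
        G.ht Q.St.wF x ≤ T * Q.Lw + 2 * Q.St.N ∧ |G.ht Q.St.zF x - z * Q.Lz| ≤ 25 * Q.St.N}
      (Vale.Agent.P165.ball H G.o (Q.rad B T))).filter fun e =>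
        ∀ v ∈ e, T * Q.Lw - 30 * Q.St.N ≤ G.ht Q.St.wF v
  half T := open scoped Classical in
    (edgesAt H (Vale.Agent.P165.ball H G.o (Q.rad B ((M : ℤ) + 2)))).filter fun e =>
      ∃ v ∈ e, G.ht Q.St.wF v < T * Q.Lw - 30 * Q.St.N

variable {B : Bounds G} {Q : Geo} {C : ℕ}

omit [DecidableEq W] in
lemma rad_succ {T : ℤ} (hT : 0 ≤ T) :
    Q.rad B (T + 1) = Q.rad B T + Q.reachR B + 1 := by
  simp only [Geo.rad, show (T + 1).toNat = T.toNat + 1 by omega]
  ring

omit [DecidableEq W] in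
lemma rad_mono {T T' : ℤ} (h : T ≤ T') : Q.rad B T ≤ Q.rad B T' :=
  Nat.mul_le_mul_right _ (Nat.succ_le_succ (Int.toNat_le_toNat h))

omit [DecidableEq W] in
lemma L_le_reachR : B.L Q.m + Q.m ≤ Q.reachR B := by
  have : 1 ≤ Geo.hops + 2 := by omega
  simp only [Geo.reachR]
  refine le_trans ?_ (Nat.le_mul_of_pos_left _ this)
  omega

omit [DecidableEq W] in
lemma mem_eAt_iff {X : Set W} {Λ : Finset W} {e : Sym2 W} [DecidableEq W] :
    e ∈ eAt H X Λ ↔ ∃ x ∈ Λ, x ∈ X ∧ ∃ y, H.Adj x y ∧ e = s(x, y) := by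
  classical
  simp only [eAt, edgesAt, mem_biUnion, mem_image, mem_filter, SimpleGraph.mem_neighborFinset,
    eq_comm, and_assoc]

attribute [local irreducible] Vale.Agent.P165.ball Geo.rad Geo.reachR

/-- The arithmetic facts about the scales. -/
structure Small (B : Bounds G) (Q : Geo) : Prop where
  N_pos : 0 < (Q.St.N : ℤ)
  wpos : 0 < nrm Q.St.wF
  edge_w : 4 * ((B.D₀ : ℤ) * nrm Q.St.wF) ≤ Q.St.N
  edge_z : 4 * ((B.D₀ : ℤ) * nrm Q.St.zF) ≤ Q.St.N
  seed_w : 4 * ((B.L Q.m + Q.m : ℕ) * (B.D₀ : ℤ) * nrm Q.St.wF) ≤ Q.St.N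
  seed_z : 4 * ((B.L Q.m + Q.m : ℕ) * (B.D₀ : ℤ) * nrm Q.St.zF) ≤ Q.St.N
  level : 4 * (((Q.m : ℤ) * B.D₀ + 1) * nrm Q.St.wF) ≤ Q.St.N
  dip : 4 * ((B.c₀ : ℤ) * nrm Q.St.wF) ≤ Q.St.N

lemma small_of_valid (hv : Q.St.Valid B C) (hC : Cmin B Q.m ≤ C) : Small B Q := by
  have key : ∀ (k : ℕ) (u : ℤ × ℤ), 4 * k ≤ Cmin B Q.m → (C : ℤ) * nrm u ≤ Q.St.N →
      4 * ((k : ℤ) * nrm u) ≤ Q.St.N := by
    intro k u hk hu
    refine le_trans ?_ hu
    rw [← mul_assoc]
    exact mul_le_mul_of_nonneg_right (by exact_mod_cast hk.trans hC) (nrm_nonneg u)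
  have h1 : ∀ r ≤ B.L Q.m + Q.m + 1, 4 * (r * B.D₀) ≤ Cmin B Q.m := fun r hr => by
    rw [Cmin, ← mul_assoc]
    exact Nat.mul_le_mul (by omega) (by omega)
  have h2 : 4 * (Q.m * B.D₀ + 1) ≤ Cmin B Q.m := by
    rw [Cmin, Nat.mul_assoc]
    refine Nat.mul_le_mul_left 4 ?_
    calc Q.m * B.D₀ + 1 ≤ (Q.m + 1) * (B.D₀ + 1) := by nlinarith
      _ ≤ _ := Nat.mul_le_mul_right _ (by omega)
  have h3 : 4 * B.c₀ ≤ Cmin B Q.m := by
    rw [Cmin]
    exact le_trans (by omega) (Nat.le_mul_of_pos_right _ (Nat.succ_pos _))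
  refine ⟨by exact_mod_cast hv.N_pos, ?_, ?_, ?_, ?_, ?_, ?_, key _ _ h3 hv.slack_w⟩
  · refine lt_of_le_of_ne (nrm_nonneg _) fun h => hv.wF_ne ?_
    simp only [nrm] at h
    have := abs_nonneg Q.St.wF.1
    have := abs_nonneg Q.St.wF.2
    ext <;> simp [abs_eq_zero.1 (show |Q.St.wF.1| = 0 by omega),
      abs_eq_zero.1 (show |Q.St.wF.2| = 0 by omega)]
  · simpa using key _ _ (h1 1 (by omega)) hv.slack_w
  · simpa using key _ _ (h1 1 (by omega)) hv.slack_z
  · simpa using key _ _ (h1 _ (Nat.le_succ _)) hv.slack_w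
  · simpa using key _ _ (h1 _ (Nat.le_succ _)) hv.slack_z
  · simpa using key _ _ h2 hv.slack_w

namespace Small

variable (hS : Small B Q) {z T : ℤ} {σ : ℤˣ}

include hS

omit [DecidableEq W] in
lemma adj {x y : W} (h : H.Adj x y) :
    4 * |G.ht Q.St.wF x - G.ht Q.St.wF y| ≤ Q.St.N ∧
      4 * |G.ht Q.St.zF x - G.ht Q.St.zF y| ≤ Q.St.N :=
  ⟨le_trans (mul_le_mul_of_nonneg_left (B.lip _ x y h) (by norm_num)) hS.edge_w,
    le_trans (mul_le_mul_of_nonneg_left (B.lip _ x y h) (by norm_num)) hS.edge_z⟩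

omit [DecidableEq W] in
lemma out_lower {x : W} (h : x ∈ B.Out (Q.plane B T) Q.m) :
    4 * (T * Q.Lw - G.ht Q.St.wF x) < Q.St.N := by
  have h1 := B.out_gt h
  have h2 := hS.level
  simp only [Geo.plane] at h1
  linarith

lemma not_out_upper {x : W} (h : x ∉ B.Out (Q.plane B T) Q.m) :
    4 * (G.ht Q.St.wF x - T * Q.Lw) ≤ Q.St.N := by
  have h1 := not_lt.1 fun h1 => h (B.mem_out_of_gt h1)
  have h2 := hS.dip
  have h3 : 0 ≤ ((Q.m : ℤ) * B.D₀ + 1) * nrm Q.St.wF :=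
    mul_nonneg (by positivity) (nrm_nonneg _)
  simp only [Geo.plane] at h1
  linarith

/-- Where the seeds of a cell live. -/
lemma lay_loc {M : ℕ} {e : Sym2 W} (he : e ∈ (Q.window B M).lay z T) :
    e ∈ H.edgeSet ∧ ∀ v ∈ e, v ∈ B.Out (Q.plane B T) Q.m ∧
      v ∈ ball H G.o (Q.rad B T + (B.L Q.m + Q.m)) ∧
      T * Q.Lw - Q.St.N ≤ G.ht Q.St.wF v ∧ G.ht Q.St.wF v ≤ T * Q.Lw + 2 * Q.St.N ∧
      |G.ht Q.St.zF v - z * Q.Lz| ≤ 27 * Q.St.N := by
  classical
  obtain ⟨x, hx, he⟩ := mem_biUnion.1 he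
  simp only [Geo.window, Geo.gx, mem_filter] at hx
  obtain ⟨hxb, hxo, hxw, hxz⟩ := hx
  obtain ⟨-, hE, -, -, hO, -, -⟩ := B.oOut_spec hxo
  refine ⟨hE (Finset.mem_coe.2 he), fun v hv => ?_⟩
  obtain ⟨h1, h2⟩ := hO e he v hv
  have hw := abs_le.1 (ht_ball B Q.St.wF h2)
  have hz := abs_le.1 (ht_ball B Q.St.zF h2)
  have := hS.seed_w
  have := hS.seed_z
  have := hS.out_lower h1
  have := abs_le.1 hxz
  have := hS.N_pos
  refine ⟨h1, (Growth.ball_add _ _ _ _).2 ⟨x, hxb, h2⟩, by linarith, by linarith,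
    abs_le.2 ⟨by linarith, by linarith⟩⟩

/-- Where the tubes live. -/
lemma tube_loc {M : ℕ} {e : Sym2 W} (he : e ∈ (Q.window B M).tube z T σ) :
    ∀ v ∈ e, T * Q.Lw - 30 * Q.St.N ≤ G.ht Q.St.wF v ∧
      G.ht Q.St.wF v ≤ (T + 1) * Q.Lw + 2 * Q.St.N ∧
      min (z * Q.Lz) ((z + (σ : ℤ)) * Q.Lz) - 46 * Q.St.N ≤ G.ht Q.St.zF v ∧
      G.ht Q.St.zF v ≤ max (z * Q.Lz) ((z + (σ : ℤ)) * Q.Lz) + 46 * Q.St.N := by
  classical
  simp only [Geo.window, Geo.tube, mem_filter] at he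
  obtain ⟨he, hlow⟩ := he
  obtain ⟨x, -, ⟨hno, hxw, hxz⟩, y, hxy, rfl⟩ := mem_eAt_iff.1 he
  obtain ⟨aw, az⟩ := hS.adj hxy
  have := hS.not_out_upper hno
  have := hS.N_pos
  have hz : min (z * Q.Lz) ((z + (σ : ℤ)) * Q.Lz) - 45 * Q.St.N ≤ G.ht Q.St.zF x ∧
      G.ht Q.St.zF x ≤ max (z * Q.Lz) ((z + (σ : ℤ)) * Q.Lz) + 45 * Q.St.N := by
    rcases hxz with ⟨-, h1, h2⟩ | h
    · exact ⟨h1, h2⟩
    · have := abs_le.1 h
      constructor
      · linarith [min_le_right (z * Q.Lz) ((z + (σ : ℤ)) * Q.Lz)]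
      · linarith [le_max_right (z * Q.Lz) ((z + (σ : ℤ)) * Q.Lz)]
  intro v hv
  refine ⟨hlow v hv, ?_⟩
  have := abs_le.1 (show |G.ht Q.St.wF x - G.ht Q.St.wF y| ≤ Q.St.N by
    linarith [abs_nonneg (G.ht Q.St.wF x - G.ht Q.St.wF y)])
  have := abs_le.1 (show |G.ht Q.St.zF x - G.ht Q.St.zF y| ≤ Q.St.N by
    linarith [abs_nonneg (G.ht Q.St.zF x - G.ht Q.St.zF y)])
  rcases Sym2.mem_iff.1 hv with rfl | rfl <;> refine ⟨?_, ?_, ?_⟩ <;> linarith [hz.1, hz.2]

end Small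

variable {M : ℕ} {z T : ℤ} {σ τ : ℤˣ}

lemma window_U_edge : ↑(Q.window B M).U ⊆ H.edgeSet := fun _ he =>
  P165.boxEdges_edge (Finset.mem_coe.1 he)

lemma tube_subset_U (hT : 0 ≤ T) (hTM : T ≤ M + 1) :
    (Q.window B M).tube z T σ ⊆ (Q.window B M).U := by
  classical
  intro e he
  simp only [Geo.window, Geo.tube, mem_filter] at he
  obtain ⟨x, hx, -, y, hxy, rfl⟩ := mem_eAt_iff.1 he.1
  refine mem_biUnion.2 ⟨x, P165.ball_mono G.o ?_ hx, mem_image.2 ⟨y, by simpa using hxy, rfl⟩⟩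
  have := rad_succ (Q := Q) (B := B) hT
  have := rad_mono (Q := Q) (B := B) (show T + 1 ≤ (M : ℤ) + 2 by omega)
  omega

lemma lay_subset_tube (hS : Small B Q) (τ : ℤˣ) :
    (Q.window B M).lay z T ⊆ (Q.window B M).tube z T τ := by
  classical
  intro e he
  obtain ⟨hE, hloc⟩ := hS.lay_loc he
  induction e with
  | h a b =>
    obtain ⟨ha1, ha2, ha3, ha4, ha5⟩ := hloc a (Sym2.mem_mk_left a b)
    simp only [Geo.window, Geo.tube, mem_filter]
    have := hS.N_pos
    refine ⟨mem_eAt_iff.2 ⟨a, P165.ball_mono G.o (Nat.add_le_add_left L_le_reachR _) ha2,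
      ⟨fun h => ?_, by linarith, Or.inl ⟨by linarith, ?_, ?_⟩⟩, b, hE, rfl⟩,
      fun v hv => by linarith [(hloc v hv).2.2.1]⟩
    · have := hS.out_lower h
      simp only [Geo.Lw] at *
      linarith
    · linarith [(abs_le.1 ha5).1, min_le_left (z * Q.Lz) ((z + (τ : ℤ)) * Q.Lz)]
    · linarith [(abs_le.1 ha5).2, le_max_left (z * Q.Lz) ((z + (τ : ℤ)) * Q.Lz)]

lemma lay_subset_gs (hS : Small B Q) (τ : ℤˣ) :
    (Q.window B M).lay z T ⊆ (Q.window B M).gs z T τ := fun _ he => by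
  classical exact mem_filter.2 ⟨lay_subset_tube hS τ he, z, he⟩

lemma gs_subset_tube : (Q.window B M).gs z T σ ⊆ (Q.window B M).tube z T σ := by
  classical exact filter_subset _ _

lemma gs_subset_rev (hT : 0 ≤ T) (hTM : T ≤ M + 1) :
    (Q.window B M).gs z T σ ⊆ (Q.window B M).rev T := by
  classical
  intro e he
  obtain ⟨h1, h2⟩ := mem_filter.1 he
  exact mem_union_right _ (mem_filter.2 ⟨tube_subset_U hT hTM h1, h2⟩)

lemma rev_subset_U : (Q.window B M).rev T ⊆ (Q.window B M).U := by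
  classical exact union_subset (filter_subset _ _) (filter_subset _ _)

/-- What has been revealed lies below the next threshold. -/
lemma rev_subset_half (hS : Small B Q) {T' : ℤ} (h : T + 1 ≤ T') :
    (Q.window B M).rev T ⊆ (Q.window B M).half T' := by
  classical
  intro e he
  have hLT : (T + 1) * Q.Lw ≤ T' * Q.Lw :=
    mul_le_mul_of_nonneg_right h (by simp only [Geo.Lw]; positivity)
  have := hS.N_pos
  simp only [Geo.Lw] at hLT
  rcases mem_union.1 he with h1 | h1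
  · obtain ⟨h2, v, hv, hlt⟩ := mem_filter.1 h1
    exact mem_filter.2 ⟨h2, v, hv, by simp only [Geo.Lw] at hlt ⊢; linarith⟩
  · obtain ⟨h2, z', hz'⟩ := mem_filter.1 h1
    induction e with
    | h a b =>
      refine mem_filter.2 ⟨h2, a, Sym2.mem_mk_left a b, ?_⟩
      have := ((hS.lay_loc hz').2 a (Sym2.mem_mk_left a b)).2.2.2.1
      simp only [Geo.Lw] at this ⊢
      linarith

lemma window_facts (hS : Small B Q) (hT : 0 ≤ T) (hTM : T ≤ M) :
    (Q.window B M).Facts z T σ := by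
  classical
  have htU : ∀ z σ, (Q.window B M).tube z T σ ⊆ (Q.window B M).U :=
    fun z σ => tube_subset_U hT (by omega)
  refine ⟨htU z σ, ?_, fun τ => gs_subset_rev hT (by omega), lay_subset_gs hS σ,
    fun τ => lay_subset_gs hS τ,
    fun τ => gs_subset_tube.trans (tube_subset_U (by omega) (by omega)), ?_, ?_,
    ((rev_subset_half hS le_rfl).trans subset_union_left).trans subset_union_left,
    fun τ => ?_, fun x hx a ω hO hxa => ?_⟩
  · refine Subset.antisymm (fun e he => ?_)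
      (subset_inter gs_subset_tube (gs_subset_rev hT (by omega)))
    obtain ⟨h1, h2⟩ := mem_inter.1 he
    refine mem_filter.2 ⟨h1, ?_⟩
    rcases mem_union.1 h2 with h | h
    · obtain ⟨-, v, hv, hlt⟩ := mem_filter.1 h
      exact absurd (hS.tube_loc h1 v hv).1 (not_le.2 hlt)
    · exact (mem_filter.1 h).2
  · intro e he
    simp only [Geo.window, Geo.tube, mem_filter] at he ⊢
    obtain ⟨x, hx, ⟨hw1, hw2, hz⟩, y, hxy, rfl⟩ := mem_eAt_iff.1 he.1
    have := hS.N_pos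
    refine ⟨mem_eAt_iff.2 ⟨x, P165.ball_mono G.o (Nat.le_add_right _ _) hx,
      ⟨fun h => ?_, hw1, Or.inl ⟨by linarith, ?_, ?_⟩⟩, y, hxy, rfl⟩, he.2⟩
    · have := hS.out_lower h
      simp only [Geo.Lw] at *
      linarith
    · linarith [(abs_le.1 hz).1, min_le_left (z * Q.Lz) ((z + (σ : ℤ)) * Q.Lz)]
    · linarith [(abs_le.1 hz).2, le_max_left (z * Q.Lz) ((z + (σ : ℤ)) * Q.Lz)]
  · intro e he
    by_cases hh : ∀ v ∈ e, (T + 1) * Q.Lw - 30 * Q.St.N ≤ G.ht Q.St.wF v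
    · refine mem_union_right _ ?_
      simp only [Geo.window, Geo.tube, mem_filter] at he ⊢
      obtain ⟨x, hx, ⟨hno, -, hz⟩, y, hxy, rfl⟩ := mem_eAt_iff.1 he.1
      have h1 := hh x (Sym2.mem_mk_left x y)
      have := hS.N_pos
      have := hS.not_out_upper hno
      refine ⟨mem_eAt_iff.2 ⟨x, P165.ball_mono G.o ?_ hx, ⟨h1, by linarith, ?_⟩, y, hxy, rfl⟩, hh⟩
      · rw [rad_succ hT]; exact Nat.le_succ _
      · rcases hz with ⟨hlt, -⟩ | hz
        · simp only [Geo.Lw] at h1 hlt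
          linarith
        · exact hz
    · push Not at hh
      exact mem_union_left _ (mem_union_left _ (mem_filter.2 ⟨htU z σ he, hh⟩))
  · rw [disjoint_left]
    intro e he he'
    obtain ⟨h1, z', hz'⟩ := mem_filter.1 he
    rcases mem_union.1 he' with h | h
    · simp only [Geo.window, Geo.tube, mem_filter] at h
      obtain ⟨x, -, ⟨hno, -⟩, y, -, rfl⟩ := mem_eAt_iff.1 h.1
      exact hno ((hS.lay_loc hz').2 x (Sym2.mem_mk_left x y)).1
    · obtain ⟨-, v, hv, hlt⟩ := mem_filter.1 (rev_subset_half hS le_rfl h)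
      exact absurd (hS.tube_loc h1 v hv).1 (not_le.2 hlt)
  · simp only [Geo.window, Geo.gx, mem_filter] at hx
    exact (B.oOut_spec hx.2.1).2.2.2.2.2.2 a ω hO hxa

lemma fresh_loc (hS : Small B Q) {e : Sym2 W} (he : e ∈ (Q.window B M).fresh z T σ) :
    ∀ v ∈ e, G.ht Q.St.wF v ≤ (T + 1) * Q.Lw + 2 * Q.St.N ∧
      |G.ht Q.St.zF v - z * Q.Lz| ≤ 247 * Q.St.N := by
  classical
  intro v hv
  have := hS.N_pos
  have hLz : Q.Lz = 100 * (Q.St.N : ℤ) := rfl
  have step : ∀ (a : ℤ) (s : ℤˣ), min (a * Q.Lz) ((a + (s : ℤ)) * Q.Lz) ≥ a * Q.Lz - Q.Lz ∧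
      max (a * Q.Lz) ((a + (s : ℤ)) * Q.Lz) ≤ a * Q.Lz + Q.Lz := by
    intro a s
    rcases Int.units_eq_one_or s with rfl | rfl <;>
      refine ⟨le_min ?_ ?_, max_le ?_ ?_⟩ <;> push_cast <;> linarith
  rcases mem_union.1 he with h | h
  · obtain ⟨-, h2, h3, h4⟩ := hS.tube_loc (mem_sdiff.1 h).1 v hv
    obtain ⟨s1, s2⟩ := step z σ
    exact ⟨h2, abs_le.2 ⟨by linarith, by linarith⟩⟩
  · obtain ⟨τ, h⟩ : ∃ τ, e ∈ (Q.window B M).gs (z + (σ : ℤ)) (T + 1) τ :=
      (mem_union.1 h).elim (fun h => ⟨_, h⟩) fun h => ⟨_, h⟩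
    obtain ⟨h1, z', hz'⟩ := mem_filter.1 h
    obtain ⟨-, -, h3, h4⟩ := hS.tube_loc h1 v hv
    obtain ⟨s1, s2⟩ := step (z + (σ : ℤ)) τ
    refine ⟨((hS.lay_loc hz').2 v hv).2.2.2.1, abs_le.2 ?_⟩
    rcases Int.units_eq_one_or σ with rfl | rfl <;> push_cast at * <;>
      constructor <;> linarith

/-- Seeds meeting each other have close contacts. -/
lemma exists_separated (hY : ∀ x : W, x ∈ ball H x (2 * (B.L Q.m + Q.m))) (T : ℤ) (Y : Finset W) :
    (∀ x ∈ Y, x ∈ B.Out (Q.plane B T) Q.m) →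
    ∃ Y', Y' ⊆ Y ∧ Y.card ≤ Y'.card * sepBd B Q.m ∧
      (Y' : Set W).PairwiseDisjoint (fun x => B.oOut (Q.plane B T) Q.m x) := by
  classical
  induction Y using Finset.strongInduction with
  | _ Y ih =>
    intro hout
    rcases Y.eq_empty_or_nonempty with rfl | ⟨x, hx⟩
    · exact ⟨∅, subset_rfl, by simp, by simp⟩
    set near := ball H x (2 * (B.L Q.m + Q.m))
    obtain ⟨Y', hsub, hcard, hdisj⟩ := ih (Y \ near)
      (ssubset_of_subset_of_ne sdiff_subset fun h => (mem_sdiff.1 (h.symm ▸ hx)).2 (hY x)) fun y hy => hout y (mem_sdiff.1 hy).1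
    refine ⟨insert x Y', insert_subset hx (hsub.trans sdiff_subset), ?_, ?_⟩
    · have hxY' : x ∉ Y' := fun h => (mem_sdiff.1 (hsub h)).2 (hY x)
      rw [card_insert_of_notMem hxY', Nat.succ_mul]
      calc Y.card ≤ (Y \ near).card + near.card := card_le_card_sdiff_add_card
        _ ≤ _ := add_le_add hcard (B.card_ball_le x _)
    · rw [coe_insert]
      refine hdisj.insert fun y hy _ => disjoint_left.2 fun e hex hey => ?_
      obtain ⟨hy1, hy2⟩ := mem_sdiff.1 (hsub hy)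
      refine hy2 ?_
      induction e with
      | h a b =>
        have ha := ((B.oOut_spec (hout x hx)).2.2.2.2.1 _ hex a (Sym2.mem_mk_left a b)).2
        have hb := ((B.oOut_spec (hout y hy1)).2.2.2.2.1 _ hey a (Sym2.mem_mk_left a b)).2
        show y ∈ ball H x (2 * (B.L Q.m + Q.m))
        rw [two_mul]
        exact (Growth.ball_add _ _ _ _).2 ⟨a, ha, Growth.ball_symm hb⟩

/-- The window has the geometry needed by the coarse step. -/
theorem window_ok (hv : Q.St.Valid B C) (hC : Cmin B Q.m ≤ C) (M : ℕ) :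
    (Q.window B M).OK M (B.oBd Q.m) (sepBd B Q.m) := by
  classical
  have hS := small_of_valid hv hC
  have := hS.N_pos
  have hb : ∀ b : Bond, b.1 ∈ tri M → 0 ≤ Cells.tOf b.1 ∧ Cells.tOf b.1 ≤ M := fun b hb => by
    obtain ⟨h1, h2, h3⟩ := mem_tri.1 hb
    simp only [Cells.tOf]
    omega
  refine ⟨fun τ => lay_subset_gs hS τ, fun τ => gs_subset_rev le_rfl (by omega),
    fun T => rev_subset_U, fun b h => window_facts hS (hb b h).1 (hb b h).2,
    fun b h τ => ?_, fun b h => ?_, fun b c h h' hcls hne ht => ?_, fun b c h h' hlt => ?_,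
    fun z T _ x hx => ?_, fun z T _ Y hY => ?_⟩
  · rcases (hb b h).1.eq_or_lt with h0 | h0
    · rw [← h0]; exact gs_subset_rev le_rfl (by omega)
    · exact ((gs_subset_rev le_rfl (by omega)).trans (rev_subset_half hS (by omega))).trans
        subset_union_left
  · obtain ⟨h1, h2⟩ := hb b h
    refine union_subset rev_subset_U (union_subset ?_ (union_subset ?_ ?_))
    · exact sdiff_subset.trans (tube_subset_U h1 (by omega))
    all_goals exact gs_subset_tube.trans (tube_subset_U (by omega) (by omega))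
  · rw [← ht]
    rw [disjoint_left]
    intro e he he'
    induction e with
    | h a a' =>
      have h1 := abs_le.1 (fresh_loc hS he a (Sym2.mem_mk_left a a')).2
      have h2 := abs_le.1 (fresh_loc hS he' a (Sym2.mem_mk_left a a')).2
      obtain ⟨⟨u, v⟩, s⟩ := b
      obtain ⟨⟨u', v'⟩, s'⟩ := c
      obtain ⟨q1, q2, -⟩ := mem_tri.1 h
      obtain ⟨q3, q4, -⟩ := mem_tri.1 h'
      simp only [Cells.cls, Cells.tOf, Prod.mk.injEq] at hcls ht q1 q2 q3 q4
      obtain ⟨-, hu, rfl⟩ := hcls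
      have hne' : u ≠ u' := fun h => hne (by subst h; rw [show v = v' by omega])
      simp only [Cells.zOf, Geo.Lz] at h1 h2
      rcases le_or_gt ((u - v) + 8) (u' - v') with hd | hd
      · nlinarith
      · have hd' : (u' - v') + 8 ≤ u - v := by omega
        nlinarith
  · obtain ⟨h1, h2⟩ := hb b h
    refine (union_subset (rev_subset_half hS (by omega)) fun e he => ?_).trans subset_union_left
    have hU : e ∈ (Q.window B M).U := by
      rcases mem_union.1 he with h3 | h3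
      · exact tube_subset_U h1 (by omega) (mem_sdiff.1 h3).1
      · rcases mem_union.1 h3 with h4 | h4 <;>
          exact tube_subset_U (by omega) (by omega) (gs_subset_tube h4)
    induction e with
    | h a a' =>
      refine mem_filter.2 ⟨hU, a, Sym2.mem_mk_left a a', ?_⟩
      have h3 := (fresh_loc hS he a (Sym2.mem_mk_left a a')).1
      have h4 : (Cells.tOf b.1 + 2) * Q.Lw ≤ Cells.tOf c.1 * Q.Lw :=
        mul_le_mul_of_nonneg_right hlt (by simp only [Geo.Lw]; positivity)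
      simp only [Geo.Lw] at h3 h4 ⊢
      linarith
  · simp only [Geo.window, Geo.gx, mem_filter] at hx
    exact (B.oOut_spec hx.2.1).2.2.1
  · refine exists_separated (Q := Q) (fun x => P165.mem_ball_of_walk .nil (Nat.zero_le _)) T Y
      fun x hx => ?_
    have := hY hx
    simp only [Geo.window, Geo.gx, mem_filter] at this
    exact this.2.1

/-- The base point is a contact of the first cell. -/
lemma o_mem_gx (hv : Q.St.Valid B C) (hC : Cmin B Q.m ≤ C) (M : ℕ) :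
    G.o ∈ (Q.window B M).gx 0 0 := by
  classical
  have hS := small_of_valid hv hC
  have := hS.wpos
  have := hS.N_pos
  have ho : ∀ u, G.ht u G.o = 0 := fun u => by simp [HeightMap.ht, G.π_o, dot]
  have hpl : 0 ≤ (Q.m : ℤ) * B.D₀ * nrm Q.St.wF := by positivity
  simp only [Geo.window, Geo.gx, mem_filter, ho]
  refine ⟨P165.mem_ball_of_walk .nil (Nat.zero_le _),
    ⟨G.o, G.o_mem_cen, .nil, Nat.zero_le _, fun y hy => ?_, ?_⟩, by linarith, by simp⟩
  · rw [SimpleGraph.Walk.support_nil, List.mem_singleton] at hy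
    subst hy
    simp only [Geo.plane, ho]
    linarith
  · simp only [Geo.plane, ho]
    linarith

/-- Seeds of a late cell are high. -/
lemma cen_high (hv : Q.St.Valid B C) (hC : Cmin B Q.m ≤ C) {x : W}
    (hx : x ∈ (Q.window B M).gx z (M : ℤ)) :
    (M : ℤ) * Q.Lw - Q.St.N ≤ G.ht Q.St.wF ((Q.window B M).cen M x) := by
  have hS := small_of_valid hv hC
  simp only [Geo.window, Geo.gx, mem_filter] at hx
  have h1 := hS.out_lower hx.2.1
  obtain ⟨-, -, -, h2, -⟩ := B.oOut_spec hx.2.1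
  have h3 := abs_le.1 (ht_ball B Q.St.wF (P165.ball_mono x (Nat.le_add_right _ Q.m) h2))
  have := hS.seed_w
  show _ ≤ G.ht Q.St.wF (B.cenOut (Q.plane B M) Q.m x)
  have := hS.N_pos
  linarith

end Vale.Agent.P151.Height
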