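import Vale.Agent.P151.Height.Defs
import Vale.Agent.P151.Base.Lattice

/-!
The lattice `ℤ^d`, `d ≥ 2`, carries a height map.
-/

namespace Vale.Agent.P151.Height

/-- The first two coordinates of a lattice point. -/
def zdPi {d : ℕ} (hd : 2 ≤ d) (x : Fin d → ℤ) : ℤ × ℤ := (x ⟨0, by omega⟩, x ⟨1, by omega⟩)

lemma zdPi_shifts {d : ℕ} (hd : 2 ≤ d) (v : ℤ × ℤ) :
    ∃ φ : zd d ≃g zd d, ∀ x, zdPi hd (φ x) = zdPi hd x + v := by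
  refine ⟨shift (Function.update (Function.update 0 ⟨0, by omega⟩ v.1) ⟨1, by omega⟩ v.2),
    fun x => ?_⟩
  simp [zdPi, shift_apply, Prod.ext_iff, Fin.ext_iff]

lemma zdPi_cofinite {d : ℕ} (hd : 2 ≤ d) :
    ∃ F : Finset (Fin d → ℤ), ∀ x, ∃ φ : zd d ≃g zd d,
      (∃ v, ∀ y, zdPi hd (φ y) = zdPi hd y + v) ∧ φ x ∈ F :=
  ⟨{0}, fun x => ⟨shift (-x), ⟨zdPi hd (-x), fun y => by simp [zdPi]⟩, by simp⟩⟩

end Vale.Agent.P151.Height
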